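import Crest.Agent.R176.Sys

/-! Row 176: generic facts on the algebra of a window-2 system. -/

set_option autoImplicit false

namespace Crest.Agent.R176

namespace Sys

variable {X Sig : Type} (S : Sys X Sig)

theorem grade_eq_span (d : ℕ) :
    S.grade d = Submodule.span (ZMod 2) {r | ∃ w : List X, w.length = d ∧ S.mono w = r} := by
  induction d with
  | zero =>
    rw [grade, pow_zero, Submodule.one_eq_span]
    congr 1
    ext r
    simp [eq_comm]
  | succ d ih =>
    rw [grade, pow_succ', ← grade, ih, Submodule.span_mul_span]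
    congr 1
    ext r
    constructor
    · rintro ⟨_, ⟨a, rfl⟩, _, ⟨w, hw, rfl⟩, rfl⟩
      exact ⟨a :: w, by simp [hw], by simp⟩
    · rintro ⟨w, hw, rfl⟩
      cases w with
      | nil => simp at hw
      | cons a w => exact ⟨_, ⟨a, rfl⟩, _, ⟨w, by simpa using hw, rfl⟩, by simp⟩

theorem span_mono : Submodule.span (ZMod 2) (Set.range S.mono) = ⊤ := by
  refine eq_top_iff.2 fun r _ => ?_
  obtain ⟨x, rfl⟩ := RingQuot.mkAlgHom_surjective (ZMod 2) S.Rel r
  induction x using FreeAlgebra.induction with
  | grade0 c =>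
    rw [AlgHom.commutes, Algebra.algebraMap_eq_smul_one]
    exact Submodule.smul_mem _ _ (Submodule.subset_span ⟨[], rfl⟩)
  | grade1 a => exact Submodule.subset_span ⟨[a], by simp [ι]⟩
  | mul x y hx hy =>
    rw [map_mul]
    have h := Submodule.mul_mem_mul (hx trivial) (hy trivial)
    rw [Submodule.span_mul_span] at h
    refine Submodule.span_mono ?_ h
    rintro _ ⟨_, ⟨u, rfl⟩, _, ⟨v, rfl⟩, rfl⟩
    exact ⟨u ++ v, S.mono_append u v⟩
  | add x y hx hy =>
    rw [map_add]
    exact Submodule.add_mem _ (hx trivial) (hy trivial)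

theorem grade_zero : S.grade 0 = 1 := pow_zero _

theorem mono_mem_grade (w : List X) : S.mono w ∈ S.grade w.length := by
  rw [grade_eq_span]
  exact Submodule.subset_span ⟨w, rfl, rfl⟩

theorem ι_mem_grade (a : X) : S.ι a ∈ S.grade 1 := by
  simpa using S.mono_mem_grade [a]

instance gradedMonoid : SetLike.GradedMonoid S.grade := Submodule.nat_power_gradedMonoid _

open DirectSum in
/-- the decomposition into homogeneous components -/
noncomputable def dec : S.Alg →ₐ[ZMod 2] ⨁ i, S.grade i :=
  RingQuot.liftAlgHom (ZMod 2) ⟨FreeAlgebra.lift _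
    fun a => DirectSum.of (fun i => S.grade i) 1 ⟨S.ι a, S.ι_mem_grade a⟩, by
      intro x y h
      cases h with
      | step h =>
        simp only [map_mul, FreeAlgebra.lift_ι_apply]
        rw [DirectSum.of_mul_of, DirectSum.of_mul_of]
        congr 1
        exact Subtype.ext (S.resp_ι.step _ _ _ _ h)
      | kill h =>
        simp only [map_mul, FreeAlgebra.lift_ι_apply, map_zero]
        rw [DirectSum.of_mul_of, ← (DirectSum.of (fun i => S.grade i) (1 + 1)).map_zero]
        congr 1
        exact Subtype.ext (S.resp_ι.kill _ _ h)⟩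

theorem dec_ι (a : X) :
    S.dec (S.ι a) = DirectSum.of (fun i => S.grade i) 1 ⟨S.ι a, S.ι_mem_grade a⟩ := by
  exact (RingQuot.liftAlgHom_mkAlgHom_apply _ _ _ _).trans (FreeAlgebra.lift_ι_apply _ _)

theorem dec_mono (w : List X) : S.dec (S.mono w) =
    DirectSum.of (fun i => S.grade i) w.length ⟨S.mono w, S.mono_mem_grade w⟩ := by
  induction w with
  | nil => exact map_one _
  | cons a w ih =>
    conv_lhs => rw [mono_cons, map_mul, ih, dec_ι, DirectSum.of_mul_of]
    exact DirectSum.of_eq_of_gradedMonoid_eq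
      (Sigma.subtype_ext (add_comm _ _) (S.mono_cons a w).symm)

theorem dec_of_mem (i : ℕ) (x : S.grade i) :
    S.dec x = DirectSum.of (fun i => S.grade i) i x := by
  obtain ⟨x, hx⟩ := x
  have hx' := hx
  rw [grade_eq_span] at hx'
  induction hx' using Submodule.span_induction with
  | mem r hr =>
    obtain ⟨w, rfl, rfl⟩ := hr
    exact S.dec_mono w
  | zero => exact (map_zero _).trans (map_zero _).symm
  | add x y h1 h2 ihx ihy =>
    rw [← grade_eq_span] at h1 h2
    exact (map_add _ _ _).trans (by rw [ihx h1, ihy h2, ← map_add]; rfl)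
  | smul c x h1 ih =>
    rw [← grade_eq_span] at h1
    exact (map_smul _ _ _).trans (by rw [ih h1, ← DirectSum.of_smul]; rfl)

/-- The grading by word length (use `GradedAlgebra.ofAlgHom` as for `TensorAlgebra.gradedAlgebra`;
the relations are homogeneous of degree 2). -/
noncomputable instance gradedAlgebra : GradedAlgebra S.grade :=
  GradedAlgebra.ofAlgHom _ S.dec
    (S.algHom_ext fun a => by
      rw [AlgHom.comp_apply, dec_ι, DirectSum.coeAlgHom_of, AlgHom.id_apply])
    S.dec_of_mem

theorem proj_zero_eq (r : S.Alg) :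
    GradedRing.proj S.grade 0 r = algebraMap (ZMod 2) S.Alg (S.eps r) := by
  have hr : r ∈ Submodule.span (ZMod 2) (Set.range S.mono) := by
    rw [span_mono]; trivial
  induction hr using Submodule.span_induction with
  | mem r hr =>
    obtain ⟨w, rfl⟩ := hr
    rw [GradedRing.proj_apply]
    cases w with
    | nil =>
      rw [DirectSum.decompose_of_mem_same S.grade (i := 0) (S.mono_mem_grade [])]
      simp
    | cons a w =>
      rw [DirectSum.decompose_of_mem_ne S.grade (S.mono_mem_grade (a :: w)) (by simp)]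
      simp [eps]
  | zero => simp
  | add x y _ _ ihx ihy => rw [map_add, ihx, ihy, map_add, map_add]
  | smul c x _ ih =>
    rw [map_smul S.eps, smul_eq_mul, map_mul, ← ih, ← Algebra.smul_def]
    exact (GradedAlgebra.proj S.grade 0).map_smul c x

theorem finite_grade [Finite X] (d : ℕ) : Finite (S.grade d) := by
  rw [grade_eq_span]
  have h : {r | ∃ w : List X, w.length = d ∧ S.mono w = r}.Finite :=
    (List.finite_length_eq X d).image S.mono
  have := Module.Finite.span_of_finite (ZMod 2) h
  exact Module.finite_of_finite (ZMod 2)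

theorem infinite_of_NZ (h : S.NZ) : Infinite S.Alg := by
  choose w hw hw0 using h
  refine Infinite.of_injective (fun n => S.mono (w n)) fun n m e => ?_
  by_contra hne
  have h1 := S.mono_mem_grade (w n)
  have h2 := S.mono_mem_grade (w m)
  rw [hw] at h1 h2
  have h3 := DirectSum.decompose_of_mem_same S.grade h1
  simp only at e
  rw [e, DirectSum.decompose_of_mem_ne S.grade h2 (Ne.symm hne)] at h3
  exact hw0 m h3.symm

theorem presentation [Finite X] :
    ∃ (m : ℕ) (rel : Finset (FreeAlgebra (ZMod 2) (Fin m) × FreeAlgebra (ZMod 2) (Fin m))),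
      Nonempty (S.Alg ≃ₐ[ZMod 2] RingQuot fun x y : FreeAlgebra (ZMod 2) (Fin m) => (x, y) ∈ rel) := by
  obtain ⟨m, ⟨e⟩⟩ := Finite.exists_equiv_fin X
  let f : X × X × Option (X × X) → FreeAlgebra (ZMod 2) (Fin m) × FreeAlgebra (ZMod 2) (Fin m) :=
    fun t => (FreeAlgebra.ι _ (e t.1) * FreeAlgebra.ι _ (e t.2.1),
      t.2.2.elim 0 fun q => FreeAlgebra.ι _ (e q.1) * FreeAlgebra.ι _ (e q.2))
  have hfin : (f '' {t | S.rule t.1 t.2.1 t.2.2}).Finite := (Set.toFinite _).image f
  refine ⟨m, hfin.toFinset, ⟨AlgEquiv.ofAlgHom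
    (S.lift (fun a => RingQuot.mkAlgHom (ZMod 2) _ (FreeAlgebra.ι _ (e a))) ⟨?_, ?_⟩)
    (RingQuot.liftAlgHom (ZMod 2) ⟨FreeAlgebra.lift _ fun i => S.ι (e.symm i), ?_⟩) ?_ ?_⟩⟩
  · intro a b a' b' h
    rw [← map_mul, ← map_mul]
    exact RingQuot.mkAlgHom_rel _ (hfin.mem_toFinset.2 ⟨(a, b, some (a', b')), h, rfl⟩)
  · intro a b h
    rw [← map_mul, ← (RingQuot.mkAlgHom (ZMod 2) _).map_zero]
    exact RingQuot.mkAlgHom_rel _ (hfin.mem_toFinset.2 ⟨(a, b, none), h, rfl⟩)
  · intro x y h
    obtain ⟨⟨a, b, o⟩, h1, h2⟩ := hfin.mem_toFinset.1 h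
    obtain ⟨rfl, rfl⟩ := Prod.mk.inj h2
    rcases o with _ | ⟨a', b'⟩
    · simpa using S.resp_ι.kill _ _ h1
    · simpa using S.resp_ι.step _ _ _ _ h1
  · apply RingQuot.ringQuot_ext'
    ext i
    simp [RingQuot.liftAlgHom_mkAlgHom_apply]
  · refine S.algHom_ext fun a => ?_
    simp [RingQuot.liftAlgHom_mkAlgHom_apply]

/-- functions on words compatible with the rules -/
def compat : Submodule (ZMod 2) (List X → ZMod 2) where
  carrier := {φ | (∀ u v a b a' b', S.rule a b (some (a', b')) →
      φ (u ++ a :: b :: v) = φ (u ++ a' :: b' :: v)) ∧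
    ∀ u v a b, S.rule a b none → φ (u ++ a :: b :: v) = 0}
  add_mem' := fun {φ ψ} h1 h2 =>
    ⟨fun u v a b a' b' h => by simp [h1.1 u v a b a' b' h, h2.1 u v a b a' b' h],
      fun u v a b h => by simp [h1.2 u v a b h, h2.2 u v a b h]⟩
  zero_mem' := ⟨fun _ _ _ _ _ _ _ => rfl, fun _ _ _ _ _ => rfl⟩
  smul_mem' := fun c φ h1 =>
    ⟨fun u v a b a' b' h => by simp [h1.1 u v a b a' b' h],
      fun u v a b h => by simp [h1.2 u v a b h]⟩

/-- appending a letter acts on compatible functions -/
def shiftOp (c : X) : Module.End (ZMod 2) S.compat where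
  toFun φ := ⟨fun w => φ.1 (w ++ [c]),
    fun u v a b a' b' h => by simpa using φ.2.1 u (v ++ [c]) a b a' b' h,
    fun u v a b h => by simpa using φ.2.2 u (v ++ [c]) a b h⟩
  map_add' _ _ := rfl
  map_smul' _ _ := rfl

theorem resp_shiftOp : S.Resp S.shiftOp where
  step a b a' b' h := by
    ext φ w
    simpa [shiftOp] using φ.2.1 w [] a b a' b' h
  kill a b h := by
    ext φ w
    simpa [shiftOp] using φ.2.2 w [] a b h

theorem lift_shiftOp_mono (w : List X) (φ : S.compat) (u : List X) :
    (S.lift S.shiftOp S.resp_shiftOp (S.mono w) φ).1 u = φ.1 (u ++ w) := by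
  induction w generalizing u with
  | nil => simp
  | cons a w ih =>
    rw [mono_cons, map_mul, lift_ι, Module.End.mul_apply]
    exact (ih (u ++ [a])).trans (by simp)

/-- A word is nonzero as soon as it lies in a set of words closed under the rules (both ways)
containing no kill window. -/
theorem mono_ne_zero_of_good (G : List X → Prop)
    (hstep : ∀ u v a b a' b', S.rule a b (some (a', b')) →
      (G (u ++ a :: b :: v) ↔ G (u ++ a' :: b' :: v)))
    (hkill : ∀ u v a b, S.rule a b none → ¬ G (u ++ a :: b :: v))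
    (w : List X) (hw : G w) : S.mono w ≠ 0 := by
  classical
  intro h0
  have h := S.lift_shiftOp_mono w ⟨fun u => if G u then 1 else 0,
    fun u v a b a' b' h => by simp only [hstep u v a b a' b' h],
    fun u v a b h => by simp only [hkill u v a b h, if_false]⟩ []
  rw [h0, map_zero] at h
  simp [hw] at h

end Sys

end Crest.Agent.R176
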