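import Mathlib

/-! A finite index subgroup of a finitely presented group is finitely presented. -/

set_option autoImplicit false

namespace Crest.Agent.R176

open Subgroup

theorem finite_of_fg_freeGroup {α : Type*} [h : Group.FG (FreeGroup α)] : Finite α := by
  classical
  obtain ⟨S, hS, hfin⟩ := Group.fg_iff.1 h
  let T : Set α := ⋃ s ∈ S, {a | a ∈ (FreeGroup.toWord s).map Prod.fst}
  have hT : T.Finite := hfin.biUnion fun s _ => List.finite_toSet _
  have hle : closure S ≤ closure (FreeGroup.of '' T) := by
    rw [closure_le]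
    intro s hs
    have key : ∀ L : List (α × Bool), (∀ p ∈ L, p.1 ∈ T) →
        FreeGroup.mk L ∈ closure (FreeGroup.of '' T) := by
      intro L
      induction L with
      | nil => intro _; exact one_mem _
      | cons p L ih =>
        intro hL
        have h1 : FreeGroup.mk (p :: L) = FreeGroup.mk [p] * FreeGroup.mk L := by
          rw [FreeGroup.mul_mk]; rfl
        rw [h1]
        refine mul_mem ?_ (ih fun q hq => hL q (List.mem_cons_of_mem _ hq))
        have hp : FreeGroup.of p.1 ∈ closure (FreeGroup.of '' T) :=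
          subset_closure ⟨p.1, hL p List.mem_cons_self, rfl⟩
        obtain ⟨a, b⟩ := p
        cases b
        · have : FreeGroup.mk [(a, false)] = (FreeGroup.of a)⁻¹ := by
            rw [FreeGroup.of, FreeGroup.inv_mk]; rfl
          rw [this]; exact inv_mem hp
        · exact hp
    rw [← FreeGroup.mk_toWord (x := s)]
    refine key _ fun p hp => ?_
    simp only [T, Set.mem_iUnion, Set.mem_ofPred_eq]
    exact ⟨s, hs, List.mem_map_of_mem hp⟩
  have huniv : ∀ a, a ∈ T := by
    intro a
    by_contra ha
    let f : FreeGroup α →* Multiplicative ℤ :=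
      FreeGroup.lift fun b => if b = a then Multiplicative.ofAdd 1 else 1
    have h1 : closure (FreeGroup.of '' T) ≤ f.ker := by
      rw [closure_le]
      rintro _ ⟨b, hb, rfl⟩
      have : b ≠ a := fun h => ha (h ▸ hb)
      simp [f, this]
    have h2 : FreeGroup.of a ∈ f.ker := h1 (hle (hS ▸ mem_top _))
    simp [f] at h2
  exact Set.finite_univ_iff.1 (hT.subset fun a _ => huniv a)

theorem fp_of_isFreeGroup (G : Type*) [Group G] [IsFreeGroup G] [Group.FG G] :
    Group.IsFinitelyPresented G := by
  have : Group.FG (FreeGroup (IsFreeGroup.Generators G)) :=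
    Group.fg_of_surjective (f := (IsFreeGroup.toFreeGroup G).toMonoidHom)
      (IsFreeGroup.toFreeGroup G).surjective
  have : Finite (IsFreeGroup.Generators G) := finite_of_fg_freeGroup
  exact Group.IsFinitelyPresented.equiv (IsFreeGroup.mulEquiv G)

theorem fng_subgroupOf {F : Type*} [Group F] {N H : Subgroup F} [H.FiniteIndex]
    (hN : N.IsFinitelyNormallyGenerated) (hNH : N ≤ H) :
    (N.subgroupOf H).IsFinitelyNormallyGenerated := by
  obtain ⟨S, hS, rfl⟩ := hN
  have : Finite (F ⧸ H) := inferInstance
  let T : Set H := {t | ∃ q : F ⧸ H, ∃ s ∈ S, (t : F) = (q.out)⁻¹ * s * q.out}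
  have hT : T.Finite := by
    have h1 : ((fun p : (F ⧸ H) × F => (p.1.out)⁻¹ * p.2 * p.1.out) '' (Set.univ ×ˢ S)).Finite :=
      (Set.finite_univ.prod hS).image _
    refine (h1.preimage Subtype.val_injective.injOn).subset ?_
    rintro t ⟨q, s, hs, ht⟩
    exact ⟨(q, s), ⟨trivial, hs⟩, ht.symm⟩
  refine ⟨T, hT, le_antisymm ?_ ?_⟩
  · refine normalClosure_le_normal ?_
    rintro t ⟨q, s, hs, ht⟩
    change (t : F) ∈ normalClosure S
    rw [ht]
    have := (normalClosure_normal (s := S)).conj_mem _ (subset_normalClosure hs) (q.out)⁻¹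
    simpa using this
  · have key : normalClosure S ≤ (normalClosure T).map H.subtype := by
      rw [normalClosure, closure_le]
      intro a ha
      obtain ⟨s, hs, hc⟩ := Group.mem_conjugatesOfSet_iff.1 ha
      obtain ⟨c, rfl⟩ := isConj_iff.1 hc
      obtain ⟨h, hh⟩ := QuotientGroup.mk_out_eq_mul H c⁻¹
      set q : F ⧸ H := QuotientGroup.mk c⁻¹
      have hmem : (q.out)⁻¹ * s * q.out ∈ H := by
        apply hNH
        have := (normalClosure_normal (s := S)).conj_mem _ (subset_normalClosure hs) (q.out)⁻¹
        simpa using this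
      have h1 : (⟨_, hmem⟩ : H) ∈ normalClosure T := subset_normalClosure ⟨q, s, hs, rfl⟩
      have h2 := (normalClosure_normal (s := T)).conj_mem _ h1 h
      refine ⟨_, h2, ?_⟩
      simp [hh, mul_assoc]
    intro x hx
    obtain ⟨y, hy, hyx⟩ := key hx
    have : y = x := Subtype.ext hyx
    exact this ▸ hy

/-- Reidemeister–Schreier. -/
theorem fp_of_finiteIndex {G : Type*} [Group G] [hG : Group.IsFinitelyPresented G]
    (H : Subgroup G) [H.FiniteIndex] : Group.IsFinitelyPresented H := by
  obtain ⟨n, φ, hφ, hker⟩ := hG.out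
  let H' := H.comap φ
  have : H'.FiniteIndex := ⟨by rw [Subgroup.index_comap_of_surjective _ hφ]; exact FiniteIndex.index_ne_zero⟩
  have : Group.IsFinitelyPresented H' := fp_of_isFreeGroup H'
  let ψ : H' →* H := (φ.comp H'.subtype).codRestrict H fun x => x.2
  refine Group.IsFinitelyPresented.of_surjective ψ ?_ ?_
  · rintro ⟨y, hy⟩
    obtain ⟨x, rfl⟩ := hφ y
    exact ⟨⟨x, hy⟩, rfl⟩
  · have h1 : ψ.ker = φ.ker.subgroupOf H' := by
      ext x
      simp [ψ, MonoidHom.mem_ker, mem_subgroupOf]
    rw [h1]
    refine fng_subgroupOf hker fun x hx => ?_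
    change φ x ∈ H
    rw [MonoidHom.mem_ker.1 hx]; exact one_mem _

end Crest.Agent.R176
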