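import Crest.Agent.R176.Alg

/-! Row 176: linearisation, `KILL → NIL`. -/

set_option autoImplicit false

namespace Crest.Agent.R176

open Polynomial in
theorem lin_nilpotent {R Y : Type} [Ring R] [Fintype Y] [DecidableEq Y] (A : Matrix Y Y R)
    (W : Matrix Y Y R[X]) (h : W * (1 - A.map fun a => C a * X) = 1) : IsNilpotent A := by
  have h' : ∀ i j, W i j = (1 : Matrix Y Y R[X]) i j + ∑ l, W i l * C (A l j) * X := by
    intro i j
    rw [Matrix.mul_sub, Matrix.mul_one, sub_eq_iff_eq_add] at h
    conv_lhs => rw [h]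
    simp only [Matrix.add_apply, Matrix.mul_apply, Matrix.map_apply, mul_assoc]
  have hk : ∀ k, W.map (fun p => p.coeff k) = A ^ k := by
    intro k
    induction k with
    | zero =>
      ext i j
      rw [Matrix.map_apply, h' i j]
      simp [Matrix.one_apply, apply_ite (fun p : R[X] => p.coeff 0)]
    | succ k ih =>
      ext i j
      rw [Matrix.map_apply, h' i j, pow_succ, ← ih]
      simp [Matrix.one_apply, apply_ite (fun p : R[X] => p.coeff (k + 1)), Matrix.mul_apply,
        coeff_one]
  refine ⟨(Finset.univ.sup fun p : Y × Y => (W p.1 p.2).natDegree) + 1, ?_⟩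
  rw [← hk]
  ext i j
  rw [Matrix.map_apply, Matrix.zero_apply]
  apply coeff_eq_zero_of_natDegree_lt
  exact Nat.lt_succ_of_le
    (Finset.le_sup (f := fun p : Y × Y => (W p.1 p.2).natDegree) (Finset.mem_univ (i, j)))

open Polynomial in
theorem lin_commute {R : Type} [Ring R] [Algebra (ZMod 2) R] (b : (ZMod 2)[X]) (a : R) :
    C a * b.map (algebraMap (ZMod 2) R) = b.map (algebraMap (ZMod 2) R) * C a := by
  ext k
  rw [coeff_mul_C, coeff_C_mul, coeff_map, Algebra.commutes]

open Polynomial in
theorem lin_pow {R Z Y : Type} [Ring R] [Algebra (ZMod 2) R] [Fintype Z] [Fintype Y]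
    [DecidableEq Y] (ι : Z → R) (B : Z → Matrix Y Y (ZMod 2)[X]) (n : ℕ) (p q : Y) :
    ((Matrix.of fun p q => ∑ γ, (B γ p q).map (algebraMap (ZMod 2) R) * C (ι γ)) ^ n) p q
      = ∑ w : Fin n → Z, ((List.ofFn fun i => B (w i)).prod p q).map (algebraMap (ZMod 2) R) *
          C ((List.ofFn w).map ι).prod := by
  induction n generalizing p with
  | zero => simp [Matrix.one_apply, apply_ite (Polynomial.map (algebraMap (ZMod 2) R))]
  | succ n ih =>
    rw [pow_succ', Matrix.mul_apply, ← (Fin.consEquiv fun _ : Fin (n + 1) => Z).sum_comp,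
      Fintype.sum_prod_type]
    simp only [ih, Matrix.of_apply, Finset.sum_mul, Finset.mul_sum]
    rw [Finset.sum_comm]
    refine (Finset.sum_congr rfl fun w _ => Finset.sum_comm).trans ?_
    rw [Finset.sum_comm]
    refine Finset.sum_congr rfl fun γ _ => Finset.sum_congr rfl fun w _ => ?_
    simp only [Fin.consEquiv_apply, List.ofFn_succ, Fin.cons_zero, Fin.cons_succ, List.prod_cons,
      List.map_cons, Matrix.mul_apply, Polynomial.map_sum, Polynomial.map_mul, Finset.sum_mul,
      C_mul]
    refine Finset.sum_congr rfl fun r _ => ?_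
    rw [mul_assoc, mul_assoc, ← mul_assoc (C (ι γ)), lin_commute, mul_assoc]

theorem lin_main {R X Y : Type} [Ring R] [Algebra (ZMod 2) R] [Fintype X] [Fintype Y]
    [DecidableEq Y] (ι : X → R) (mono : List X → R) (mono_nil : mono [] = 1)
    (mono_cons : ∀ a w, mono (a :: w) = ι a * mono w) (mono_eq : ∀ w, mono w = (w.map ι).prod)
    (h : ∀ (Y : Type) [Fintype Y] [DecidableEq Y] (B : X → Matrix Y Y (Polynomial (ZMod 2))),
      ∃ N : ℕ, ∀ n, N ≤ n → ∀ f : Matrix Y Y (Polynomial (ZMod 2)) →+ ZMod 2,
        ∑ w : Fin n → X, f ((List.ofFn fun i => B (w i)).prod) • mono (List.ofFn w) = 0)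
    (A : Matrix Y Y R) (c : Y → Y → List X →₀ ZMod 2)
    (hc : ∀ i j, ((c i j).sum fun w a => a • mono w) = A i j) (hc0 : ∀ i j, c i j [] = 0) :
    IsNilpotent A := by
  classical
  let d : ℕ := Finset.univ.sup fun p : Y × Y => (c p.1 p.2).support.sup List.length
  have hd : ∀ i j, ∀ w ∈ (c i j).support, w.length ≤ d := fun i j w hw =>
    (Finset.le_sup (f := List.length) hw).trans
      (Finset.le_sup (f := fun p : Y × Y => (c p.1 p.2).support.sup List.length)
        (Finset.mem_univ (i, j)))
  let V : Finset (List X) := (List.finite_length_le X d).toFinset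
  have hV : ∀ w, w ∈ V ↔ w.length ≤ d := fun w => by simp [V]
  have hAV : ∀ i j, ∑ v : V, ∑ γ, c i j (γ :: v.1) • mono (γ :: v.1) = A i j := by
    intro i j
    rw [← hc i j, ← Fintype.sum_prod_type', Finsupp.sum_of_support_subset (c i j)
      (s := Finset.univ.image fun p : V × X => p.2 :: p.1.1) _ _ (by simp), Finset.sum_image]
    · rintro ⟨v, γ⟩ - ⟨v', γ'⟩ - hh
      simp only [List.cons.injEq] at hh
      exact Prod.ext (Subtype.ext hh.2) hh.1
    · intro w hw
      cases w with
      | nil => exact absurd (hc0 i j) (Finsupp.mem_support_iff.1 hw)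
      | cons γ v =>
        have := hd i j _ hw
        simp only [List.length_cons] at this
        exact Finset.mem_image.2 ⟨(⟨v, (hV v).2 (by omega)⟩, γ), Finset.mem_univ _, rfl⟩
  let B : X → Matrix (Y × V) (Y × V) (Polynomial (ZMod 2)) := fun γ => Matrix.of fun s s' =>
    if s.2.1 = [] then Polynomial.C (c s.1 s'.1 (γ :: s'.2.1)) * Polynomial.X
    else if s.2.1 = γ :: s'.2.1 ∧ s.1 = s'.1 then 1 else 0
  obtain ⟨N, hN⟩ := h (Y × V) B
  let M : Matrix (Y × V) (Y × V) (Polynomial R) := Matrix.of fun p q =>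
    ∑ γ, (B γ p q).map (algebraMap (ZMod 2) R) * Polynomial.C (ι γ)
  have hM : M ^ N = 0 := by
    ext p q k
    have h1 := hN N le_rfl ((Polynomial.lcoeff (ZMod 2) k).toAddMonoidHom.comp
      (Matrix.entryAddMonoidHom _ p q))
    rw [lin_pow, Polynomial.finsetSum_coeff, Matrix.zero_apply, Polynomial.coeff_zero, ← h1]
    refine Finset.sum_congr rfl fun w _ => ?_
    rw [Polynomial.coeff_mul_C, Polynomial.coeff_map, Algebra.smul_def, ← mono_eq]
    rfl
  let U : Matrix (Y × V) Y (Polynomial R) := Matrix.of fun s j =>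
    if s.1 = j then Polynomial.C (mono s.2.1) else 0
  let E : Matrix (Y × V) Y (Polynomial R) := Matrix.of fun s j =>
    if s.1 = j ∧ s.2.1 = [] then 1 else 0
  have hMU : ∀ s j, (M * U) s j = ∑ v : V, ∑ γ, (B γ s (j, v)).map (algebraMap (ZMod 2) R) *
      Polynomial.C (mono (γ :: v.1)) := by
    intro s j
    rw [Matrix.mul_apply, Fintype.sum_prod_type, Finset.sum_eq_single j]
    · refine Finset.sum_congr rfl fun v _ => ?_
      simp only [M, U, Matrix.of_apply, if_true, Finset.sum_mul, mono_cons, Polynomial.C_mul,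
        mul_assoc]
    · intro j' _ hj
      simp [U, hj]
    · simp
  have key : (1 - M) * U = E * (1 - A.map fun a => Polynomial.C a * Polynomial.X) := by
    rw [Matrix.sub_mul, Matrix.one_mul, Matrix.mul_sub, Matrix.mul_one]
    ext1 ⟨i, u, hu⟩ j
    rw [Matrix.sub_apply, Matrix.sub_apply, hMU, Matrix.mul_apply, Finset.sum_eq_single i]
    · cases u with
      | nil =>
        simp only [U, E, B, Matrix.of_apply, if_true, mono_nil, map_one, and_true, one_mul,
          Matrix.map_apply, Polynomial.map_mul, Polynomial.map_C, Polynomial.map_X]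
        rw [← hAV i j]
        simp only [map_sum, Finset.sum_mul]
        congr 1
        refine Finset.sum_congr rfl fun v _ => Finset.sum_congr rfl fun γ _ => ?_
        rw [mul_assoc, Polynomial.X_mul_C, ← mul_assoc, ← Polynomial.C_mul, Algebra.smul_def]
      | cons a u =>
        have hu' : u ∈ V := by
          have := (hV _).1 hu
          simp only [List.length_cons] at this
          exact (hV u).2 (by omega)
        simp only [U, E, B, Matrix.of_apply, reduceCtorEq, if_false, and_false, zero_mul, sub_zero]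
        rw [sub_eq_zero, Finset.sum_eq_single ⟨u, hu'⟩, Finset.sum_eq_single a]
        · by_cases hij : i = j <;> simp [hij]
        · intro b _ hb
          simp [hb.symm]
        · simp
        · intro v _ hv
          have : u ≠ v.1 := fun e => hv (Subtype.ext e.symm)
          simp [this]
        · simp
    · intro j' _ hj
      simp [E, hj.symm]
    · simp
  have hG : (∑ k ∈ Finset.range N, M ^ k) * (1 - M) = 1 := by
    rw [geom_sum_mul_neg, hM, sub_zero]
  have hW : ((∑ k ∈ Finset.range N, M ^ k) * E) *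
      (1 - A.map fun a => Polynomial.C a * Polynomial.X) = U := by
    rw [Matrix.mul_assoc, ← key, ← Matrix.mul_assoc, hG, Matrix.one_mul]
  have hnil : ([] : List X) ∈ V := (hV _).2 (Nat.zero_le _)
  refine lin_nilpotent A (((∑ k ∈ Finset.range N, M ^ k) * E).submatrix
    (fun i => (i, ⟨[], hnil⟩)) id) ?_
  ext1 i j
  have := congrFun (congrFun hW (i, ⟨[], hnil⟩)) j
  rw [Matrix.mul_apply] at this ⊢
  refine this.trans ?_
  simp [U, Matrix.one_apply, mono_nil]

namespace Sys

variable {X Sig : Type} (S : Sys X Sig)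

theorem lin_eps_mono (w : List X) : S.eps (S.mono w) = if w = [] then 1 else 0 := by
  cases w with
  | nil => simp
  | cons a w => simp [eps]

/-- Linearisation.  Write `A i j = ∑_{w ∈ T i j} mono w` with finite sets `T i j` of NONEMPTY words of
length `≤ d` (`span_mono`, `eps (mono w) = 0` iff `w ≠ []`, coefficients in `ZMod 2`).  States
`Y' = Y × {v : words of length < d}`, `K = (ZMod 2)[t]`,
`B γ (i,[]) (j,v) = t·[γ::v ∈ T i j]`, `B γ (j,γ'::v) (j',v') = [γ=γ', j=j', v=v']`.
`M := ∑_γ B γ • ι γ` over `Alg[t]`; KILL (with `f = coeff k ∘ entry`) gives `M^N = 0`.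
With `U (j,v) j' = [j=j'] mono v`, `E (i,v) i' = [i=i', v=[]]`: `(1 - M) U = E (1 - tA)`, and the projection
`π` on the states `(i,[])` has `π U = 1`.  So `W (1 - tA) = 1` for the polynomial matrix
`W = π (∑_{k<N} M^k) E`; comparing coefficients `W_k = A^k`, hence `A^k = 0` for `k > deg W`. -/
theorem nil_of_kill [Fintype X] (h : S.KILL) : S.NIL := by
  classical
  intro Y _ _ A hA
  have hc : ∀ i j, ∃ c : List X →₀ ZMod 2, (c.sum fun w a => a • S.mono w) = A i j := by
    intro i j
    rw [← Finsupp.mem_span_range_iff_exists_finsupp, S.span_mono]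
    trivial
  choose c hc using hc
  have hc0 : ∀ i j, c i j [] = 0 := by
    intro i j
    have h1 := hA i j
    rw [← hc i j, Finsupp.sum, map_sum] at h1
    simp only [map_smul, lin_eps_mono, smul_eq_mul, mul_ite, mul_one, mul_zero,
      Finset.sum_ite_eq'] at h1
    by_contra hne
    rw [if_pos (Finsupp.mem_support_iff.2 hne)] at h1
    exact hne h1
  exact lin_main S.ι S.mono rfl S.mono_cons (fun _ => rfl) (h (Polynomial (ZMod 2))) A c hc hc0

end Sys

end Crest.Agent.R176
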