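import Crest.Agent.R176.MDef

/-! Row 176: bookkeeping for levels, macro calls, invariants. -/

set_option autoImplicit false

namespace Crest.Agent.R176

open Function WSys

variable {P : Type} {Θ : Pay P}

/-! ### levels -/

theorem setS_up (x : ℕ → Let P) : setS x (up x) = x := by
  funext i
  simp only [setS, up]
  split_ifs with h
  · rw [show 2 * (i / 2) = i by omega]
  · rw [show 2 * (i / 2) + 1 = i by omega]

theorem up_setS (x y : ℕ → Let P) : up (setS x y) = y := by
  funext j
  simp only [up, setS]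
  rw [if_pos (by omega), if_neg (by omega), show 2 * j / 2 = j by omega,
    show (2 * j + 1) / 2 = j by omega]

@[simp] theorem setS_fst (x y : ℕ → Let P) (i : ℕ) : (setS x y i).1 = (x i).1 := rfl

theorem setS_setS (x y z : ℕ → Let P) : setS (setS x y) z = setS x z := rfl

@[simp] theorem ctl_zero (x : ℕ → Let P) (j : ℕ) : ctl x 0 j = (x j).1 := rfl

theorem ctl_succ (x : ℕ → Let P) (k j : ℕ) : ctl x (k + 1) j = ctl (up x) k j := rfl

theorem ctl_iter (x : ℕ → Let P) (k l j : ℕ) : ctl (up^[k] x) l j = ctl x (l + k) j := by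
  simp [ctl, Function.iterate_add_apply]

theorem setUp_self (k : ℕ) (x : ℕ → Let P) : setUp k x (up^[k] x) = x := by
  induction k generalizing x with
  | zero => rfl
  | succ k ih => simp only [setUp, Function.iterate_succ_apply, ih, setS_up]

theorem iter_setUp (k : ℕ) (x y : ℕ → Let P) : up^[k] (setUp k x y) = y := by
  induction k generalizing x with
  | zero => rfl
  | succ k ih => simp only [setUp, Function.iterate_succ_apply, up_setS, ih]

theorem ctl_setUp_lt {k l : ℕ} (h : l < k) (x y : ℕ → Let P) (j : ℕ) :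
    ctl (setUp k x y) l j = ctl x l j := by
  induction k generalizing x l with
  | zero => omega
  | succ k ih =>
    cases l with
    | zero => rfl
    | succ l => simp only [setUp, ctl_succ, up_setS]; exact ih (by omega) _

theorem ctl_setUp_ge (k l : ℕ) (x y : ℕ → Let P) (j : ℕ) :
    ctl (setUp k x y) (l + k) j = ctl y l j := by
  rw [← ctl_iter, iter_setUp]

theorem setUp_setUp (k : ℕ) (x y z : ℕ → Let P) : setUp k (setUp k x y) z = setUp k x z := by
  induction k generalizing x with
  | zero => rfl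
  | succ k ih => simp only [setUp, up_setS, ih, setS_setS]

theorem setPay_self (x : ℕ → Let P) : setPay x (fun i => (x i).1.pay) = x := rfl

theorem putRow_self (k : ℕ) (x : ℕ → Let P) : putRow k x (rowPay x k) = x :=
  setUp_self k x

theorem ctl_putRow_self (k : ℕ) (x : ℕ → Let P) (p : ℕ → P) (j : ℕ) :
    ctl (putRow k x p) k j = { ctl x k j with pay := p j } := by
  simp only [ctl, putRow, iter_setUp, setPay]

theorem up_setPay (x : ℕ → Let P) (p : ℕ → P) : up (setPay x p) = up x := rfl

theorem ctl_putRow_ne {k l : ℕ} (h : l ≠ k) (x : ℕ → Let P) (p : ℕ → P) (j : ℕ) :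
    ctl (putRow k x p) l j = ctl x l j := by
  rcases lt_or_gt_of_ne h with h | h
  · exact ctl_setUp_lt h _ _ _
  · obtain ⟨d, rfl⟩ : ∃ d, l = (d + 1) + k := ⟨l - k - 1, by omega⟩
    rw [putRow, ctl_setUp_ge, ctl_succ, up_setPay, ← ctl_succ, ctl_iter]

theorem rowPay_putRow (k : ℕ) (x : ℕ → Let P) (p : ℕ → P) : rowPay (putRow k x p) k = p := by
  funext j; simp [rowPay, ctl_putRow_self]

theorem iter_putRow {k l : ℕ} (h : k < l) (x : ℕ → Let P) (p : ℕ → P) :
    up^[l] (putRow k x p) = up^[l] x := by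
  obtain ⟨d, rfl⟩ : ∃ d, l = (d + 1) + k := ⟨l - k - 1, by omega⟩
  rw [Function.iterate_add_apply, putRow, iter_setUp, Function.iterate_succ_apply, up_setPay,
    ← Function.iterate_succ_apply, ← Function.iterate_add_apply]

theorem putRow_putRow (k : ℕ) (x : ℕ → Let P) (p q : ℕ → P) :
    putRow k (putRow k x p) q = putRow k x q := by
  simp only [putRow, setUp_setUp, iter_setUp]
  rfl

/-- physical position of a control of positive level -/
theorem iter_snd (k : ℕ) (x : ℕ → Let P) (j : ℕ) : (up^[k] x j).2 = (x (2 ^ k * (j + 1) - 1)).2 := by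
  induction k generalizing j with
  | zero => simp
  | succ k ih =>
    rw [Function.iterate_succ_apply', up, ih]
    congr 2
    ring_nf

theorem ctl_pos (k : ℕ) (x : ℕ → Let P) (j : ℕ) :
    ctl x (k + 1) j = (x (2 ^ k * (2 * j + 1) - 1)).2 := by
  rw [ctl, Function.iterate_succ_apply', up, iter_snd]

theorem putRow_succ (k : ℕ) (x : ℕ → Let P) (p : ℕ → P) :
    putRow (k + 1) x p = setS x (putRow k (up x) p) := rfl

/-- pointwise description of `putRow` -/
theorem putRow_apply (k : ℕ) (x : ℕ → Let P) (p : ℕ → P) (i : ℕ) :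
    putRow (k + 1) x p i = if (i + 1) % 2 ^ (k + 1) = 2 ^ k then
      ((x i).1, { (x i).2 with pay := p (i / 2 ^ (k + 1)) }) else x i := by
  induction k generalizing x i with
  | zero =>
    simp only [putRow_succ, setS, zero_add, pow_one, pow_zero]
    simp only [putRow, setUp, Function.iterate_zero, id, setPay, up]
    by_cases h : i % 2 = 0
    · rw [if_pos h, if_pos (by omega), show 2 * (i / 2) = i by omega]
    · rw [if_neg h, if_neg (by omega), show 2 * (i / 2) + 1 = i by omega]
  | succ k ih =>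
    rw [putRow_succ, setS, ih]
    have h2 : 2 ^ (k + 1 + 1) = 2 * 2 ^ (k + 1) := by ring
    have h1 : 2 ^ (k + 1) = 2 * 2 ^ k := by ring
    by_cases h : i % 2 = 0
    · have hne : ¬ (i + 1) % 2 ^ (k + 1 + 1) = 2 ^ (k + 1) := by
        intro e
        have := congrArg (· % 2) e
        simp only [h2, Nat.mod_mul_right_mod] at this
        omega
      rw [if_pos h, if_neg hne]
      split_ifs <;> simp only [up, show 2 * (i / 2) = i by omega]
    · have e : i + 1 = 2 * (i / 2 + 1) := by omega
      have hiff : (i + 1) % 2 ^ (k + 1 + 1) = 2 ^ (k + 1) ↔ (i / 2 + 1) % 2 ^ (k + 1) = 2 ^ k := by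
        rw [h2, e, Nat.mul_mod_mul_left]; omega
      rw [if_neg h]
      by_cases h' : (i / 2 + 1) % 2 ^ (k + 1) = 2 ^ k
      · rw [if_pos h', if_pos (hiff.2 h')]
        simp only [up, show 2 * (i / 2) + 1 = i by omega]
        rw [h2, Nat.div_div_eq_div_mul]
      · rw [if_neg h', if_neg (fun e => h' (hiff.1 e))]
        simp only [up, show 2 * (i / 2) + 1 = i by omega]

theorem spn_zero (V : Set ℕ) : spn 0 V = V := by ext; simp [spn]

theorem spn_spn (a b : ℕ) (V : Set ℕ) : spn a (spn b V) = spn (a + b) V := by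
  ext i; simp [spn, Nat.div_div_eq_div_mul, pow_add]

theorem spn_mono (d : ℕ) {V V' : Set ℕ} (h : V ⊆ V') : spn d V ⊆ spn d V' := fun _ hi => h hi

theorem spn_Ico (d A B : ℕ) : spn d (Set.Ico A B) = Set.Ico (A * 2 ^ d) (B * 2 ^ d) := by
  ext i
  simp only [spn, Set.mem_ofPred_eq, Set.mem_Ico]
  rw [Nat.le_div_iff_mul_le (by positivity), Nat.div_lt_iff_lt_mul (by positivity)]

/-- A physical cell below the level-`k` node `j` is determined by the controls of the levels `< k` below
`j` and the level-`k` letter `j`. -/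
theorem ext_spn (k : ℕ) {x y : ℕ → Let P} {V : Set ℕ}
    (h1 : ∀ l < k, ∀ j ∈ spn (k - l) V, ctl x l j = ctl y l j)
    (h2 : ∀ j ∈ V, up^[k] x j = up^[k] y j) : ∀ i ∈ spn k V, x i = y i := by
  induction k generalizing x y with
  | zero => intro i hi; rw [spn_zero] at hi; exact h2 i hi
  | succ k ih =>
    intro i hi
    have hu := ih (x := up x) (y := up y) (fun l hl j hj => by
      have := h1 (l + 1) (by omega) j (by rwa [Nat.add_sub_add_right])
      exact this) h2 (i / 2) (by
        rw [add_comm, ← spn_spn] at hi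
        simpa [spn] using hi)
    have h0 := h1 0 (by omega) i hi
    simp only [ctl_zero] at h0
    refine Prod.ext h0 ?_
    simp only [up, Prod.mk.injEq] at hu
    rcases Nat.mod_two_eq_zero_or_one i with h | h
    · have := hu.1; rwa [show 2 * (i / 2) = i by omega] at this
    · have := hu.2; rwa [show 2 * (i / 2) + 1 = i by omega] at this

/-- the level-`k` letters over `V` only depend on the physical cells below `V` -/
theorem iter_congr (k : ℕ) {x y : ℕ → Let P} {V : Set ℕ} (h : ∀ i ∈ spn k V, x i = y i) :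
    ∀ j ∈ V, up^[k] x j = up^[k] y j := by
  induction k generalizing x y with
  | zero => intro j hj; exact h j (by rwa [spn_zero])
  | succ k ih =>
    refine ih (x := up x) (y := up y) fun i hi => ?_
    rw [add_comm, ← spn_spn] at h
    simp only [up]
    rw [h (2 * i) (by simpa [spn] using hi),
      h (2 * i + 1) (by simp only [spn, pow_one, Set.mem_ofPred_eq] at hi ⊢
                        rwa [show (2 * i + 1) / 2 = i by omega])]

theorem ctl_congr {k l : ℕ} (hl : l ≤ k) {x y : ℕ → Let P} {V : Set ℕ}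
    (h : ∀ i ∈ spn k V, x i = y i) : ∀ j ∈ spn (k - l) V, ctl x l j = ctl y l j := by
  intro j hj
  have := iter_congr l (x := x) (y := y) (V := spn (k - l) V)
    (by rw [spn_spn, show l + (k - l) = k by omega]; exact h) j hj
  simp only [ctl, this]

theorem up_sh (o : ℕ) (x : ℕ → Let P) : up (sh (2 * o) x) = sh o (up x) := by
  funext j
  simp only [up, sh]
  rw [show 2 * j + 2 * o = 2 * (j + o) by ring, show 2 * j + 1 + 2 * o = 2 * (j + o) + 1 by ring]

theorem iter_sh (k o : ℕ) (x : ℕ → Let P) : up^[k] (sh (o * 2 ^ k) x) = sh o (up^[k] x) := by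
  induction k generalizing x with
  | zero => simp
  | succ k ih =>
    rw [Function.iterate_succ_apply, Function.iterate_succ_apply,
      show o * 2 ^ (k + 1) = 2 * (o * 2 ^ k) by ring, up_sh, ih]

theorem ctl_sh (k o : ℕ) (x : ℕ → Let P) (j : ℕ) :
    ctl (sh (o * 2 ^ k) x) k j = ctl x k (j + o) := by
  simp only [ctl, iter_sh, sh]

theorem Clean.mono {k : ℕ} {V V' : Set ℕ} {x : ℕ → Let P} (h : Clean k V x) (hV : V' ⊆ V) :
    Clean k V' x := fun l hl j hj => h l hl j (spn_mono _ hV hj)

theorem Aligned.mono {k : ℕ} {V V' : Set ℕ} {x : ℕ → Let P} (h : Aligned Θ k V x) (hV : V' ⊆ V) :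
    Aligned Θ k V' x := fun l hl j hj => h l hl j (spn_mono _ hV hj)

theorem Clean.down {k l : ℕ} (hl : l ≤ k) {V : Set ℕ} {x : ℕ → Let P} (h : Clean k V x) :
    Clean l (spn (k - l) V) x := fun l' hl' j hj =>
  h l' (by omega) j (by rwa [spn_spn, show l - l' + (k - l) = k - l' by omega] at hj)

theorem Aligned.down {k l : ℕ} (hl : l ≤ k) {V : Set ℕ} {x : ℕ → Let P} (h : Aligned Θ k V x) :
    Aligned Θ l (spn (k - l) V) x := fun l' hl' j hj =>
  h l' (by omega) j (by rwa [spn_spn, show l - l' + (k - l) = k - l' by omega] at hj)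

/-! ### invariants -/

theorem Call.inv {σ : Type*} (f : P → σ)
    (hf : ∀ x y x' y', Θ.stepH x y x' y' → f x' = f x ∧ f y' = f y)
    {p b x y p' b'} (h : Call Θ p b x y p' b') : f p' = f p := by
  cases h
  case ps h => exact (hf _ _ _ _ h).1
  all_goals rfl

theorem App.inv {σ : Type*} (f : P → σ)
    (hf : ∀ x y x' y', Θ.stepH x y x' y' → f x' = f x ∧ f y' = f y)
    {o y T T'} (h : App Θ o y T T') : f T'.pay = f T.pay := by
  cases h
  case ps h => obtain ⟨_, _, h⟩ := h; exact (hf _ _ _ _ h).2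
  all_goals rfl

theorem IStep.inv {σ : Type*} (f : P → σ)
    (hf : ∀ x y x' y', Θ.stepH x y x' y' → f x' = f x ∧ f y' = f y)
    {c c'} (h : IStep Θ c c') : f c'.pay = f c.pay := by
  cases h
  · rfl
  · rename_i h; exact h.inv f hf

theorem eqv_inv {σ : Type*} (f : P → σ)
    (hf : ∀ x y x' y', Θ.stepH x y x' y' → f x' = f x ∧ f y' = f y)
    {S : Set ℕ} {x y : ℕ → Let P} (h : (core Θ).Eqv S x y) (j : ℕ) :
    (f (y j).1.pay, f (y j).2.pay) = (f (x j).1.pay, f (x j).2.pay) := by
  refine h.invariant (fun a : Let P => (f a.1.pay, f a.2.pay)) ?_ ?_ j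
  · intro a a' h
    cases h with
    | c h => simp only [h.inv f hf]
    | s h => simp only [h.inv f hf]
    | serve _ _ _ h => simp only [h.inv f hf]; rfl
  · intro a b a' b' h
    cases h with
    | serve _ _ _ _ h => simp only [h.inv f hf]; exact ⟨rfl, trivial⟩

theorem ctl_inv_of {σ : Type*} (f : P → σ) {x y : ℕ → Let P}
    (h : ∀ j, (f (y j).1.pay, f (y j).2.pay) = (f (x j).1.pay, f (x j).2.pay)) (l j : ℕ) :
    f (ctl y l j).pay = f (ctl x l j).pay := by
  induction l generalizing x y with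
  | zero => exact congrArg Prod.fst (h j)
  | succ l ih =>
    refine ih (x := up x) (y := up y) fun i => ?_
    simp only [up]
    rw [show f (y (2 * i)).2.pay = _ from congrArg Prod.snd (h (2 * i)),
      show f (y (2 * i + 1)).2.pay = _ from congrArg Prod.snd (h (2 * i + 1))]

/-- static parts of the payloads are invariant -/
theorem ctl_inv {σ : Type*} (f : P → σ)
    (hf : ∀ x y x' y', Θ.stepH x y x' y' → f x' = f x ∧ f y' = f y)
    {S : Set ℕ} {x y : ℕ → Let P} (h : (core Θ).Eqv S x y) (l j : ℕ) :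
    f (ctl y l j).pay = f (ctl x l j).pay :=
  ctl_inv_of f (eqv_inv f hf h) l j

theorem Aligned.eqv {k : ℕ} {V S : Set ℕ} {x y : ℕ → Let P} (hA : Aligned Θ k V x)
    (h : (core Θ).Eqv S x y) : Aligned Θ k V y := fun l hl j hj => by
  rw [ctl_inv Θ.pos Θ.pos_step h, hA l hl j hj]

theorem phys_eqv {S : Set ℕ} {x y : ℕ → Let P} : (phys Θ).Eqv S x y ↔ (core Θ).Eqv S x y := by
  have : (phys Θ).Step S = (core Θ).Step S := by
    funext x y
    exact propext (by rw [step_iff, step_iff]; rfl)
  simp only [Eqv, this]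

theorem phys_dead_of_core {S : Set ℕ} {x : ℕ → Let P} (h : (core Θ).Dead S x) :
    (phys Θ).Dead S x := by
  obtain ⟨y, i, h, hi, hk⟩ := h
  exact ⟨y, i, phys_eqv.2 h, hi, hk.imp Or.inl id⟩

/-! ### macro calls -/

theorem callS {S : Set ℕ} {x : ℕ → Let P} {i : ℕ} (hi : i ∈ S) (hr : (x i).1.req = none)
    {o : Opc} {y : Dat P} {p' : P} {b' : Box P} {s' : Ctl P}
    (hc : Call Θ (x i).1.pay (x i).1.box (.h1, o) y p' b') (ha : App Θ o y (x i).2 s') :
    (core Θ).Eqv S x (update x i (⟨p', b', none⟩, s')) := by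
  have e : x i = (⟨(x i).1.pay, (x i).1.box, none⟩, (x i).2) := by
    rw [← hr]
  have h1 : (core Θ).Step S x (update x i
      (⟨(x i).1.pay, (x i).1.box, some ⟨.pend, (.h1, o), y, p', b'⟩⟩, (x i).2)) :=
    Step.one hi (by rw [e]; exact S1.c (IStep.issue hc))
  have h2 := Step.one (W := core Θ) (S := S) (x := update x i
      (⟨(x i).1.pay, (x i).1.box, some ⟨.pend, (.h1, o), y, p', b'⟩⟩, (x i).2))
      (a := (⟨(x i).1.pay, (x i).1.box, some ⟨.done, (.h1, o), y, p', b'⟩⟩, s')) hi
      (by rw [update_self]; exact S1.serve (r := ⟨.pend, (.h1, o), y, p', b'⟩) rfl rfl rfl ha)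
  rw [update_idem] at h2
  have h3 := Step.one (W := core Θ) (S := S) (x := update x i
      (⟨(x i).1.pay, (x i).1.box, some ⟨.done, (.h1, o), y, p', b'⟩⟩, s'))
      (a := (⟨p', b', none⟩, s')) hi (by rw [update_self]; exact S1.c (IStep.finish hc))
  rw [update_idem] at h3
  exact h1.eqv.trans (h2.eqv.trans h3.eqv)

theorem callH {S : Set ℕ} {x : ℕ → Let P} {i : ℕ} (hi : i ∈ S) (hi' : i + 1 ∈ S)
    (hr : (x i).1.req = none) {o : Opc} {y : Dat P} {p' : P} {b' : Box P} {d' : Ctl P}
    (hc : Call Θ (x i).1.pay (x i).1.box (.h2, o) y p' b') (hN : o.isN = true)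
    (ha : App Θ o y (x (i + 1)).1 d') :
    (core Θ).Eqv S x
      (update (update x i (⟨p', b', none⟩, (x i).2)) (i + 1) (d', (x (i + 1)).2)) := by
  have e : x i = (⟨(x i).1.pay, (x i).1.box, none⟩, (x i).2) := by
    rw [← hr]
  have hne : i + 1 ≠ i := by omega
  have h1 : (core Θ).Step S x (update x i
      (⟨(x i).1.pay, (x i).1.box, some ⟨.pend, (.h2, o), y, p', b'⟩⟩, (x i).2)) :=
    Step.one hi (by rw [e]; exact S1.c (IStep.issue hc))
  have h2 := Step.two (W := core Θ) (S := S) (x := update x i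
      (⟨(x i).1.pay, (x i).1.box, some ⟨.pend, (.h2, o), y, p', b'⟩⟩, (x i).2))
      (a := (⟨(x i).1.pay, (x i).1.box, some ⟨.done, (.h2, o), y, p', b'⟩⟩, (x i).2))
      (b := (d', (x (i + 1)).2)) hi hi'
      (by rw [update_self, update_of_ne hne]
          exact S2.serve (r := ⟨.pend, (.h2, o), y, p', b'⟩) rfl rfl rfl hN ha)
  rw [update_idem] at h2
  refine h1.eqv.trans (h2.eqv.trans (eqv_one hi ?_ fun j hj => ?_))
  · rw [update_of_ne hne.symm, update_self, update_of_ne hne.symm, update_self]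
    exact S1.c (IStep.finish hc)
  · by_cases hj' : j = i + 1
    · subst hj'; simp
    · simp [hj, hj']

theorem killS {S : Set ℕ} {x : ℕ → Let P} {i : ℕ} (hi : i ∈ S) (hr : (x i).1.req = none)
    {o : Opc} {y : Dat P} {p' : P} {b' : Box P}
    (hc : Call Θ (x i).1.pay (x i).1.box (.h1, o) y p' b') (hk : Kil o y (x i).2) :
    (core Θ).Dead S x := by
  have e : x i = (⟨(x i).1.pay, (x i).1.box, none⟩, (x i).2) := by
    rw [← hr]
  have h1 : (core Θ).Step S x (update x i
      (⟨(x i).1.pay, (x i).1.box, some ⟨.pend, (.h1, o), y, p', b'⟩⟩, (x i).2)) :=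
    Step.one hi (by rw [e]; exact S1.c (IStep.issue hc))
  refine h1.eqv.dead (dead_of_k1 hi ?_)
  rw [update_self]
  exact K1.serve (r := ⟨.pend, (.h1, o), y, p', b'⟩) rfl rfl rfl hk

theorem killH {S : Set ℕ} {x : ℕ → Let P} {i : ℕ} (hi : i ∈ S) (hi' : i + 1 ∈ S)
    (hr : (x i).1.req = none) {o : Opc} {y : Dat P} {p' : P} {b' : Box P}
    (hc : Call Θ (x i).1.pay (x i).1.box (.h2, o) y p' b') (hN : o.isN = true)
    (hk : Kil o y (x (i + 1)).1) : (core Θ).Dead S x := by
  have e : x i = (⟨(x i).1.pay, (x i).1.box, none⟩, (x i).2) := by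
    rw [← hr]
  have h1 : (core Θ).Step S x (update x i
      (⟨(x i).1.pay, (x i).1.box, some ⟨.pend, (.h2, o), y, p', b'⟩⟩, (x i).2)) :=
    Step.one hi (by rw [e]; exact S1.c (IStep.issue hc))
  refine h1.eqv.dead (dead_of_k2 hi hi' ?_)
  rw [update_self, update_of_ne (by omega)]
  exact K2.serve (r := ⟨.pend, (.h2, o), y, p', b'⟩) rfl rfl rfl hN hk

end Crest.Agent.R176
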