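import Crest.Agent.R176.MNorm
import Crest.Agent.R176.Alg

/-! Row 176: from window systems on configurations to the algebra. -/

set_option autoImplicit false

namespace Crest.Agent.R176

open Function WSys

namespace WSys

variable {X Sig : Type} (W : WSys X) (st : X → Sig)

/-- the window-2 system of a window system -/
def toSys : Sys X Sig where
  rule a b o := match o with
    | some (a', b') => W.s2 a b a' b' ∨ (W.s1 a a' ∧ b' = b) ∨ (W.s1 b b' ∧ a' = a)
    | none => W.k2 a b ∨ W.k1 a ∨ W.k1 b
  st := st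

/-- the word of the first `n` cells -/
def word (x : ℕ → X) (n : ℕ) : List X := List.ofFn fun i : Fin n => x i

@[simp] theorem length_word (x : ℕ → X) (n : ℕ) : (word x n).length = n := by
  simp [word]

theorem word_succ (x : ℕ → X) (n : ℕ) : word x (n + 1) = word x n ++ [x n] := by
  rw [word, List.ofFn_succ_last]
  simp [word]

theorem word_congr {x y : ℕ → X} {n : ℕ} (h : ∀ j < n, x j = y j) : word x n = word y n := by
  unfold word
  congr 1
  funext i
  exact h i i.2

theorem word_split (x : ℕ → X) (i m : ℕ) :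
    word x (i + 2 + m) = word x i ++ x i :: x (i + 1) :: word (sh (i + 2) x) m := by
  induction m with
  | zero =>
    rw [add_zero, word_succ, word_succ]
    simp [word]
  | succ m ih =>
    rw [← add_assoc, word_succ, ih, word_succ, sh, add_comm m]
    simp

theorem word_repl {y : ℕ → X} {n : ℕ} {u v : List X} {a b : X} (h : u ++ a :: b :: v = word y n)
    (a' b' : X) : y u.length = a ∧ y (u.length + 1) = b ∧
      u ++ a' :: b' :: v = word (update (update y u.length a') (u.length + 1) b') n := by
  have hn : n = u.length + 2 + v.length := by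
    have := congrArg List.length h
    simp only [List.length_append, List.length_cons, length_word] at this
    omega
  subst hn
  rw [word_split] at h ⊢
  obtain ⟨h1, h2⟩ := List.append_inj h (length_word _ _).symm
  simp only [List.cons.injEq] at h2
  obtain ⟨h2, h3, h4⟩ := h2
  refine ⟨h2.symm, h3.symm, ?_⟩
  rw [update_self, update_of_ne (Nat.ne_of_lt (Nat.lt_succ_self _)), update_self]
  congr 1
  · refine h1.trans (word_congr fun j hj => ?_)
    rw [update_of_ne (by omega), update_of_ne (by omega)]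
  · congr 2
    refine h4.trans (word_congr fun j _ => ?_)
    simp only [sh]
    rw [update_of_ne (by omega), update_of_ne (by omega)]

variable {W}

theorem mono_window {n i : ℕ} (hi : i + 1 < n) {x y : ℕ → X}
    (h : (W.toSys st).rule (x i) (x (i + 1)) (some (y i, y (i + 1))))
    (hy : ∀ j, j ≠ i → j ≠ i + 1 → y j = x j) :
    (W.toSys st).mono (word x n) = (W.toSys st).mono (word y n) := by
  obtain ⟨m, rfl⟩ : ∃ m, n = i + 2 + m := ⟨n - (i + 2), by omega⟩
  have h1 : word y i = word x i := word_congr fun j hj => hy j (by omega) (by omega)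
  have h2 : word (sh (i + 2) y) m = word (sh (i + 2) x) m :=
    word_congr fun j _ => hy _ (by omega) (by omega)
  rw [word_split, word_split, h1, h2]
  simp only [Sys.mono_append, Sys.mono_cons, ← mul_assoc]
  congr 1
  rw [mul_assoc, mul_assoc, (W.toSys st).resp_ι.step _ _ _ _ h]

theorem mono_kill {n i : ℕ} (hi : i + 1 < n) {x : ℕ → X}
    (h : (W.toSys st).rule (x i) (x (i + 1)) none) : (W.toSys st).mono (word x n) = 0 := by
  obtain ⟨m, rfl⟩ : ∃ m, n = i + 2 + m := ⟨n - (i + 2), by omega⟩
  rw [word_split, Sys.mono_append, Sys.mono_cons, Sys.mono_cons, ← mul_assoc (Sys.ι _ _),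
    (W.toSys st).resp_ι.kill _ _ h, zero_mul, mul_zero]

theorem eqv_of_rule {i : ℕ} {x y : ℕ → X}
    (h : (W.toSys st).rule (x i) (x (i + 1)) (some (y i, y (i + 1))))
    (hy : ∀ j, j ≠ i → j ≠ i + 1 → y j = x j) : W.Eqv Set.univ x y := by
  rcases h with h | ⟨h, h'⟩ | ⟨h, h'⟩
  · exact eqv_two trivial trivial h hy
  · refine eqv_one trivial h fun j hj => ?_
    by_cases hj' : j = i + 1
    · rw [hj', h']
    · exact hy j hj hj'
  · refine eqv_one trivial h fun j hj => ?_
    by_cases hj' : j = i
    · rw [hj', h']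
    · exact hy j hj' hj

theorem mono_eq_of_eqv {n : ℕ} (hn : 2 ≤ n) {x y : ℕ → X} (h : W.Eqv (Set.Iio n) x y) :
    (W.toSys st).mono (word x n) = (W.toSys st).mono (word y n) := by
  induction h with
  | rel x y h =>
    rcases step_iff.1 h with ⟨i, hi, h, hy⟩ | ⟨i, -, hi, h, hy⟩
    · by_cases hi' : i + 1 < n
      · exact mono_window st hi' (Or.inr (Or.inl ⟨h, hy _ (by omega)⟩)) fun j hj _ => hy j hj
      · have hi2 : i < n := hi
        obtain ⟨i, rfl⟩ : ∃ k, i = k + 1 := ⟨i - 1, by omega⟩
        exact mono_window st hi2 (Or.inr (Or.inr ⟨h, hy _ (by omega)⟩)) fun j _ hj => hy j hj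
    · exact mono_window st hi (Or.inl h) hy
  | refl => rfl
  | symm _ _ _ ih => exact ih.symm
  | trans _ _ _ _ _ ih ih' => exact ih.trans ih'

theorem mono_eq_zero_of_dead {n : ℕ} (hn : 2 ≤ n) {x : ℕ → X} (h : W.Dead (Set.Iio n) x) :
    (W.toSys st).mono (word x n) = 0 := by
  obtain ⟨y, i, h, hi, hk⟩ := h
  rw [mono_eq_of_eqv st hn h]
  rcases hk with hk | ⟨hi', hk⟩
  · by_cases hi' : i + 1 < n
    · exact mono_kill st hi' (Or.inr (Or.inl hk))
    · have hi2 : i < n := hi
      obtain ⟨i, rfl⟩ : ∃ k, i = k + 1 := ⟨i - 1, by omega⟩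
      exact mono_kill st hi2 (Or.inr (Or.inr hk))
  · exact mono_kill st hi' (Or.inl hk)

/-- use `Sys.mono_ne_zero_of_good` with `G w := ∃ y, Eqv univ x y ∧ w = word y w.length` -/
theorem nz_of_not_dead {x : ℕ → X} (h : ¬ W.Dead Set.univ x) : (W.toSys st).NZ := by
  intro n
  refine ⟨word x n, length_word _ _, Sys.mono_ne_zero_of_good _
    (fun w => ∃ y m, W.Eqv Set.univ x y ∧ w = word y m) ?_ ?_ _ ⟨x, n, Eqv.refl _ _, rfl⟩⟩
  · intro u v a b a' b' hr
    have hne : u.length ≠ u.length + 1 := by omega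
    constructor
    · rintro ⟨y, m, hy, hw⟩
      obtain ⟨h1, h2, h3⟩ := word_repl hw a' b'
      refine ⟨_, m, hy.trans (eqv_of_rule st (i := u.length) ?_ fun j hj hj' => ?_), h3⟩
      · rwa [h1, h2, update_self, update_of_ne hne, update_self]
      · rw [update_of_ne hj', update_of_ne hj]
    · rintro ⟨y, m, hy, hw⟩
      obtain ⟨h1, h2, h3⟩ := word_repl hw a b
      refine ⟨_, m, hy.trans (eqv_of_rule st (i := u.length) ?_ fun j hj hj' => ?_).symm, h3⟩
      · rwa [h1, h2, update_self, update_of_ne hne, update_self]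
      · rw [update_of_ne hj', update_of_ne hj]
  · rintro u v a b hr ⟨y, m, hy, hw⟩
    obtain ⟨h1, h2, -⟩ := word_repl hw a b
    subst h1 h2
    refine hy.not_dead h ?_
    rcases hr with hr | hr | hr
    · exact dead_of_k2 trivial trivial hr
    · exact dead_of_k1 trivial hr
    · exact dead_of_k1 trivial hr

end WSys

variable {P : Type} (Θ : Pay P)

/-- the rewriting system of a payload system -/
def sysOf : Sys (Let P) (Bool × Bool) := (phys Θ).toSys (skel Θ)

theorem skel_S1 {a a' : Let P} (h : S1 Θ a a') : skel Θ a' = skel Θ a := by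
  cases h with
  | c h => simp only [skel, h.inv Θ.pos Θ.pos_step]
  | s h => simp only [skel, h.inv Θ.pos Θ.pos_step]
  | serve _ _ _ h => simp only [skel, h.inv Θ.pos Θ.pos_step]; rfl

theorem skel_S2 {a b a' b' : Let P} (h : S2 Θ a b a' b') :
    skel Θ a' = skel Θ a ∧ skel Θ b' = skel Θ b := by
  cases h with
  | serve _ _ _ _ h => simp only [skel, h.inv Θ.pos Θ.pos_step]; exact ⟨rfl, trivial⟩

theorem no_period (k : ℕ) {z : ℕ → Let P} {p : ℕ} (hp : 1 ≤ p) (hp' : p < 2 ^ k)
    (hA : Aligned Θ (k + 1) (Set.Iio 2) z)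
    (h : ∀ i, i + p < 2 * 2 ^ (k + 1) → skel Θ (z (i + p)) = skel Θ (z i)) : False := by
  induction k generalizing z p with
  | zero => omega
  | succ k ih =>
    have e1 : 2 ^ (k + 1) = 2 * 2 ^ k := by ring
    have e2 : 2 ^ (k + 1 + 1) = 2 * 2 ^ (k + 1) := by ring
    have h0 : ∀ j < 2 * 2 ^ (k + 1 + 1), Θ.pos (z j).1.pay = decide (j % 2 = 1) := fun j hj =>
      hA 0 (by omega) j ((Nat.div_lt_iff_lt_mul (by positivity)).2 hj)
    have h1 := congrArg Prod.fst (h 0 (by omega))
    simp only [skel, zero_add] at h1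
    rw [h0 p (by omega), h0 0 (by omega)] at h1
    obtain ⟨q, rfl⟩ : ∃ q, p = 2 * q := ⟨p / 2, by simp at h1; omega⟩
    refine ih (z := up z) (p := q) (by omega) (by omega) (fun l hl j hj => ?_) fun i hi => ?_
    · exact hA (l + 1) (by omega) j (by rwa [Nat.add_sub_add_right])
    · have h2 := congrArg Prod.snd (h (2 * i) (by omega))
      have h3 := congrArg Prod.snd (h (2 * i + 1) (by omega))
      simp only [skel] at h2 h3
      simp only [skel, up]
      rw [show 2 * (i + q) + 1 = 2 * i + 1 + 2 * q by ring, show 2 * (i + q) = 2 * i + 2 * q by ring,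
        h2, h3]

theorem sysOf_static : (sysOf Θ).Static := by
  rintro a b a' b' (h | ⟨h, rfl⟩ | ⟨h, rfl⟩)
  · exact skel_S2 Θ h
  · exact ⟨skel_S1 Θ h, rfl⟩
  · exact ⟨rfl, skel_S1 Θ h⟩

/-- Aperiodicity: choose `k` with `P < 2^k`..., `exists_aligned (k+1) 2`; in an aligned piece the skeleton has no
period `p ≤ P` (induction on `k`: the first components alternate so `p` is even, and `up` has period `p/2`). -/
theorem sysOf_AP : (sysOf Θ).AP := by
  intro k
  obtain ⟨N, hN⟩ := exists_aligned (Θ := Θ) (k + 1) 2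
  refine ⟨N + 2, fun w p hw hp hp' hper => ?_⟩
  let x : ℕ → Let P := fun i => w.getD i (w[0]'(by omega))
  have hx : ∀ i (hi : i < w.length), x i = w[i] := fun i hi => List.getD_eq_getElem _ _ hi
  have hwx : word x w.length = w :=
    List.ext_getElem (length_word _ _) fun i h1 h2 => by simp [word, hx i h2]
  by_cases hd : (core Θ).Dead (Set.Iio N) x
  · rw [← hwx]
    exact mono_eq_zero_of_dead _ (by omega)
      ((phys_dead_of_core hd).mono (Set.Iio_subset_Iio (by omega)))
  · obtain ⟨o, ho, hA⟩ := hN x hd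
    refine (no_period Θ k hp (hp'.trans_lt Nat.lt_two_pow_self) hA fun i hi => ?_).elim
    have h1 : i + o + p < w.length := by omega
    have h2 := hper (i + o) h1
    simp only [sh]
    rw [show i + p + o = i + o + p by ring, hx _ h1, hx _ (by omega)]
    exact h2

end Crest.Agent.R176
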