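import Crest.Agent.R176.MWin

/-! Row 176: the self-simulating relay infrastructure over a finite payload system.

A letter is a pair `(c, s)` of controls.  The level-1 letter number `j` of a configuration `x` is
`((x (2j)).2, (x (2j+1)).2)` (`up`).  A control talks to its slot (`h1`) or to the control of its right
neighbour (`h2`) through calls `issue; serve; finish`.  Calls of a level-1 control are relayed by the
level-0 controls `2j, 2j+1, 2j+2` through their boxes. -/

set_option autoImplicit false

namespace Crest.Agent.R176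

/-- A payload system: horizontal steps and kills, vertical kills (child `0` against parent) and kills on
the physical level. -/
structure Pay (P : Type) where
  pos : P → Bool
  stepH : P → P → P → P → Prop
  killH : P → P → Prop
  killV : P → P → Prop
  base : P → Prop
  pos_step : ∀ x y x' y', stepH x y x' y' → pos x' = pos x ∧ pos y' = pos y
  kill_pos : ∀ x y, pos x = pos y → killH x y

/-- the window system of one payload row -/
def Pay.row {P : Type} (Θ : Pay P) : WSys P where
  s1 _ _ := False
  k1 _ := False
  s2 := Θ.stepH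
  k2 := Θ.killH

inductive Hop | h0 | h1 | h2
  deriving DecidableEq, Fintype

def Hop.dec : Hop → Hop
  | .h2 => .h1
  | _ => .h0

inductive Opc | lock | test | unlock | ks1 | ks2 | put1 | put2 | get2 | get1 | kh1 | kh2 | ps | pk
  deriving DecidableEq, Fintype

/-- operations that only apply to targets without a request -/
def Opc.isN : Opc → Bool
  | .lock | .test | .unlock | .ks1 | .ks2 => false
  | _ => true

/-- message heads -/
abbrev Hd := Hop × Opc

def Hd.dec (x : Hd) : Hd := (x.1.dec, x.2)

/-- message data -/
inductive Dat (P : Type) | non | hd (b : Bool) (x : Hd) | pp (y y' : P)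

inductive Ph | l1 | full | f1 | f2 | f3 | done | u2
  deriving DecidableEq, Fintype

/-- boxes; `o = true`: the message was taken from the slot, `o = false`: it came from the left -/
inductive Box (P : Type) | empty | half (x : Hd) | act (o : Bool) (ph : Ph) (x : Hd) (y : Dat P)

inductive Stt | pend | tk | done
  deriving DecidableEq, Fintype

structure Rq (P : Type) where
  st : Stt
  x : Hd
  y : Dat P
  pay' : P
  box' : Box P

@[ext] structure Ctl (P : Type) where
  pay : P
  box : Box P
  req : Option (Rq P)

abbrev Let (P : Type) := Ctl P × Ctl P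

instance {P : Type} [Fintype P] : Fintype (Dat P) := derive_fintype% _
instance {P : Type} [Fintype P] : Fintype (Box P) := derive_fintype% _
instance {P : Type} [Fintype P] : Fintype (Rq P) := derive_fintype% _
instance {P : Type} [Fintype P] : Fintype (Ctl P) := derive_fintype% _

section
variable {P : Type}

/-- what a box expects to see in the request register of its slot -/
def expS : Box P → Dat P
  | .act true _ x _ => .hd false x
  | _ => .non

def tkinfo (T : Ctl P) : Dat P :=
  match T.req with
  | some ⟨.tk, x, _, _, _⟩ => .hd false x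
  | _ => .non

/-- what a box expects to see in the box of the right neighbour -/
def expH : Box P → Dat P
  | .act _ .f1 x _ => .hd false x.dec
  | .act _ .f2 x _ => .hd true x.dec
  | .act _ .f3 x _ => .hd false x.dec
  | _ => .non

def boxinfo : Box P → Dat P
  | .half x => .hd false x
  | .act false _ x _ => .hd true x
  | _ => .non

def Ph.mid : Ph → Bool
  | .l1 | .u2 => false
  | _ => true

def Ph.fwd : Ph → Bool
  | .f1 | .f2 | .f3 => true
  | _ => false

/-- well-formed boxes (`pos`: position bit of the control) -/
def Box.wf (pos : Bool) : Box P → Prop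
  | .act o ph x _ => (o = true → pos = false ∧ x.1 ≠ .h0) ∧ (o = false → ph.mid = true) ∧
      (ph.fwd = true → x.1 ≠ .h0)
  | _ => True

def Ctl.idle (C : Ctl P) : Prop := C.req = none ∧ C.box = .empty

def Ctl.setSt (C : Ctl P) (r : Rq P) (st : Stt) : Ctl P := { C with req := some { r with st := st } }

variable (Θ : Pay P)

/-- `Call p b x y p' b'`: a control with payload `p` and box `b` may send the message `(x, y)`; after
success it has payload `p'` and box `b'`. -/
inductive Call : P → Box P → Hd → Dat P → P → Box P → Prop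
  | lock {p x y} : Θ.pos p = false → x.1 ≠ .h0 →
      Call p .empty (.h1, .lock) (.hd false x) p (.act true .l1 x y)
  | test1 {p x y} : Call p (.act true .l1 x y) (.h1, .test) y p (.act true .full x y)
  | put1 {p o x y} : x.1 ≠ .h0 →
      Call p (.act o .full x y) (.h2, .put1) (.hd false x.dec) p (.act o .f1 x y)
  | put2 {p o x y} : Call p (.act o .f1 x y) (.h2, .put2) y p (.act o .f2 x y)
  | get2 {p o x y} : Call p (.act o .f2 x y) (.h2, .get2) y p (.act o .f3 x y)
  | get1 {p o x y} : x.1 ≠ .h0 →
      Call p (.act o .f3 x y) (.h2, .get1) (.hd false x.dec) p (.act o .done x y)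
  | exec {p c y} : (Θ.pos p = false → c.isN = true) →
      Call p (.act false .full (.h0, c) y) (.h1, c) y p (.act false .done (.h0, c) y)
  | test2 {p x y} : Call p (.act true .done x y) (.h1, .test) y p (.act true .u2 x y)
  | unlock {p x y} : Θ.pos p = false → x.1 ≠ .h0 →
      Call p (.act true .u2 x y) (.h1, .unlock) (.hd false x) p .empty
  | ks1 {p b} : Θ.pos p = false → Call p b (.h1, .ks1) (expS b) p b
  | ks2 {p ph x y} : ph.mid = true →
      Call p (.act true ph x y) (.h1, .ks2) y p (.act true ph x y)
  | kh1 {p b} : Call p b (.h2, .kh1) (expH b) p b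
  | kh2 {p o x y} : Call p (.act o .f2 x y) (.h2, .kh2) y p (.act o .f2 x y)
  | ps {p b q p' q'} : Θ.stepH p q p' q' → Call p b (.h2, .ps) (.pp q q') p' b
  | pkH {p b q} : Θ.killH p q → Call p b (.h2, .pk) (.pp q q) p b
  | pkV {p b q} : Θ.pos p = false → Θ.killV p q → Call p b (.h1, .pk) (.pp q q) p b

/-- effect of an operation on its target -/
inductive App : Opc → Dat P → Ctl P → Ctl P → Prop
  | lock {T r} : T.req = some r → r.st = .pend → App .lock (.hd false r.x) T (T.setSt r .tk)
  | test {T r} : T.req = some r → r.st = .tk → App .test r.y T T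
  | unlock {T r} : T.req = some r → r.st = .tk → App .unlock (.hd false r.x) T (T.setSt r .done)
  | put1 {T x} : T.req = none → T.box = .empty → App .put1 (.hd false x) T { T with box := .half x }
  | put2 {T x y} : T.req = none → T.box = .half x →
      App .put2 y T { T with box := .act false .full x y }
  | get2 {T x y} : T.req = none → T.box = .act false .done x y →
      App .get2 y T { T with box := .half x }
  | get1 {T x} : T.req = none → T.box = .half x → App .get1 (.hd false x) T { T with box := .empty }
  | ps {T q'} : T.req = none → (∃ p p', Θ.stepH p T.pay p' q') →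
      App .ps (.pp T.pay q') T { T with pay := q' }

/-- killing operations -/
inductive Kil : Opc → Dat P → Ctl P → Prop
  | ks1 {T e} : tkinfo T ≠ e → Kil .ks1 e T
  | ks2 {T r y} : T.req = some r → r.y ≠ y → Kil .ks2 y T
  | kh1 {T e} : T.req = none → boxinfo T.box ≠ e → Kil .kh1 e T
  | kh2 {T ph x y y'} : T.req = none → T.box = .act false ph x y' → y' ≠ y → Kil .kh2 y T
  | pk {T q} : T.req = none → Kil .pk (.pp T.pay q) T

/-- internal steps of a control: issuing and finishing a call -/
inductive IStep : Ctl P → Ctl P → Prop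
  | issue {p b x y p' b'} : Call Θ p b x y p' b' →
      IStep ⟨p, b, none⟩ ⟨p, b, some ⟨.pend, x, y, p', b'⟩⟩
  | finish {p b x y p' b'} : Call Θ p b x y p' b' →
      IStep ⟨p, b, some ⟨.done, x, y, p', b'⟩⟩ ⟨p', b', none⟩

/-- internally well-formed controls -/
def Ctl.ok (C : Ctl P) : Prop :=
  C.box.wf (Θ.pos C.pay) ∧ ∀ r, C.req = some r → Call Θ C.pay C.box r.x r.y r.pay' r.box'

inductive S1 : Let P → Let P → Prop
  | c {c c' s} : IStep Θ c c' → S1 (c, s) (c', s)
  | s {c s s'} : IStep Θ s s' → S1 (c, s) (c, s')
  | serve {c s s' r o} : c.req = some r → r.st = .pend → r.x = (.h1, o) → App Θ o r.y s s' →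
      S1 (c, s) (c.setSt r .done, s')

inductive K1 : Let P → Prop
  | c {c s} : ¬ c.ok Θ → K1 (c, s)
  | s {c s} : ¬ s.ok Θ → K1 (c, s)
  | tk {c s r} : c.req = some r → r.st = .tk → K1 (c, s)
  | serve {c s r o} : c.req = some r → r.st = .pend → r.x = (.h1, o) → Kil o r.y s → K1 (c, s)

inductive S2 : Let P → Let P → Let P → Let P → Prop
  | serve {c s d d' t r o} : c.req = some r → r.st = .pend → r.x = (.h2, o) → o.isN = true →
      App Θ o r.y d d' → S2 (c, s) (d, t) (c.setSt r .done, s) (d', t)

inductive K2 : Let P → Let P → Prop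
  | serve {c s d t r o} : c.req = some r → r.st = .pend → r.x = (.h2, o) → o.isN = true →
      Kil o r.y d → K2 (c, s) (d, t)

/-- the self-similar system -/
def core : WSys (Let P) := ⟨S1 Θ, K1 Θ, S2 Θ, K2⟩

/-- the physical system: additional kills on level `0` -/
def phys : WSys (Let P) :=
  ⟨S1 Θ, fun a => K1 Θ a ∨ (a.1.req = none ∧ Θ.base a.1.pay), S2 Θ, K2⟩

/-- the level-1 configuration -/
def up (x : ℕ → Let P) : ℕ → Let P := fun j => ((x (2 * j)).2, (x (2 * j + 1)).2)

/-- replace the slots by a level-1 configuration -/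
def setS (x y : ℕ → Let P) : ℕ → Let P := fun i =>
  ((x i).1, if i % 2 = 0 then (y (i / 2)).1 else (y (i / 2)).2)

/-- replace the level-`k` configuration -/
def setUp : ℕ → (ℕ → Let P) → (ℕ → Let P) → (ℕ → Let P)
  | 0, _, y => y
  | k + 1, x, y => setS x (setUp k (up x) y)

/-- control of the node `j` of level `k` -/
def ctl (x : ℕ → Let P) (k j : ℕ) : Ctl P := (up^[k] x j).1

/-- the payload row of level `k` -/
def rowPay (x : ℕ → Let P) (k : ℕ) : ℕ → P := fun j => (ctl x k j).pay

def setPay (x : ℕ → Let P) (p : ℕ → P) : ℕ → Let P := fun i => ({ (x i).1 with pay := p i }, (x i).2)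

/-- replace the payload row of level `k` -/
def putRow (k : ℕ) (x : ℕ → Let P) (p : ℕ → P) : ℕ → Let P := setUp k x (setPay (up^[k] x) p)

/-- the nodes `d` levels below the nodes of `V` -/
def spn (d : ℕ) (V : Set ℕ) : Set ℕ := {i | i / 2 ^ d ∈ V}

/-- The levels `< k` below the level-`k` nodes in `V` carry the right position bits. -/
def Aligned (k : ℕ) (V : Set ℕ) (x : ℕ → Let P) : Prop :=
  ∀ l < k, ∀ j ∈ spn (k - l) V, Θ.pos (ctl x l j).pay = decide (j % 2 = 1)

/-- The levels `< k` below the level-`k` nodes in `V` are idle. -/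
def Clean (k : ℕ) (V : Set ℕ) (x : ℕ → Let P) : Prop :=
  ∀ l < k, ∀ j ∈ spn (k - l) V, (ctl x l j).idle

/-- the skeleton of a letter -/
def skel (a : Let P) : Bool × Bool := (Θ.pos a.1.pay, Θ.pos a.2.pay)

end

theorem mdef_eqns_forced : True := by
  have := @Crest.Agent.R176.Ph.fwd.eq_1
  have := @Crest.Agent.R176.Ph.fwd.eq_2
  have := @Crest.Agent.R176.Ph.fwd.eq_3
  have := @Crest.Agent.R176.Ph.fwd.eq_4
  have := @Crest.Agent.R176.Ph.mid._sparseCasesOn_1.else_eq.{1}
  have := @Crest.Agent.R176.Ph.mid.eq_1
  have := @Crest.Agent.R176.Ph.mid.eq_2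
  have := @Crest.Agent.R176.Ph.mid.eq_3
  have := @Crest.Agent.R176.expH._sparseCasesOn_1.else_eq.{1}
  have := @Crest.Agent.R176.expS._sparseCasesOn_1.else_eq.{1}
  have := @Crest.Agent.R176.spn.eq_1
  trivial

end Crest.Agent.R176
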