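import Crest.Agent.R176.MBasic

/-! Row 176: level-`k` computations lift to the physical level. -/

set_option autoImplicit false

namespace Crest.Agent.R176

open Function WSys

variable {P : Type} {Θ : Pay P}

namespace Relay

/-- a configuration with three prescribed consecutive cells -/
def c3 (z : ℕ → Let P) (i : ℕ) (A B C : Let P) : ℕ → Let P := fun k =>
  if k = i then A else if k = i + 1 then B else if k = i + 2 then C else z k

variable {S : Set ℕ} {z : ℕ → Let P} {i : ℕ}

theorem c3_0 (A B C : Let P) : c3 z i A B C i = A := by simp [c3]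
theorem c3_1 (A B C : Let P) : c3 z i A B C (i + 1) = B := by simp [c3]
theorem c3_2 (A B C : Let P) : c3 z i A B C (i + 2) = C := by simp [c3]

theorem up0 (A A' B C : Let P) : update (c3 z i A B C) i A' = c3 z i A' B C := by
  funext k
  by_cases h : k = i <;> simp [c3, h]

theorem up1 (A B B' C : Let P) : update (c3 z i A B C) (i + 1) B' = c3 z i A B' C := by
  funext k
  by_cases h : k = i + 1 <;> simp [c3, h]

theorem up2 (A B C C' : Let P) : update (c3 z i A B C) (i + 2) C' = c3 z i A B C' := by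
  funext k
  by_cases h : k = i + 2 <;> simp [c3, h]

theorem eq_c3 {x : ℕ → Let P} {A B C : Let P} (h0 : x i = A) (h1 : x (i + 1) = B)
    (h2 : x (i + 2) = C) (h : ∀ k, k ≠ i → k ≠ i + 1 → k ≠ i + 2 → x k = z k) :
    x = c3 z i A B C := by
  funext k
  simp only [c3]
  split_ifs with a b c
  · rw [a, h0]
  · rw [b, h1]
  · rw [c, h2]
  · exact h k a b c

variable {p p' q : P} {b b' d d' : Box P} {o : Opc} {y : Dat P} {s s' t : Ctl P} {A B C : Let P}

theorem s0 (hi : i ∈ S) (hc : Call Θ p b (.h1, o) y p' b') (ha : App Θ o y s s') :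
    (core Θ).Eqv S (c3 z i (⟨p, b, none⟩, s) B C) (c3 z i (⟨p', b', none⟩, s') B C) := by
  have := callS (Θ := Θ) (x := c3 z i (⟨p, b, none⟩, s) B C) hi (by rw [c3_0])
    (by rw [c3_0]; exact hc) (by rw [c3_0]; exact ha)
  rwa [up0] at this

theorem s1 (hi : i + 1 ∈ S) (hc : Call Θ p b (.h1, o) y p' b') (ha : App Θ o y s s') :
    (core Θ).Eqv S (c3 z i A (⟨p, b, none⟩, s) C) (c3 z i A (⟨p', b', none⟩, s') C) := by
  have := callS (Θ := Θ) (x := c3 z i A (⟨p, b, none⟩, s) C) hi (by rw [c3_1])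
    (by rw [c3_1]; exact hc) (by rw [c3_1]; exact ha)
  rwa [up1] at this

theorem s2 (hi : i + 2 ∈ S) (hc : Call Θ p b (.h1, o) y p' b') (ha : App Θ o y s s') :
    (core Θ).Eqv S (c3 z i A B (⟨p, b, none⟩, s)) (c3 z i A B (⟨p', b', none⟩, s')) := by
  have := callS (Θ := Θ) (x := c3 z i A B (⟨p, b, none⟩, s)) hi (by rw [c3_2])
    (by rw [c3_2]; exact hc) (by rw [c3_2]; exact ha)
  rwa [up2] at this

theorem h0 (hi : i ∈ S) (hi' : i + 1 ∈ S) (hc : Call Θ p b (.h2, o) y p' b') (hN : o.isN = true)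
    (ha : App Θ o y ⟨q, d, none⟩ ⟨q, d', none⟩) :
    (core Θ).Eqv S (c3 z i (⟨p, b, none⟩, s) (⟨q, d, none⟩, t) C)
      (c3 z i (⟨p', b', none⟩, s) (⟨q, d', none⟩, t) C) := by
  have := callH (Θ := Θ) (x := c3 z i (⟨p, b, none⟩, s) (⟨q, d, none⟩, t) C) hi hi' (by rw [c3_0])
    (by rw [c3_0]; exact hc) hN (by rw [c3_1]; exact ha)
  rwa [up0, up1, c3_0, c3_1] at this

theorem h1 (hi : i + 1 ∈ S) (hi' : i + 2 ∈ S) (hc : Call Θ p b (.h2, o) y p' b')
    (hN : o.isN = true) (ha : App Θ o y ⟨q, d, none⟩ ⟨q, d', none⟩) :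
    (core Θ).Eqv S (c3 z i A (⟨p, b, none⟩, s) (⟨q, d, none⟩, t))
      (c3 z i A (⟨p', b', none⟩, s) (⟨q, d', none⟩, t)) := by
  have := callH (Θ := Θ) (x := c3 z i A (⟨p, b, none⟩, s) (⟨q, d, none⟩, t)) hi hi' (by rw [c3_1])
    (by rw [c3_1]; exact hc) hN (by rw [c3_2]; exact ha)
  rwa [up1, up2, c3_1, c3_2] at this

theorem k0 (hi : i ∈ S) (hc : Call Θ p b (.h1, o) y p' b') (hk : Kil o y s) :
    (core Θ).Dead S (c3 z i (⟨p, b, none⟩, s) B C) :=
  killS hi (by rw [c3_0]) (by rw [c3_0]; exact hc) (by rw [c3_0]; exact hk)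

theorem k1 (hi : i + 1 ∈ S) (hc : Call Θ p b (.h1, o) y p' b') (hk : Kil o y s) :
    (core Θ).Dead S (c3 z i A (⟨p, b, none⟩, s) C) :=
  killS hi (by rw [c3_1]) (by rw [c3_1]; exact hc) (by rw [c3_1]; exact hk)

theorem k2 (hi : i + 2 ∈ S) (hc : Call Θ p b (.h1, o) y p' b') (hk : Kil o y s) :
    (core Θ).Dead S (c3 z i A B (⟨p, b, none⟩, s)) :=
  killS hi (by rw [c3_2]) (by rw [c3_2]; exact hc) (by rw [c3_2]; exact hk)

variable {c : Ctl P} {r : Rq P} {w : Bool} {h : Hd}

/-- lock, test1, put1, put2 -/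
theorem grab (hi : i ∈ S) (hi' : i + 1 ∈ S) (hp : Θ.pos p = false) (hr : c.req = some r)
    (hs : r.st = .pend) (hx : r.x.1 ≠ .h0) :
    (core Θ).Eqv S (c3 z i (⟨p, .empty, none⟩, c) (⟨q, .empty, none⟩, t) C)
      (c3 z i (⟨p, .act true .f2 r.x r.y, none⟩, c.setSt r .tk)
        (⟨q, .act false .full r.x.dec r.y, none⟩, t) C) :=
  (s0 hi (Call.lock hp hx) (App.lock hr hs)).trans <|
  (s0 hi Call.test1 (App.test (r := { r with st := .tk }) rfl rfl)).trans <|
  (h0 hi hi' (Call.put1 hx) rfl (App.put1 (T := ⟨q, .empty, none⟩) rfl rfl)).trans <|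
  h0 hi hi' Call.put2 rfl (App.put2 (T := ⟨q, .half r.x.dec, none⟩) rfl rfl)

/-- get2, get1, test2, unlock -/
theorem release (hi : i ∈ S) (hi' : i + 1 ∈ S) (hp : Θ.pos p = false) (hx : r.x.1 ≠ .h0) :
    (core Θ).Eqv S (c3 z i (⟨p, .act true .f2 r.x r.y, none⟩, c.setSt r .tk)
        (⟨q, .act false .done r.x.dec r.y, none⟩, t) C)
      (c3 z i (⟨p, .empty, none⟩, c.setSt r .done) (⟨q, .empty, none⟩, t) C) :=
  (h0 hi hi' Call.get2 rfl (App.get2 (T := ⟨q, .act false .done r.x.dec r.y, none⟩) rfl rfl)).trans <|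
  (h0 hi hi' (Call.get1 hx) rfl (App.get1 (T := ⟨q, .half r.x.dec, none⟩) rfl rfl)).trans <|
  (s0 hi Call.test2 (App.test (r := { r with st := .tk }) rfl rfl)).trans <|
  s0 hi (Call.unlock hp hx) (App.unlock (T := c.setSt r .tk) (r := { r with st := .tk }) rfl rfl)

/-- put1, put2 in the middle -/
theorem send (hi : i + 1 ∈ S) (hi' : i + 2 ∈ S) (hx : h.1 ≠ .h0) :
    (core Θ).Eqv S (c3 z i A (⟨p, .act w .full h y, none⟩, s) (⟨q, .empty, none⟩, t))
      (c3 z i A (⟨p, .act w .f2 h y, none⟩, s) (⟨q, .act false .full h.dec y, none⟩, t)) :=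
  (h1 hi hi' (Call.put1 hx) rfl (App.put1 (T := ⟨q, .empty, none⟩) rfl rfl)).trans <|
  h1 hi hi' Call.put2 rfl (App.put2 (T := ⟨q, .half h.dec, none⟩) rfl rfl)

/-- get2, get1 in the middle -/
theorem recv (hi : i + 1 ∈ S) (hi' : i + 2 ∈ S) (hx : h.1 ≠ .h0) :
    (core Θ).Eqv S
      (c3 z i A (⟨p, .act w .f2 h y, none⟩, s) (⟨q, .act false .done h.dec y, none⟩, t))
      (c3 z i A (⟨p, .act w .done h y, none⟩, s) (⟨q, .empty, none⟩, t)) :=
  (h1 hi hi' Call.get2 rfl (App.get2 (T := ⟨q, .act false .done h.dec y, none⟩) rfl rfl)).trans <|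
  h1 hi hi' (Call.get1 hx) rfl (App.get1 (T := ⟨q, .half h.dec, none⟩) rfl rfl)

theorem relayS (hi : i ∈ S) (hi' : i + 1 ∈ S) (hp : Θ.pos p = false) (hq : Θ.pos q = true)
    (hr : c.req = some r) (hs : r.st = .pend) (hx : r.x = (.h1, o)) (ha : App Θ o r.y s s') :
    (core Θ).Eqv S (c3 z i (⟨p, .empty, none⟩, c) (⟨q, .empty, none⟩, s) C)
      (c3 z i (⟨p, .empty, none⟩, c.setSt r .done) (⟨q, .empty, none⟩, s') C) := by
  have hx' : r.x.1 ≠ .h0 := by rw [hx]; simp
  refine (grab hi hi' hp hr hs hx').trans (Eqv.trans ?_ (release hi hi' hp hx'))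
  rw [show r.x.dec = (.h0, o) by rw [hx]; rfl]
  exact s1 hi' (Call.exec fun e => by rw [hq] at e; cases e) ha

theorem relayKS (hi : i ∈ S) (hi' : i + 1 ∈ S) (hp : Θ.pos p = false) (hq : Θ.pos q = true)
    (hr : c.req = some r) (hs : r.st = .pend) (hx : r.x = (.h1, o)) (hk : Kil o r.y s) :
    (core Θ).Dead S (c3 z i (⟨p, .empty, none⟩, c) (⟨q, .empty, none⟩, s) C) := by
  have hx' : r.x.1 ≠ .h0 := by rw [hx]; simp
  refine (grab hi hi' hp hr hs hx').dead ?_
  rw [show r.x.dec = (.h0, o) by rw [hx]; rfl]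
  exact k1 hi' (Call.exec fun e => by rw [hq] at e; cases e) hk

theorem relayH (hi : i ∈ S) (hi' : i + 1 ∈ S) (hi'' : i + 2 ∈ S) (hp : Θ.pos p = false)
    (hr : c.req = some r) (hs : r.st = .pend) (hx : r.x = (.h2, o)) (hN : o.isN = true)
    (ha : App Θ o r.y s s') :
    (core Θ).Eqv S (c3 z i (⟨p, .empty, none⟩, c) (⟨q, .empty, none⟩, t) (⟨p', .empty, none⟩, s))
      (c3 z i (⟨p, .empty, none⟩, c.setSt r .done) (⟨q, .empty, none⟩, t)
        (⟨p', .empty, none⟩, s')) := by
  have hx' : r.x.1 ≠ .h0 := by rw [hx]; simp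
  refine (grab hi hi' hp hr hs hx').trans (Eqv.trans ?_ (release hi hi' hp hx'))
  rw [show r.x.dec = (.h1, o) by rw [hx]; rfl]
  exact (send hi' hi'' (by simp)).trans
    ((s2 hi'' (Call.exec fun _ => hN) ha).trans (recv hi' hi'' (by simp)))

theorem relayKH (hi : i ∈ S) (hi' : i + 1 ∈ S) (hi'' : i + 2 ∈ S) (hp : Θ.pos p = false)
    (hr : c.req = some r) (hs : r.st = .pend) (hx : r.x = (.h2, o)) (hN : o.isN = true)
    (hk : Kil o r.y s) :
    (core Θ).Dead S
      (c3 z i (⟨p, .empty, none⟩, c) (⟨q, .empty, none⟩, t) (⟨p', .empty, none⟩, s)) := by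
  have hx' : r.x.1 ≠ .h0 := by rw [hx]; simp
  refine (grab hi hi' hp hr hs hx').dead ?_
  rw [show r.x.dec = (.h1, o) by rw [hx]; rfl]
  exact (send hi' hi'' (by simp)).dead (k2 hi'' (Call.exec fun _ => hN) hk)

end Relay

theorem mem_spn_one {V : Set ℕ} {i : ℕ} : i ∈ spn 1 V ↔ i / 2 ∈ V := by simp [spn]

theorem setS_even (x y : ℕ → Let P) (j : ℕ) : setS x y (2 * j) = ((x (2 * j)).1, (y j).1) := by
  simp only [setS]
  rw [if_pos (by omega), show 2 * j / 2 = j by omega]

theorem setS_odd (x y : ℕ → Let P) (j : ℕ) :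
    setS x y (2 * j + 1) = ((x (2 * j + 1)).1, (y j).2) := by
  simp only [setS]
  rw [if_neg (by omega), show (2 * j + 1) / 2 = j by omega]

theorem setS_even' (x y : ℕ → Let P) (j : ℕ) :
    setS x y (2 * j + 2) = ((x (2 * j + 2)).1, (y (j + 1)).1) := setS_even x y (j + 1)

theorem setS_congr {x y y' : ℕ → Let P} {k : ℕ} (h0 : k % 2 = 0 → (y' (k / 2)).1 = (y (k / 2)).1)
    (h1 : k % 2 = 1 → (y' (k / 2)).2 = (y (k / 2)).2) : setS x y' k = setS x y k := by
  simp only [setS]
  split_ifs with h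
  · rw [h0 h]
  · rw [h1 (by omega)]

theorem Clean.one {V : Set ℕ} {x : ℕ → Let P} (hC : Clean 1 V x) {i : ℕ} (hi : i / 2 ∈ V) :
    (x i).1 = ⟨(x i).1.pay, .empty, none⟩ := by
  obtain ⟨h1, h2⟩ := hC 0 one_pos i (mem_spn_one.2 hi)
  exact Ctl.ext rfl h2 h1

theorem Aligned.even {V : Set ℕ} {x : ℕ → Let P} (hA : Aligned Θ 1 V x) {j : ℕ} (hj : j ∈ V) :
    Θ.pos (x (2 * j)).1.pay = false := by
  have := hA 0 one_pos (2 * j) (mem_spn_one.2 (by rwa [show 2 * j / 2 = j by omega]))
  simpa using this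

theorem Aligned.odd {V : Set ℕ} {x : ℕ → Let P} (hA : Aligned Θ 1 V x) {j : ℕ} (hj : j ∈ V) :
    Θ.pos (x (2 * j + 1)).1.pay = true := by
  have := hA 0 one_pos (2 * j + 1) (mem_spn_one.2 (by rwa [show (2 * j + 1) / 2 = j by omega]))
  simpa using this

theorem Clean.up {k : ℕ} {V : Set ℕ} {x : ℕ → Let P} (h : Clean (k + 1) V x) : Clean k V (up x) :=
  fun l hl j hj => h (l + 1) (by omega) j (by rwa [Nat.add_sub_add_right])

theorem Aligned.up {k : ℕ} {V : Set ℕ} {x : ℕ → Let P} (h : Aligned Θ (k + 1) V x) :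
    Aligned Θ k V (up x) :=
  fun l hl j hj => h (l + 1) (by omega) j (by rwa [Nat.add_sub_add_right])

theorem lift1_step {V : Set ℕ} {x y y' : ℕ → Let P} (hA : Aligned Θ 1 V x) (hC : Clean 1 V x)
    (h : (core Θ).Step V y y') : (core Θ).Eqv (spn 1 V) (setS x y) (setS x y') := by
  rcases step_iff.1 h with ⟨j, hj, h, hy⟩ | ⟨j, hj, hj', h, hy⟩
  · have d0 : 2 * j / 2 ∈ V := by rwa [show 2 * j / 2 = j by omega]
    have d1 : (2 * j + 1) / 2 ∈ V := by rwa [show (2 * j + 1) / 2 = j by omega]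
    have far : ∀ k, k ≠ 2 * j → k ≠ 2 * j + 1 → setS x y' k = setS x y k := fun k a b =>
      setS_congr (fun _ => by rw [hy _ (by omega)]) fun _ => by rw [hy _ (by omega)]
    change S1 Θ (y j) (y' j) at h
    generalize ha : y j = a at h
    generalize hb : y' j = b at h
    cases h with
    | c h =>
      refine eqv_one (i := 2 * j) (mem_spn_one.2 d0) ?_ fun k hk => ?_
      · rw [setS_even, setS_even, ha, hb]
        exact S1.s h
      · by_cases hk' : k = 2 * j + 1
        · rw [hk', setS_odd, setS_odd, ha, hb]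
        · exact far k hk hk'
    | s h =>
      refine eqv_one (i := 2 * j + 1) (mem_spn_one.2 d1) ?_ fun k hk => ?_
      · rw [setS_odd, setS_odd, ha, hb]
        exact S1.s h
      · by_cases hk' : k = 2 * j
        · rw [hk', setS_even, setS_even, ha, hb]
        · exact far k hk' hk
    | serve hr hs hx h =>
      have := Relay.relayS (z := setS x y) (C := setS x y (2 * j + 2)) (mem_spn_one.2 d0)
        (mem_spn_one.2 d1) (hA.even hj) (hA.odd hj) hr hs hx h
      rwa [← Relay.eq_c3 (x := setS x y) (by rw [setS_even, ha, ← hC.one d0])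
          (by rw [setS_odd, ha, ← hC.one d1]) rfl (fun _ _ _ _ => rfl),
        ← Relay.eq_c3 (x := setS x y') (by rw [setS_even, hb, ← hC.one d0])
          (by rw [setS_odd, hb, ← hC.one d1]) (far _ (by omega) (by omega))
          (fun k a b _ => far k a b)] at this
  · have d0 : 2 * j / 2 ∈ V := by rwa [show 2 * j / 2 = j by omega]
    have d1 : (2 * j + 1) / 2 ∈ V := by rwa [show (2 * j + 1) / 2 = j by omega]
    have d2 : (2 * j + 2) / 2 ∈ V := by rwa [show (2 * j + 2) / 2 = j + 1 by omega]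
    change S2 Θ (y j) (y (j + 1)) (y' j) (y' (j + 1)) at h
    generalize ha : y j = a at h
    generalize hb : y' j = b at h
    generalize ha' : y (j + 1) = a' at h
    generalize hb' : y' (j + 1) = b' at h
    cases h with
    | serve hr hs hx hN h =>
      have := Relay.relayH (z := setS x y) (q := (x (2 * j + 1)).1.pay)
        (p' := (x (2 * j + 2)).1.pay) (t := (y j).2) (mem_spn_one.2 d0)
        (mem_spn_one.2 d1) (mem_spn_one.2 d2) (hA.even hj) hr hs hx hN h
      rwa [← Relay.eq_c3 (x := setS x y) (by rw [setS_even, ha, ← hC.one d0])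
          (by rw [setS_odd, ← hC.one d1]) (by rw [setS_even', ha', ← hC.one d2])
          (fun _ _ _ _ => rfl),
        ← Relay.eq_c3 (x := setS x y') (by rw [setS_even, hb, ← hC.one d0])
          (by rw [setS_odd, hb, ha, ← hC.one d1]) (by rw [setS_even', hb', ← hC.one d2])
          (fun k a b c => setS_congr (fun _ => by rw [hy _ (by omega) (by omega)]) fun _ => by
            by_cases e : k / 2 = j + 1
            · rw [e, ha', hb']
            · rw [hy _ (by omega) e])] at this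

theorem lift1_kill {V : Set ℕ} {x y : ℕ → Let P} (hA : Aligned Θ 1 V x) (hC : Clean 1 V x) {j : ℕ}
    (h : (core Θ).KillAt V y j) : (core Θ).Dead (spn 1 V) (setS x y) := by
  obtain ⟨hj, h⟩ := h
  have d0 : 2 * j / 2 ∈ V := by rwa [show 2 * j / 2 = j by omega]
  have d1 : (2 * j + 1) / 2 ∈ V := by rwa [show (2 * j + 1) / 2 = j by omega]
  rcases h with h | ⟨hj', h⟩
  · change K1 Θ (y j) at h
    generalize ha : y j = a at h
    cases h with
    | c h =>
      refine dead_of_k1 (i := 2 * j) (mem_spn_one.2 d0) ?_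
      rw [setS_even, ha]
      exact K1.s h
    | s h =>
      refine dead_of_k1 (i := 2 * j + 1) (mem_spn_one.2 d1) ?_
      rw [setS_odd, ha]
      exact K1.s h
    | @tk c s r hr hs =>
      rw [Relay.eq_c3 (x := setS x y) (z := setS x y) (i := 2 * j)
        (by rw [setS_even, ha, hC.one d0]) rfl rfl (fun _ _ _ _ => rfl)]
      refine Relay.k0 (mem_spn_one.2 d0) (Call.ks1 (hA.even hj)) (Kil.ks1 ?_)
      obtain ⟨st, h, y, p', b'⟩ := r
      cases hs
      simp [tkinfo, hr, expS]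
    | serve hr hs hx h =>
      have := Relay.relayKS (z := setS x y) (C := setS x y (2 * j + 2)) (mem_spn_one.2 d0)
        (mem_spn_one.2 d1) (hA.even hj) (hA.odd hj) hr hs hx h
      rwa [← Relay.eq_c3 (x := setS x y) (by rw [setS_even, ha, ← hC.one d0])
          (by rw [setS_odd, ha, ← hC.one d1]) rfl (fun _ _ _ _ => rfl)] at this
  · have d2 : (2 * j + 2) / 2 ∈ V := by rwa [show (2 * j + 2) / 2 = j + 1 by omega]
    change K2 (y j) (y (j + 1)) at h
    generalize ha : y j = a at h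
    generalize ha' : y (j + 1) = a' at h
    cases h with
    | serve hr hs hx hN h =>
      have := Relay.relayKH (z := setS x y) (q := (x (2 * j + 1)).1.pay)
        (p' := (x (2 * j + 2)).1.pay) (t := (y j).2) (mem_spn_one.2 d0)
        (mem_spn_one.2 d1) (mem_spn_one.2 d2) (hA.even hj) hr hs hx hN h
      rwa [← Relay.eq_c3 (x := setS x y) (by rw [setS_even, ha, ← hC.one d0])
          (by rw [setS_odd, ← hC.one d1]) (by rw [setS_even', ha', ← hC.one d2])
          (fun _ _ _ _ => rfl)] at this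

theorem setPay_eqv {V : Set ℕ} {u : ℕ → Let P} (hr : ∀ j ∈ V, (u j).1.req = none) {p p' : ℕ → P}
    (h : Θ.row.Eqv V p p') : (core Θ).Eqv V (setPay u p) (setPay u p') := by
  induction h with
  | refl => exact Eqv.refl _ _
  | symm _ _ _ ih => exact ih.symm
  | trans _ _ _ _ _ ih ih' => exact ih.trans ih'
  | rel p p' h =>
    rcases step_iff.1 h with ⟨j, hj, h, hy⟩ | ⟨j, hj, hj', h, hy⟩
    · exact h.elim
    · have := callH (Θ := Θ) (x := setPay u p) hj hj' (hr j hj) (Call.ps h) rfl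
        (App.ps (T := (setPay u p (j + 1)).1) (hr _ hj') ⟨_, _, h⟩)
      refine this.trans (Eqv.of_eq ?_)
      funext k
      by_cases h1 : k = j + 1
      · subst h1
        rw [update_self]
        rfl
      · rw [update_of_ne h1]
        by_cases h2 : k = j
        · subst h2
          rw [update_self]
          exact Prod.ext (Ctl.ext rfl rfl (hr k hj).symm) rfl
        · rw [update_of_ne h2]
          simp only [setPay, hy k h2 h1]

/-- One level.  For a level-1 step at `j`: internal steps are `S1.s` steps at cell `2j` / `2j+1`.  A served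
slot request `(h1,o)` is relayed by the macro calls (`callS`, `callH` of `MBasic`; a macro call may be used
backwards by `Eqv.symm`) lock, test1 (cell `2j`, on its slot), put1, put2 (`2j → 2j+1`), exec (cell `2j+1` on
its slot), get2, get1, test2, unlock.  A request `(h2,o)` has in addition put1, put2 (`2j+1 → 2j+2`), exec at
`2j+2`, get2, get1 in the middle. -/
theorem lift1_eqv {V : Set ℕ} {x y y' : ℕ → Let P} (hA : Aligned Θ 1 V x) (hC : Clean 1 V x)
    (h : (core Θ).Eqv V y y') : (core Θ).Eqv (spn 1 V) (setS x y) (setS x y') := by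
  induction h with
  | rel _ _ h => exact lift1_step hA hC h
  | refl => exact Eqv.refl _ _
  | symm _ _ _ ih => exact ih.symm
  | trans _ _ _ _ _ ih ih' => exact ih.trans ih'

/-- Kills lift as well: `K1.c`, `K1.s` become `K1.s`; `K1.tk` is `ks1` of the idle cell `2j`
(`expS empty = non`); served kills are relayed up to the `exec` call, then `killS`. -/
theorem lift1_dead {V : Set ℕ} {x y : ℕ → Let P} (hA : Aligned Θ 1 V x) (hC : Clean 1 V x)
    (h : (core Θ).Dead V y) : (core Θ).Dead (spn 1 V) (setS x y) := by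
  obtain ⟨y', j, h, hk⟩ := h
  exact (lift1_eqv hA hC h).dead (lift1_kill hA hC hk)

theorem lift_eqv (k : ℕ) {V : Set ℕ} {x y y' : ℕ → Let P} (hA : Aligned Θ k V x) (hC : Clean k V x)
    (h : (core Θ).Eqv V y y') : (core Θ).Eqv (spn k V) (setUp k x y) (setUp k x y') := by
  induction k generalizing x with
  | zero => rwa [spn_zero]
  | succ k ih =>
    have := lift1_eqv (hA.down (l := 1) (by omega)) (hC.down (l := 1) (by omega))
      (ih hA.up hC.up)
    rwa [spn_spn, Nat.add_sub_cancel, add_comm] at this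

theorem lift_dead (k : ℕ) {V : Set ℕ} {x : ℕ → Let P} (hA : Aligned Θ k V x) (hC : Clean k V x)
    (h : (core Θ).Dead V (up^[k] x)) : (core Θ).Dead (spn k V) x := by
  induction k generalizing x with
  | zero => rwa [spn_zero]
  | succ k ih =>
    have := lift1_dead (hA.down (l := 1) (by omega)) (hC.down (l := 1) (by omega))
      (ih hA.up hC.up h)
    rwa [spn_spn, Nat.add_sub_cancel, add_comm, setS_up] at this

/-- payload steps of a row (call `ps`) -/
theorem row_eqv (k : ℕ) {V : Set ℕ} {x : ℕ → Let P} (hA : Aligned Θ k V x) (hC : Clean k V x)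
    (hr : ∀ j ∈ V, (ctl x k j).req = none) {p p' : ℕ → P} (h : Θ.row.Eqv V p p') :
    (core Θ).Eqv (spn k V) (putRow k x p) (putRow k x p') := by
  exact lift_eqv k hA hC (setPay_eqv hr h)

/-- payload kills of a row (call `pkH`) -/
theorem row_dead (k : ℕ) {V : Set ℕ} {x : ℕ → Let P} (hA : Aligned Θ k V x) (hC : Clean k V x)
    (hr : ∀ j ∈ V, (ctl x k j).req = none) (h : Θ.row.Dead V (rowPay x k)) :
    (core Θ).Dead (spn k V) x := by
  obtain ⟨p', j, h, hj, hk⟩ := h
  refine lift_dead k hA hC ((setPay_eqv (u := up^[k] x) hr h).dead ?_)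
  rcases hk with hk | ⟨hj', hk⟩
  · exact hk.elim
  · exact killH hj hj' (hr j hj) (Call.pkH hk) rfl
      (Kil.pk (T := (setPay (up^[k] x) p' (j + 1)).1) (hr _ hj'))

/-- vertical kills (call `pkV`) -/
theorem v_dead (k : ℕ) {V : Set ℕ} {x : ℕ → Let P} {j : ℕ} (hj : j ∈ V)
    (hA : Aligned Θ (k + 1) V x) (hC : Clean (k + 1) V x) (hr : (ctl x (k + 1) j).req = none)
    (h : Θ.killV (ctl x k (2 * j)).pay (ctl x (k + 1) j).pay) :
    (core Θ).Dead (spn (k + 1) V) x := by
  have m : 2 * j ∈ spn (k + 1 - k) V := by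
    rw [Nat.add_sub_cancel_left, mem_spn_one]
    rwa [show 2 * j / 2 = j by omega]
  have e : (up^[k] x (2 * j)).2 = ctl x (k + 1) j := by
    rw [ctl, Function.iterate_succ_apply']
    rfl
  have := lift_dead k (hA.down (l := k) (by omega)) (hC.down (l := k) (by omega))
    (killS (x := up^[k] x) m (hC k (by omega) _ m).1
      (Call.pkV (by simpa [ctl] using hA k (by omega) _ m) h) (by rw [e]; exact Kil.pk hr))
  rwa [spn_spn, Nat.add_sub_cancel_left] at this

end Crest.Agent.R176
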