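import Crest.Agent.R176.MLift

/-! Row 176: normalisation of the relay infrastructure. -/

set_option autoImplicit false

namespace Crest.Agent.R176

open Function WSys

variable {P : Type} {Θ : Pay P}

/-- backwards use of `callS` -/
theorem callS_back {S : Set ℕ} {x : ℕ → Let P} {i : ℕ} (hi : i ∈ S) (hr : (x i).1.req = none)
    {o : Opc} {y : Dat P} {p : P} {b : Box P} {s : Ctl P}
    (hc : Call Θ p b (.h1, o) y (x i).1.pay (x i).1.box) (ha : App Θ o y s (x i).2) :
    (core Θ).Eqv S x (update x i (⟨p, b, none⟩, s)) := by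
  have h := callS (Θ := Θ) (S := S) (x := update x i (⟨p, b, none⟩, s)) hi (by simp)
    (o := o) (y := y) (p' := (x i).1.pay) (b' := (x i).1.box) (s' := (x i).2)
    (by simpa using hc) (by simpa using ha)
  rw [update_idem, ← hr] at h
  have e : update x i (⟨(x i).1.pay, (x i).1.box, (x i).1.req⟩, (x i).2) = x := update_eq_self i x
  rw [e] at h
  rw [← hr]
  exact h.symm

/-- backwards use of `callH` -/
theorem callH_back {S : Set ℕ} {x : ℕ → Let P} {i : ℕ} (hi : i ∈ S) (hi' : i + 1 ∈ S)
    (hr : (x i).1.req = none) {o : Opc} {y : Dat P} {p : P} {b : Box P} {d : Ctl P}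
    (hc : Call Θ p b (.h2, o) y (x i).1.pay (x i).1.box) (hN : o.isN = true)
    (ha : App Θ o y d (x (i + 1)).1) :
    (core Θ).Eqv S x
      (update (update x i (⟨p, b, none⟩, (x i).2)) (i + 1) (d, (x (i + 1)).2)) := by
  have hne : i + 1 ≠ i := by omega
  have h := callH (Θ := Θ) (S := S)
    (x := update (update x i (⟨p, b, none⟩, (x i).2)) (i + 1) (d, (x (i + 1)).2)) hi hi'
    (by simp [hne.symm]) (o := o) (y := y) (p' := (x i).1.pay) (b' := (x i).1.box)
    (d' := (x (i + 1)).1) (by simpa [hne.symm] using hc) hN (by simpa using ha)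
  refine ((Eqv.of_eq ?_).trans h.symm)
  funext j
  by_cases hj : j = i + 1
  · subst hj; simp
  · by_cases hj' : j = i
    · subst hj'; simp [hne.symm, ← hr]
    · simp [hj, hj']

/-- equivalence through non-idle cells of `S` -/
def NRed (Θ : Pay P) (S : Set ℕ) (x y : ℕ → Let P) : Prop :=
  (core Θ).Eqv (S ∩ {i | ¬ (x i).1.idle}) x y

theorem NRed.refl (S : Set ℕ) (x : ℕ → Let P) : NRed Θ S x x := Eqv.refl _ _

theorem NRed.trans {S : Set ℕ} {x y z : ℕ → Let P} (h : NRed Θ S x y) (h' : NRed Θ S y z) :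
    NRed Θ S x z := by
  refine Eqv.trans h (Eqv.mono (fun i hi => (Set.mem_inter_iff _ _ _).2 ⟨hi.1, fun hx => hi.2 ?_⟩) h')
  rw [Eqv.frame h (j := i) fun hh => hh.2 hx]
  exact hx

theorem NRed.not_dead {S : Set ℕ} {x y : ℕ → Let P} (h : NRed Θ S x y)
    (hd : ¬ (core Θ).Dead S x) : ¬ (core Θ).Dead S y :=
  (Eqv.mono Set.inter_subset_left h).not_dead hd

theorem ok_of_not_dead {S : Set ℕ} {x : ℕ → Let P} (h : ¬ (core Θ).Dead S x) {i : ℕ} (hi : i ∈ S) :
    (x i).1.ok Θ := by
  by_contra hc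
  exact h (dead_of_k1 hi (K1.c (c := (x i).1) (s := (x i).2) hc))

/-- removal of one request -/
theorem drop_req {S : Set ℕ} {x : ℕ → Let P} (h : ¬ (core Θ).Dead S x) {i : ℕ} (hi : i ∈ S) :
    ∃ c, NRed Θ S x (update x i c) ∧ c.1.req = none := by
  rcases hr : (x i).1.req with _ | ⟨st, m, y, p', b'⟩
  · exact ⟨x i, by rw [update_eq_self]; exact NRed.refl _ _, hr⟩
  have hc := (ok_of_not_dead h hi).2 _ hr
  have hi' : i ∈ S ∩ {i | ¬ (x i).1.idle} := ⟨hi, fun hh => by simp [hh.1] at hr⟩
  have e : x i = (⟨(x i).1.pay, (x i).1.box, some ⟨st, m, y, p', b'⟩⟩, (x i).2) := by rw [← hr]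
  cases st with
  | pend =>
    refine ⟨(⟨(x i).1.pay, (x i).1.box, none⟩, (x i).2), Eqv.symm (eqv_one hi' ?_ ?_), rfl⟩
    · rw [update_self, e]; exact S1.c (IStep.issue hc)
    · intro j hj; rw [update_of_ne hj]
  | tk => exact (h (dead_of_k1 hi (K1.tk (c := (x i).1) (s := (x i).2) hr rfl))).elim
  | done =>
    refine ⟨(⟨p', b', none⟩, (x i).2), eqv_one hi' ?_ ?_, rfl⟩
    · rw [update_self, e]; exact S1.c (IStep.finish hc)
    · intro j hj; rw [update_of_ne hj]

theorem drop_reqs {S : Set ℕ} {x : ℕ → Let P} (h : ¬ (core Θ).Dead S x) (n : ℕ) :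
    ∃ y, NRed Θ S x y ∧ ∀ i ∈ S, i < n → (y i).1.req = none := by
  induction n with
  | zero => exact ⟨x, NRed.refl _ _, fun i _ hi => absurd hi (Nat.not_lt_zero _)⟩
  | succ n ih =>
    obtain ⟨y, h1, h2⟩ := ih
    by_cases hn : n ∈ S
    · obtain ⟨c, h3, h4⟩ := drop_req (h1.not_dead h) hn
      refine ⟨_, h1.trans h3, fun i hi hin => ?_⟩
      by_cases e : i = n
      · subst e; rwa [update_self]
      · rw [update_of_ne e]; exact h2 i hi (by omega)
    · exact ⟨y, h1, fun i hi hin => h2 i hi (by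
        have : i ≠ n := fun e => hn (e ▸ hi)
        omega)⟩

/-- weight of a box -/
def Box.wt : Box P → ℕ
  | .act _ .l1 _ _ => 1
  | .act _ .full _ _ => 2
  | .act _ .f1 _ _ => 3
  | .act _ .f2 _ _ => 4
  | .act _ .f3 _ _ => 3
  | .act _ .done _ _ => 2
  | .act _ .u2 _ _ => 1
  | _ => 0

/-- no reduction applies -/
def NIrr (Θ : Pay P) (S : Set ℕ) (x : ℕ → Let P) : Prop :=
  ∀ y, NRed Θ S x y → (∀ i ∈ S, (y i).1.req = none) →
    (∀ i, (y i).1.box.wt ≤ (x i).1.box.wt) → ∀ i ∈ S, (x i).1.box.wt ≤ (y i).1.box.wt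

theorem exists_irr {a b : ℕ} {x : ℕ → Let P} (hr : ∀ i ∈ Set.Ico a b, (x i).1.req = none) :
    ∃ y, NRed Θ (Set.Ico a b) x y ∧ (∀ i ∈ Set.Ico a b, (y i).1.req = none) ∧
      NIrr Θ (Set.Ico a b) y := by
  generalize hn : ∑ i ∈ Finset.Ico a b, (x i).1.box.wt = n
  induction n using Nat.strong_induction_on generalizing x with
  | _ n ih =>
    by_cases hI : NIrr Θ (Set.Ico a b) x
    · exact ⟨x, NRed.refl _ _, hr, hI⟩
    · simp only [NIrr, not_forall, not_le] at hI
      obtain ⟨y, h1, h2, h3, i, hi, h4⟩ := hI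
      obtain ⟨z, h5, h6⟩ := ih _ (hn ▸ Finset.sum_lt_sum (fun j _ => h3 j)
        ⟨i, by simpa using hi, h4⟩) h2 rfl
      exact ⟨z, h1.trans h5, h6⟩

section irr

variable {S : Set ℕ} {x : ℕ → Let P}

theorem NIrr.one (hI : NIrr Θ S x) (hr : ∀ i ∈ S, (x i).1.req = none) {i : ℕ} (hi : i ∈ S)
    {p : P} {b : Box P} {s : Ctl P}
    (h : ∀ T, i ∈ T → (core Θ).Eqv T x (update x i (⟨p, b, none⟩, s)))
    (hw : b.wt < (x i).1.box.wt) : False := by
  have := hI _ (h _ ⟨hi, fun hh => by simp [hh.2, Box.wt] at hw⟩) (fun j hj => by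
      by_cases e : j = i
      · subst e; simp
      · rw [update_of_ne e]; exact hr j hj) (fun j => by
      by_cases e : j = i
      · subst e; simpa using hw.le
      · rw [update_of_ne e]) i hi
  simp only [update_self] at this
  omega

theorem NIrr.two (hI : NIrr Θ S x) (hr : ∀ i ∈ S, (x i).1.req = none) {i : ℕ} (hi : i ∈ S)
    (hi' : i + 1 ∈ S) {p : P} {b : Box P} {d : Ctl P}
    (h : ∀ T, i ∈ T → i + 1 ∈ T → (core Θ).Eqv T x
      (update (update x i (⟨p, b, none⟩, (x i).2)) (i + 1) (d, (x (i + 1)).2)))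
    (hw : b.wt < (x i).1.box.wt) (hd : d.req = none) (hd' : d.box.wt = 0)
    (hne : (x (i + 1)).1.box ≠ .empty) : False := by
  have hn : i ≠ i + 1 := by omega
  have := hI _ (h _ ⟨hi, fun hh => by simp [hh.2, Box.wt] at hw⟩ ⟨hi', fun hh => hne hh.2⟩)
    (fun j hj => by
      by_cases e' : j = i + 1
      · subst e'; simpa using hd
      · rw [update_of_ne e']
        by_cases e : j = i
        · subst e; simp
        · rw [update_of_ne e]; exact hr j hj) (fun j => by
      by_cases e' : j = i + 1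
      · subst e'; simp [hd']
      · rw [update_of_ne e']
        by_cases e : j = i
        · subst e; simpa using hw.le
        · rw [update_of_ne e]) i hi
  simp only [update_of_ne hn, update_self] at this
  omega

theorem slot_tk (h : ¬ (core Θ).Dead S x) (hr : ∀ i ∈ S, (x i).1.req = none) {i : ℕ} (hi : i ∈ S)
    {ph : Ph} {m : Hd} {y : Dat P} (hb : (x i).1.box = .act true ph m y) :
    ∃ r, (x i).2.req = some r ∧ r.st = .tk ∧ r.x = m ∧ (ph.mid = true → r.y = y) := by
  have hw := (ok_of_not_dead h hi).1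
  rw [hb] at hw
  have h1 : tkinfo (x i).2 = expS (x i).1.box := by
    by_contra hc
    exact h (killS hi (hr i hi) (Call.ks1 (hw.1 rfl).1) (Kil.ks1 hc))
  rw [hb] at h1
  rcases hs : (x i).2.req with _ | ⟨st, m', y', p', b'⟩
  · simp [tkinfo, expS, hs] at h1
  · cases st <;> simp [tkinfo, expS, hs] at h1
    refine ⟨_, rfl, rfl, h1, fun hm => ?_⟩
    by_contra hc
    refine h (killS hi (hr i hi) (o := .ks2) (y := y) (p' := (x i).1.pay) (b' := (x i).1.box) ?_
      (Kil.ks2 hs hc))
    rw [hb]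
    exact Call.ks2 hm

theorem right_info (h : ¬ (core Θ).Dead S x) (hr : ∀ i ∈ S, (x i).1.req = none) {i : ℕ}
    (hi : i ∈ S) (hi' : i + 1 ∈ S) : boxinfo (x (i + 1)).1.box = expH (x i).1.box := by
  by_contra hc
  exact h (killH hi hi' (hr i hi) Call.kh1 rfl (Kil.kh1 (hr _ hi') hc))

theorem boxinfo_false {b : Box P} {m : Hd} (h : boxinfo b = .hd false m) : b = .half m := by
  rcases b with _ | m' | ⟨_ | _, ph, m', y⟩ <;> simp_all [boxinfo]

theorem boxinfo_true {b : Box P} {m : Hd} (h : boxinfo b = .hd true m) :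
    ∃ ph y, b = .act false ph m y := by
  rcases b with _ | m' | ⟨_ | _, ph, m', y⟩ <;> simp_all [boxinfo]

theorem setSt_setSt (T : Ctl P) (r : Rq P) (hr : T.req = some r) (st : Stt) :
    (T.setSt r st).setSt { r with st := st } r.st = T := by
  ext <;> simp [Ctl.setSt, hr]

theorem NIrr.act_true (hI : NIrr Θ S x) (h : ¬ (core Θ).Dead S x)
    (hr : ∀ i ∈ S, (x i).1.req = none) {i : ℕ} (hi : i ∈ S)
    {ph : Ph} {m : Hd} {y : Dat P} (hb : (x i).1.box = .act true ph m y) : ph.fwd = true := by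
  have hw := (ok_of_not_dead h hi).1
  rw [hb] at hw
  obtain ⟨hp, hm⟩ := hw.1 rfl
  obtain ⟨r, h1, h2, rfl, h4⟩ := slot_tk h hr hi hb
  cases ph with
  | f1 => rfl
  | f2 => rfl
  | f3 => rfl
  | l1 =>
    refine (hI.one hr hi (p := (x i).1.pay) (b := .empty) (s := (x i).2.setSt r .pend)
      (fun T hT => callS_back hT (hr i hi) (o := .lock) (y := .hd false r.x) ?_ ?_)
      (by simp [hb, Box.wt])).elim
    · rw [hb]; exact Call.lock hp hm
    · have := App.lock (Θ := Θ) (T := (x i).2.setSt r .pend) (r := { r with st := .pend }) rfl rfl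
      rwa [← h2, setSt_setSt _ _ h1] at this
  | full =>
    refine (hI.one hr hi (p := (x i).1.pay) (b := .act true .l1 r.x y) (s := (x i).2)
      (fun T hT => callS_back hT (hr i hi) (o := .test) (y := y) ?_ ?_)
      (by simp [hb, Box.wt])).elim
    · rw [hb]; exact Call.test1
    · rw [← h4 rfl]; exact App.test h1 h2
  | done =>
    refine (hI.one hr hi (p := (x i).1.pay) (b := .act true .u2 r.x y) (s := (x i).2)
      (fun T hT => callS hT (hr i hi) (o := .test) (y := y) ?_ ?_)
      (by simp [hb, Box.wt])).elim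
    · rw [hb]; exact Call.test2
    · rw [← h4 rfl]; exact App.test h1 h2
  | u2 =>
    refine (hI.one hr hi (p := (x i).1.pay) (b := .empty) (s := (x i).2.setSt r .done)
      (fun T hT => callS hT (hr i hi) (o := .unlock) (y := .hd false r.x) ?_ ?_)
      (by simp [hb, Box.wt])).elim
    · rw [hb]; exact Call.unlock hp hm
    · exact App.unlock h1 h2

/-- a forwarding cell with a right neighbour: the neighbour forwards as well -/
theorem NIrr.fwd_step (hI : NIrr Θ S x) (h : ¬ (core Θ).Dead S x)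
    (hr : ∀ i ∈ S, (x i).1.req = none) {i : ℕ} (hi : i ∈ S) (hi' : i + 1 ∈ S) {o : Bool}
    {ph : Ph} {m : Hd} {y : Dat P} (hb : (x i).1.box = .act o ph m y) (hf : ph.fwd = true) :
    ∃ ph' y', (x (i + 1)).1.box = .act false ph' m.dec y' ∧ ph'.fwd = true := by
  have hw := (ok_of_not_dead h hi).1
  rw [hb] at hw
  have hm := hw.2.2 hf
  have hR := right_info h hr hi hi'
  rw [hb] at hR
  have hr' := hr _ hi'
  cases ph with
  | l1 => simp [Ph.fwd] at hf
  | full => simp [Ph.fwd] at hf
  | done => simp [Ph.fwd] at hf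
  | u2 => simp [Ph.fwd] at hf
  | f1 =>
    have hb' := boxinfo_false hR
    refine (hI.two hr hi hi' (p := (x i).1.pay) (b := .act o .full m y)
      (d := { (x (i + 1)).1 with box := .empty })
      (fun T hT hT' => callH_back hT hT' (hr i hi) (o := .put1) (y := .hd false m.dec) ?_ rfl ?_)
      (by simp [hb, Box.wt]) hr' rfl (by simp [hb'])).elim
    · rw [hb]; exact Call.put1 hm
    · have := App.put1 (Θ := Θ) (T := { (x (i + 1)).1 with box := .empty }) (x := m.dec) hr' rfl
      simp only [← hb'] at this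
      exact this
  | f3 =>
    have hb' := boxinfo_false hR
    refine (hI.two hr hi hi' (p := (x i).1.pay) (b := .act o .done m y)
      (d := { (x (i + 1)).1 with box := .empty })
      (fun T hT hT' => callH hT hT' (hr i hi) (o := .get1) (y := .hd false m.dec) ?_ rfl ?_)
      (by simp [hb, Box.wt]) hr' rfl (by simp [hb'])).elim
    · rw [hb]; exact Call.get1 hm
    · exact App.get1 hr' hb'
  | f2 =>
    obtain ⟨ph', y', hb'⟩ := boxinfo_true hR
    have hy : y' = y := by
      by_contra hc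
      refine h (killH hi hi' (hr i hi) (o := .kh2) (y := y) (p' := (x i).1.pay)
        (b' := (x i).1.box) ?_ rfl (Kil.kh2 hr' hb' hc))
      rw [hb]
      exact Call.kh2
    subst hy
    have hw' := (ok_of_not_dead h hi').1
    rw [hb'] at hw'
    have hmid := hw'.2.1 rfl
    refine ⟨ph', y', hb', ?_⟩
    cases ph' with
    | f1 => rfl
    | f2 => rfl
    | f3 => rfl
    | l1 => simp [Ph.mid] at hmid
    | u2 => simp [Ph.mid] at hmid
    | full =>
      refine (hI.two hr hi hi' (p := (x i).1.pay) (b := .act o .f1 m y')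
        (d := { (x (i + 1)).1 with box := .half m.dec })
        (fun T hT hT' => callH_back hT hT' (hr i hi) (o := .put2) (y := y') ?_ rfl ?_)
        (by simp [hb, Box.wt]) hr' rfl (by simp [hb'])).elim
      · rw [hb]; exact Call.put2
      · have := App.put2 (Θ := Θ) (T := { (x (i + 1)).1 with box := .half m.dec }) (x := m.dec)
          (y := y') hr' rfl
        simp only [← hb'] at this
        exact this
    | done =>
      refine (hI.two hr hi hi' (p := (x i).1.pay) (b := .act o .f3 m y')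
        (d := { (x (i + 1)).1 with box := .half m.dec })
        (fun T hT hT' => callH hT hT' (hr i hi) (o := .get2) (y := y') ?_ rfl ?_)
        (by simp [hb, Box.wt]) hr' rfl (by simp [hb'])).elim
      · rw [hb]; exact Call.get2
      · exact App.get2 hr' hb'

theorem NIrr.fwd_end (hI : NIrr Θ S x) (h : ¬ (core Θ).Dead S x)
    (hr : ∀ i ∈ S, (x i).1.req = none) {i : ℕ} (hi : i ∈ S) (hi' : i + 1 ∈ S) (hi'' : i + 2 ∈ S)
    {o : Bool} {ph : Ph} {m : Hd} {y : Dat P} (hb : (x i).1.box = .act o ph m y) :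
    ph.fwd = false := by
  by_contra hf
  obtain ⟨ph1, y1, h1, f1⟩ := hI.fwd_step h hr hi hi' hb (by simpa using hf)
  obtain ⟨ph2, y2, h2, f2⟩ := hI.fwd_step h hr hi' hi'' h1 f1
  have hw := (ok_of_not_dead h hi'').1
  rw [h2] at hw
  refine hw.2.2 f2 ?_
  rcases m with ⟨_ | _ | _, c⟩ <;> rfl

end irr

/-- One level.  First remove all requests of the controls `(x i).1` (`pend`: undo `issue`, `done`: `finish`,
`tk` / not `ok`: dead).  Then induct on `∑_{i∈[a,b)} w(box i)`, `w(act _ ph ..)` = l1:1, full:2, f1:3, f2:4,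
f3:3, done:2, u2:1, other boxes 0.  Non-deadness gives (via `killS`, `killH` with ks1, ks2, kh1, kh2, and `wf`)
the guards of the reductions: `act true l1` → empty (lock backwards), `act true full` → l1 (test1 backwards),
`act true done` → u2 → empty; for `i+1<b`: f1 → full (put1 backwards), f3 → done (get1), f2 with right box
`act false full` → f1 (put2 backwards), with right box `act false done` → f3 (get2).  All of them only touch
non-idle cells, and idle cells stay idle.  In an irreducible configuration a cell with phase f1/f2/f3 has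
`b ≤ i+2` (hops decrease, `wf` forbids forwarding with `h0`), `act true` boxes have such a phase, and a box
`half`/`act false` at `i > a` has a left neighbour with such a phase (kh1). -/
theorem norm1 {a b : ℕ} {x : ℕ → Let P} (h : ¬ (core Θ).Dead (Set.Ico a b) x) :
    ∃ x', (core Θ).Eqv (Set.Ico a b ∩ {i | ¬ (x i).1.idle}) x x' ∧
      ∀ i, a < i → i + 2 < b → (x' i).1.idle := by
  obtain ⟨y, h1, h2⟩ := drop_reqs h b
  obtain ⟨z, h3, h4, hI⟩ := exists_irr (Θ := Θ) (x := y) fun i hi => h2 i hi hi.2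
  have hz := (h1.trans h3).not_dead h
  refine ⟨z, h1.trans h3, fun i hai hib => ?_⟩
  have hi : i ∈ Set.Ico a b := ⟨by omega, by omega⟩
  have hi1 : i + 1 ∈ Set.Ico a b := ⟨by omega, by omega⟩
  have hi2 : i + 2 ∈ Set.Ico a b := ⟨by omega, by omega⟩
  refine ⟨h4 i hi, ?_⟩
  obtain ⟨j, rfl⟩ : ∃ j, i = j + 1 := ⟨i - 1, by omega⟩
  have hj : j ∈ Set.Ico a b := ⟨by omega, by omega⟩
  have hR := right_info hz h4 hj hi
  have hE : expH (z j).1.box = .non := by
    rcases hb : (z j).1.box with _ | m | ⟨o, ph, m, d⟩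
    · rfl
    · rfl
    · have := hI.fwd_end hz h4 hj hi hi1 hb
      cases ph <;> first | rfl | simp [Ph.fwd] at this
  rw [hE] at hR
  rcases hb : (z (j + 1)).1.box with _ | m | ⟨_ | _, ph, m, d⟩
  · rfl
  · simp [hb, boxinfo] at hR
  · simp [hb, boxinfo] at hR
  · have := hI.fwd_end hz h4 hi hi1 hi2 hb
    rw [hI.act_true hz h4 hi hb] at this
    cases this

/-- Several levels; the spans of the already clean nodes `V` are not touched.  Induction on `k`
(generalising `x a b`): `norm1`, then apply the induction hypothesis to `up x'` on `[a/2+1, b/2-1)` (non-dead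
by `lift1_dead`) and lift by `lift1_eqv` (`setS_up`). -/
theorem multiNorm (k : ℕ) {a b A B : ℕ} {V : Set ℕ} {x : ℕ → Let P}
    (ha : A * 2 ^ k ≤ a) (ha' : a ≤ A * 2 ^ k + 2) (hb : b ≤ B * 2 ^ k) (hb' : B * 2 ^ k ≤ b + 2)
    (hA : Aligned Θ k (Set.Ico A B) x) (hV : Clean k V x)
    (h : ¬ (core Θ).Dead (Set.Ico a b) x) :
    ∃ x', (core Θ).Eqv (Set.Ico a b \ spn k V) x x' ∧ Clean k (Set.Ico (A + 2) (B - 2)) x' := by
  induction k generalizing x a b with
  | zero => exact ⟨x, Eqv.refl _ _, fun l hl => absurd hl (Nat.not_lt_zero _)⟩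
  | succ k ih =>
    obtain ⟨x1, h1, h2⟩ := norm1 h
    have e2 : ∀ C : ℕ, C * 2 ^ (k + 1) = 2 * (C * 2 ^ k) := fun C => by ring
    have hp : 1 ≤ 2 ^ k := Nat.one_le_two_pow
    rw [e2] at ha ha' hb hb'
    have h1' : (core Θ).Eqv (Set.Ico a b \ spn (k + 1) V) x x1 :=
      h1.mono fun i hi => (Set.mem_diff _).2 ⟨hi.1, fun hv => hi.2 (hV 0 (by omega) i hv)⟩
    have hA1 := hA.eqv h1
    have hV1 : Clean (k + 1) V x1 := fun l hl j hj => by
      rw [ctl_congr hl.le (x := x1) (y := x) (fun i hi => h1'.frame fun hh => hh.2 hi) j hj]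
      exact hV l hl j hj
    have hsub : ∀ i ∈ spn 1 (Set.Ico (a / 2 + 1) (b / 2 - 1)), a < i ∧ i + 2 < b := by
      intro i hi
      simp only [spn, pow_one, Set.mem_ofPred_eq, Set.mem_Ico] at hi
      omega
    have hA2 : Aligned Θ 1 (Set.Ico (a / 2 + 1) (b / 2 - 1)) x1 := fun l hl j hj => by
      obtain rfl : l = 0 := by omega
      have := hsub j hj
      refine hA1 0 (by omega) j ?_
      rw [Nat.sub_zero, spn_Ico, e2, e2]
      exact ⟨by omega, by omega⟩
    have hC2 : Clean 1 (Set.Ico (a / 2 + 1) (b / 2 - 1)) x1 := fun l hl j hj => by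
      obtain rfl : l = 0 := by omega
      exact h2 j (hsub j hj).1 (hsub j hj).2
    obtain ⟨y, h3, h4⟩ := ih (x := up x1) (a := a / 2 + 1) (b := b / 2 - 1) (by omega) (by omega)
      (by omega) (by omega)
      (fun l hl j hj => hA1 (l + 1) (by omega) j (by rwa [Nat.add_sub_add_right]))
      (fun l hl j hj => hV1 (l + 1) (by omega) j (by rwa [Nat.add_sub_add_right]))
      (fun hd => by
        have := lift1_dead hA2 hC2 hd
        rw [setS_up] at this
        refine (h1.mono Set.inter_subset_left).not_dead h (this.mono fun i hi => ?_)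
        have := hsub i hi
        exact ⟨by omega, by omega⟩)
    have h5 := lift1_eqv (hA2.mono Set.diff_subset) (hC2.mono Set.diff_subset) h3
    rw [setS_up] at h5
    refine ⟨_, h1'.trans (h5.mono fun i hi => (Set.mem_diff _).2 ⟨?_, fun hv => ?_⟩),
      fun l hl j hj => ?_⟩
    · have := hsub i hi.1
      exact ⟨by omega, by omega⟩
    · rw [add_comm, ← spn_spn] at hv
      exact hi.2 hv
    · cases l with
      | zero =>
        rw [Nat.sub_zero, spn_Ico, e2, e2, add_mul, Nat.sub_mul] at hj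
        obtain ⟨hj1, hj2⟩ := hj
        exact h2 j (by omega) (by omega)
      | succ l =>
        rw [ctl_succ, up_setS]
        exact h4 l (by omega) j (by rwa [Nat.add_sub_add_right] at hj)

/-- Long non-dead words contain long aligned pieces.  Induction on `k`: `norm1`; neighbouring idle cells have
different position bits (`pkH`, `kill_pos`); shift by `o₀ ∈ {1,2}` so that even cells have `pos = false`, use
`lift1_dead`, the induction hypothesis for `up`, `up_sh`, and invariance of `pos` (`ctl_inv`). -/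
theorem exists_aligned (k M : ℕ) : ∃ N, ∀ x : ℕ → Let P, ¬ (core Θ).Dead (Set.Iio N) x →
    ∃ o, o + M * 2 ^ k ≤ N ∧ Aligned Θ k (Set.Iio M) (sh o x) := by
  induction k with
  | zero => exact ⟨M, fun x _ => ⟨0, by simp, fun l hl => absurd hl (Nat.not_lt_zero _)⟩⟩
  | succ k ih =>
    obtain ⟨N, hN⟩ := ih
    refine ⟨2 * N + 6, fun x h => ?_⟩
    have eI : Set.Iio (2 * N + 6) = Set.Ico 0 (2 * N + 6) := by ext; simp
    rw [eI] at h
    obtain ⟨x1, h1, h2⟩ := norm1 h
    have h1' := h1.mono Set.inter_subset_left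
    have hd := h1'.not_dead h
    have halt : ∀ i, 0 < i → i + 3 < 2 * N + 6 →
        Θ.pos (x1 (i + 1)).1.pay = !Θ.pos (x1 i).1.pay := by
      intro i hi hi'
      by_contra hc
      have e : Θ.pos (x1 i).1.pay = Θ.pos (x1 (i + 1)).1.pay := by
        revert hc
        cases Θ.pos (x1 i).1.pay <;> cases Θ.pos (x1 (i + 1)).1.pay <;> simp
      exact hd (killH (i := i) ⟨by omega, by omega⟩ ⟨by omega, by omega⟩ (h2 i hi (by omega)).1
        (Call.pkH (Θ.kill_pos _ _ e)) rfl (Kil.pk (h2 (i + 1) (by omega) (by omega)).1))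
    obtain ⟨o, ho1, ho2, ho⟩ : ∃ o, 1 ≤ o ∧ o ≤ 2 ∧ Θ.pos (x1 o).1.pay = false := by
      cases e : Θ.pos (x1 1).1.pay
      · exact ⟨1, le_rfl, by omega, e⟩
      · exact ⟨2, by omega, le_rfl, by rw [halt 1 (by omega) (by omega), e]; rfl⟩
    have hpos : ∀ j, j < 2 * N → Θ.pos (x1 (j + o)).1.pay = decide (j % 2 = 1) := by
      intro j
      induction j with
      | zero => intro _; simpa using ho
      | succ j ih =>
        intro hj
        rw [show j + 1 + o = j + o + 1 by omega, halt _ (by omega) (by omega), ih (by omega)]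
        rcases Nat.mod_two_eq_zero_or_one j with e | e <;> simp [e, Nat.add_mod]
    have hsub : ∀ i ∈ spn 1 (Set.Iio N), i < 2 * N := by
      intro i hi
      simp only [spn, pow_one, Set.mem_ofPred_eq, Set.mem_Iio] at hi
      omega
    have hA2 : Aligned Θ 1 (Set.Iio N) (sh o x1) := fun l hl j hj => by
      obtain rfl : l = 0 := by omega
      exact hpos j (hsub j hj)
    have hC2 : Clean 1 (Set.Iio N) (sh o x1) := fun l hl j hj => by
      obtain rfl : l = 0 := by omega
      have := hsub j hj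
      exact h2 (j + o) (by omega) (by omega)
    obtain ⟨o', h3, h4⟩ := hN (up (sh o x1)) fun hD => by
      have := lift1_dead hA2 hC2 hD
      rw [setS_up] at this
      refine hd (this.of_sh.mono fun i hi => ?_)
      have := hsub _ hi.2
      exact ⟨by omega, by omega⟩
    have e2 : M * 2 ^ (k + 1) = 2 * (M * 2 ^ k) := by ring
    refine ⟨2 * o' + o, by omega, fun l hl j hj => ?_⟩
    rw [← ctl_inv_of Θ.pos (x := sh (2 * o' + o) x) (y := sh (2 * o' + o) x1)
      (fun j => eqv_inv Θ.pos Θ.pos_step h1 _) l j]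
    have es : sh (2 * o' + o) x1 = sh (2 * o') (sh o x1) := by
      funext i; simp only [sh, add_assoc]
    cases l with
    | zero =>
      have hj' : j < M * 2 ^ (k + 1) := by
        simpa [spn, Nat.div_lt_iff_lt_mul] using hj
      have := hpos (j + 2 * o') (by omega)
      rw [es, ctl_zero]
      simp only [sh]
      rw [this, Nat.add_mul_mod_self_left]
    | succ l =>
      rw [ctl_succ, es, up_sh]
      exact h4 l (by omega) j (by rwa [Nat.add_sub_add_right] at hj)

end Crest.Agent.R176
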