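import Crest.Agent.R176.MBasic

/-! Row 176: soundness of the relay infrastructure. -/

set_option autoImplicit false

namespace Crest.Agent.R176

open Function WSys

variable {P : Type}

/-- effective box / payload: a served call counts as finished -/
def Ctl.effBox (C : Ctl P) : Box P :=
  match C.req with
  | some ⟨.done, _, _, _, b'⟩ => b'
  | _ => C.box

def Ctl.effPay (C : Ctl P) : P :=
  match C.req with
  | some ⟨.done, _, _, p', _⟩ => p'
  | _ => C.pay

/-- has the relayed operation been executed? -/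
def exd : Box P → Bool → Bool
  | .act _ .f2 _ _, nxt => nxt
  | .act _ .f3 _ _, _ => true
  | .act _ .done _ _, _ => true
  | .act _ .u2 _ _, _ => true
  | _, _ => false

def executed (x : ℕ → Let P) (j : ℕ) : Bool :=
  exd (x (2 * j)).1.effBox (exd (x (2 * j + 1)).1.effBox (exd (x (2 * j + 2)).1.effBox false))

def absC (T : Ctl P) (e : Bool) : Ctl P :=
  match T.req with
  | some ⟨.tk, x, y, p', b'⟩ => { T with req := some ⟨if e then .done else .pend, x, y, p', b'⟩ }
  | _ => T

/-- the level-1 configuration represented by a consistent configuration -/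
def absX (x : ℕ → Let P) : ℕ → Let P := fun j =>
  (absC (x (2 * j)).2 (executed x j), (x (2 * j + 1)).2)

def effRow (x : ℕ → Let P) : ℕ → P := fun i => (x i).1.effPay

variable (Θ : Pay P)

structure Cons (x : ℕ → Let P) : Prop where
  pos : ∀ i, Θ.pos (x i).1.pay = decide (i % 2 = 1)
  ok : ∀ i, (x i).1.ok Θ
  ntk : ∀ i r, (x i).1.req = some r → r.st ≠ .tk
  h0 : boxinfo (x 0).1.effBox = .non
  h1 : ∀ i, boxinfo (x (i + 1)).1.effBox = expH (x i).1.effBox
  h2 : ∀ i o z y ph z' y', (x i).1.effBox = .act o .f2 z y →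
    (x (i + 1)).1.effBox = .act false ph z' y' → y' = y
  s1 : ∀ j, tkinfo (x (2 * j)).2 = expS (x (2 * j)).1.effBox
  s2 : ∀ j ph z y r, (x (2 * j)).1.effBox = .act true ph z y → ph.mid = true →
    (x (2 * j)).2.req = some r → r.y = y

variable {Θ}

/-- at most one step, in either direction -/
def WSys.Adj {X : Type} (W : WSys X) (x y : ℕ → X) : Prop :=
  x = y ∨ W.Step Set.univ x y ∨ W.Step Set.univ y x

theorem WSys.Adj.symm {X : Type} {W : WSys X} {x y : ℕ → X} (h : W.Adj x y) : W.Adj y x := by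
  rcases h with h | h | h
  exacts [Or.inl h.symm, Or.inr (Or.inr h), Or.inr (Or.inl h)]

/-! ### the effective configuration: boxes `E` and slots `s` -/

/-- the conditions of `Cons` on effective boxes and slots -/
structure Geo (E : ℕ → Box P) (s : ℕ → Ctl P) : Prop where
  h0 : boxinfo (E 0) = .non
  h1 : ∀ i, boxinfo (E (i + 1)) = expH (E i)
  h2 : ∀ i o z y ph z' y', E i = .act o .f2 z y → E (i + 1) = .act false ph z' y' → y' = y
  s1 : ∀ j, tkinfo (s (2 * j)) = expS (E (2 * j))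
  s2 : ∀ j ph z y r, E (2 * j) = .act true ph z y → ph.mid = true →
    (s (2 * j)).req = some r → r.y = y

def WfE (E : ℕ → Box P) : Prop := ∀ i, (E i).wf (decide (i % 2 = 1))

def exE (E : ℕ → Box P) (j : ℕ) : Bool :=
  exd (E (2 * j)) (exd (E (2 * j + 1)) (exd (E (2 * j + 2)) false))

def absE (E : ℕ → Box P) (s : ℕ → Ctl P) : ℕ → Let P := fun j =>
  (absC (s (2 * j)) (exE E j), s (2 * j + 1))

theorem exd_indep {b : Box P} (h : ∀ z, expH b ≠ .hd true z) (a a' : Bool) : exd b a = exd b a' := by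
  cases b with
  | act o ph z y => cases ph <;> first | rfl | exact absurd rfl (h _)
  | _ => rfl

theorem absC_non {T : Ctl P} (h : tkinfo T = .non) (e : Bool) : absC T e = T := by
  obtain ⟨p, b, _ | ⟨st, x, y, p', b'⟩⟩ := T
  · rfl
  · cases st <;> first | rfl | cases h

theorem tkinfo_none {T : Ctl P} (h : T.req = none) : tkinfo T = .non := by
  obtain ⟨p, b, r⟩ := T
  cases h
  rfl

theorem tkinfo_hd {T : Ctl P} {z : Hd} (h : tkinfo T = .hd false z) :
    ∃ r, T.req = some r ∧ r.st = .tk ∧ r.x = z := by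
  obtain ⟨p, b, _ | ⟨st, x, y, p', b'⟩⟩ := T
  · cases h
  · cases st <;> cases h
    exact ⟨_, rfl, rfl, rfl⟩

theorem absC_tk {T : Ctl P} {r : Rq P} (h : T.req = some r) (h' : r.st = .tk) (e : Bool) :
    absC T e = T.setSt r (if e then .done else .pend) := by
  obtain ⟨p, b, q⟩ := T
  obtain ⟨st, x, y, p', b'⟩ := r
  cases h
  cases h'
  rfl

theorem expH_hd {b : Box P} {t : Bool} {z : Hd} (h : expH b = .hd t z) :
    ∃ o ph z' y, b = .act o ph z' y ∧ ph.fwd = true ∧ z = z'.dec ∧ (t = true → ph = .f2) := by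
  cases b with
  | act o ph z' y => cases ph <;> cases h <;> exact ⟨_, _, _, _, rfl, rfl, rfl, by simp⟩
  | _ => cases h

theorem boxinfo_hd {b : Box P} {z : Hd} (h : boxinfo b = .hd true z) :
    ∃ ph y, b = .act false ph z y := by
  cases b with
  | act o ph z' y => cases o <;> cases h; exact ⟨_, _, rfl⟩
  | _ => cases h

namespace Geo
variable {E E' : ℕ → Box P} {s s' : ℕ → Ctl P}

theorem ne_h2 (g : Geo E s) {i : ℕ} {t : Bool} {z : Hd} (h : boxinfo (E i) = .hd t z) :
    z.1 ≠ .h2 := by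
  cases i with
  | zero => rw [g.h0] at h; cases h
  | succ i =>
    rw [g.h1] at h
    obtain ⟨o, ph, ⟨a, c⟩, y, -, -, rfl, -⟩ := expH_hd h
    cases a <;> simp [Hd.dec, Hop.dec]

theorem eq_h0 (g : Geo E s) (w : WfE E) {i : ℕ} (hi : i % 2 = 0) {t : Bool} {z : Hd}
    (h : boxinfo (E i) = .hd t z) : z.1 = .h0 := by
  cases i with
  | zero => rw [g.h0] at h; cases h
  | succ i =>
    rw [g.h1] at h
    obtain ⟨o, ph, ⟨a, c⟩, y, e, -, rfl, -⟩ := expH_hd h
    have w1 := w i
    rw [e] at w1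
    cases o with
    | true => have := (w1.1 rfl).1; simp at this; omega
    | false =>
      have := g.ne_h2 (i := i) (t := true) (z := (a, c)) (by rw [e]; rfl)
      cases a <;> simp_all [Hd.dec, Hop.dec]

theorem prev (g : Geo E s) (w : WfE E) {i : ℕ} {ph : Ph} {z : Hd} {y : Dat P}
    (h : E (i + 1) = .act false ph z y) :
    ∃ o z', E i = .act o .f2 z' y ∧ z = z'.dec ∧ z'.1 ≠ .h0 := by
  have h1 := g.h1 i
  rw [h] at h1
  obtain ⟨o, ph', z', y', e, hf, rfl, h2⟩ := expH_hd h1.symm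
  obtain rfl := h2 rfl
  have w1 := w i
  rw [e] at w1
  obtain rfl := g.h2 i _ _ _ _ _ _ e h
  exact ⟨o, z', e, rfl, w1.2.2 rfl⟩

theorem src (g : Geo E s) {j : ℕ} {z : Hd} {y : Dat P} (h : E (2 * j) = .act true .f2 z y) :
    ∃ r, (s (2 * j)).req = some r ∧ r.st = .tk ∧ r.x = z ∧ r.y = y := by
  have h1 := g.s1 j
  rw [h] at h1
  obtain ⟨r, r1, r2, r3⟩ := tkinfo_hd h1
  exact ⟨r, r1, r2, r3, g.s2 j _ _ _ r h rfl r1⟩

theorem trace_odd (g : Geo E s) (w : WfE E) {j : ℕ} {ph : Ph} {c : Opc} {y : Dat P}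
    (h : E (2 * j + 1) = .act false ph (.h0, c) y) : E (2 * j) = .act true .f2 (.h1, c) y := by
  obtain ⟨o, ⟨a, c'⟩, e, h1, h2⟩ := g.prev w h
  cases o with
  | false =>
    exact absurd (g.eq_h0 w (i := 2 * j) (by omega) (t := true) (z := (a, c')) (by rw [e]; rfl)) h2
  | true => cases a <;> simp_all [Hd.dec, Hop.dec]

theorem trace_even (g : Geo E s) (w : WfE E) {j : ℕ} {ph : Ph} {c : Opc} {y : Dat P}
    (h : E (2 * j + 2) = .act false ph (.h0, c) y) :
    E (2 * j + 1) = .act false .f2 (.h1, c) y ∧ E (2 * j) = .act true .f2 (.h2, c) y := by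
  obtain ⟨o, ⟨a, c'⟩, e, h1, h2⟩ := g.prev w (i := 2 * j + 1) h
  have w1 := w (2 * j + 1)
  rw [e] at w1
  cases o with
  | true => have := (w1.1 rfl).1; simp at this
  | false =>
    obtain ⟨o', ⟨a', c''⟩, e', h1', h2'⟩ := g.prev w e
    cases o' with
    | false =>
      exact absurd
        (g.eq_h0 w (i := 2 * j) (by omega) (t := true) (z := (a', c'')) (by rw [e']; rfl)) h2'
    | true => cases a <;> cases a' <;> simp_all [Hd.dec, Hop.dec]

theorem one (g : Geo E s) {i : ℕ} (hE : ∀ j, j ≠ i → E' j = E j) (hs : ∀ j, j ≠ i → s' j = s j)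
    (a1 : boxinfo (E' i) = boxinfo (E i)) (a2 : expH (E i) = .non) (a3 : expH (E' i) = .non)
    (a4 : ∀ ph z y, E' i = .act false ph z y → ∃ ph', E i = .act false ph' z y)
    (a5 : i % 2 = 0 → tkinfo (s' i) = expS (E' i) ∧ ∀ ph z y r, E' i = .act true ph z y →
      ph.mid = true → (s' i).req = some r → r.y = y) : Geo E' s' := by
  have b1 : ∀ j, boxinfo (E' j) = boxinfo (E j) := fun j => by
    by_cases h : j = i
    · rw [h, a1]
    · rw [hE j h]
  have b2 : ∀ j, expH (E' j) = expH (E j) := fun j => by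
    by_cases h : j = i
    · rw [h, a2, a3]
    · rw [hE j h]
  refine ⟨by rw [b1, g.h0], fun j => by rw [b1, b2, g.h1], fun j o z y ph z' y' e1 e2 => ?_,
    fun j => ?_, fun j ph z y r e1 e2 e3 => ?_⟩
  · have hj : j ≠ i := by
      rintro rfl
      rw [e1] at a3
      cases a3
    rw [hE j hj] at e1
    by_cases h : j + 1 = i
    · subst h
      obtain ⟨ph', e3⟩ := a4 _ _ _ e2
      exact g.h2 j _ _ _ _ _ _ e1 e3
    · rw [hE _ h] at e2
      exact g.h2 j _ _ _ _ _ _ e1 e2
  · by_cases h : 2 * j = i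
    · subst h
      exact (a5 (by omega)).1
    · rw [hE _ h, hs _ h, g.s1]
  · by_cases h : 2 * j = i
    · subst h
      exact (a5 (by omega)).2 _ _ _ _ e1 e2 e3
    · rw [hE _ h] at e1
      rw [hs _ h] at e3
      exact g.s2 j _ _ _ _ e1 e2 e3

theorem two (g : Geo E s) {i : ℕ} (hE : ∀ j, j ≠ i → j ≠ i + 1 → E' j = E j) {o : Bool}
    {ph ph' : Ph} {z : Hd} {y : Dat P} (e : E i = .act o ph z y) (e' : E' i = .act o ph' z y)
    (hm : ph.mid = true) (a1 : expS (E (i + 1)) = .non) (a2 : expS (E' (i + 1)) = .non)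
    (a3 : expH (E (i + 1)) = .non) (a4 : expH (E' (i + 1)) = .non)
    (a5 : boxinfo (E' (i + 1)) = expH (E' i))
    (a6 : ∀ ph2 z2 y2, E' (i + 1) = .act false ph2 z2 y2 → y2 = y) : Geo E' s := by
  have b1 : ∀ j, j ≠ i + 1 → boxinfo (E' j) = boxinfo (E j) := fun j hj => by
    by_cases h : j = i
    · rw [h, e, e']; cases o <;> rfl
    · rw [hE j h hj]
  have b2 : ∀ j, j ≠ i → expH (E' j) = expH (E j) := fun j hj => by
    by_cases h : j = i + 1
    · rw [h, a3, a4]
    · rw [hE j hj h]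
  have b3 : ∀ j, expS (E' j) = expS (E j) := fun j => by
    by_cases h : j = i
    · rw [h, e, e']; cases o <;> rfl
    · by_cases h' : j = i + 1
      · rw [h', a1, a2]
      · rw [hE j h h']
  refine ⟨by rw [b1 0 (by omega), g.h0], fun j => ?_, fun j o2 z2 y2 ph3 z3 y3 e1 e2 => ?_,
    fun j => by rw [b3, g.s1], fun j ph2 z2 y2 r e1 e2 e3 => ?_⟩
  · by_cases h : j = i
    · rw [h, a5]
    · rw [b1 _ (by omega), b2 _ h, g.h1]
  · by_cases h : j = i
    · subst h
      rw [e'] at e1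
      cases e1
      exact a6 _ _ _ e2
    · have hj : j ≠ i + 1 := by
        rintro rfl
        rw [e1] at a4
        cases a4
      rw [hE j h hj] at e1
      by_cases h' : j + 1 = i
      · subst h'
        rw [e'] at e2
        cases e2
        exact g.h2 j _ _ _ _ _ _ e1 e
      · rw [hE _ h' (by omega)] at e2
        exact g.h2 j _ _ _ _ _ _ e1 e2
  · by_cases h : 2 * j = i
    · subst h
      rw [e'] at e1
      cases e1
      exact g.s2 j _ _ _ _ e hm e3
    · have hj : 2 * j ≠ i + 1 := by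
        intro h'
        rw [← h', e1] at a2
        cases a2
      rw [hE _ h hj] at e1
      exact g.s2 j _ _ _ _ e1 e2 e3

theorem abs_one (g : Geo E s) {k : ℕ} (hE : ∀ j, j ≠ 2 * k → E' j = E j)
    (hs : ∀ j, j ≠ 2 * k → s' j = s j) (a1 : boxinfo (E (2 * k)) = .non)
    (a2 : absC (s (2 * k)) (exE E k) = absC (s' (2 * k)) (exE E' k)) : absE E s = absE E' s' := by
  funext j
  unfold absE
  rw [hs (2 * j + 1) (by omega)]
  by_cases h : j = k
  · rw [h, a2]
  · rw [hs _ (by omega)]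
    unfold exE
    rw [hE (2 * j) (by omega), hE (2 * j + 1) (by omega)]
    by_cases h' : 2 * j + 2 = 2 * k
    · rw [exd_indep (b := E (2 * j + 1)) (fun z hz => by
        rw [← g.h1, show 2 * j + 1 + 1 = 2 * k from h', a1] at hz
        cases hz) _ (exd (E' (2 * j + 2)) false)]
    · rw [hE _ h']

theorem abs_two (g : Geo E s) (w : WfE E) {i : ℕ} (hE : ∀ j, j ≠ i → j ≠ i + 1 → E' j = E j)
    (a1 : ∀ a a', exd (E i) (exd (E (i + 1)) a) = exd (E' i) (exd (E' (i + 1)) a'))
    (a2 : expS (E (i + 1)) = .non)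
    (a3 : expH (E i) ≠ .non ∨ exd (E i) false = exd (E' i) false) : absE E s = absE E' s := by
  funext j
  unfold absE
  by_cases h0 : i + 1 = 2 * j
  · have : tkinfo (s (2 * j)) = .non := by rw [g.s1, ← h0, a2]
    rw [absC_non this, absC_non this]
  congr 2
  unfold exE
  by_cases h1 : i = 2 * j
  · subst h1
    exact a1 _ _
  rw [hE (2 * j) (by omega) (by omega)]
  by_cases h2 : i = 2 * j + 1
  · subst h2
    rw [a1 false false]
  rw [hE (2 * j + 1) (by omega) (by omega)]
  by_cases h3 : i = 2 * j + 2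
  · subst h3
    rcases a3 with a3 | a3
    · rw [exd_indep (b := E (2 * j + 1)) (fun z hz => ?_) _ (exd (E' (2 * j + 2)) false)]
      rw [← g.h1] at hz
      have k1 := g.eq_h0 w (i := 2 * j + 1 + 1) (by omega) hz
      obtain ⟨ph, y, e⟩ := boxinfo_hd hz
      have w1 := w (2 * j + 1 + 1)
      rw [e] at w1
      rw [show 2 * j + 2 = 2 * j + 1 + 1 from rfl, e] at a3
      cases ph <;> first | exact a3 rfl | exact w1.2.2 rfl k1
    · rw [a3]
  · rw [hE (2 * j + 2) (by omega) (by omega)]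

end Geo

theorem App.req_none {o : Opc} {y : Dat P} {T T' : Ctl P} (h : App Θ o y T T')
    (hN : o.isN = true) : T.req = none ∧ T'.req = none := by
  cases h <;> first | exact ⟨‹_›, ‹_›⟩ | cases hN

theorem Kil.req_none {o : Opc} {y : Dat P} {T : Ctl P} (h : Kil o y T) (hN : o.isN = true) :
    T.req = none := by
  cases h <;> first | assumption | cases hN

theorem IStep.tkinfo {c c' : Ctl P} (h : IStep Θ c c') : tkinfo c = .non ∧ tkinfo c' = .non := by
  cases h <;> exact ⟨rfl, rfl⟩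

theorem even_of_wf {E : ℕ → Box P} (w : WfE E) {i : ℕ} {ph : Ph} {z : Hd} {y : Dat P}
    (e : E i = .act true ph z y) : ∃ k, i = 2 * k := by
  have w1 := w i
  rw [e] at w1
  have := (w1.1 rfl).1
  simp at this
  exact ⟨i / 2, by omega⟩

theorem geo_slot {E : ℕ → Box P} {s s' : ℕ → Ctl P} (g : Geo E s) {i : ℕ}
    (hs : ∀ j, j ≠ i → s' j = s j) (h1 : tkinfo (s i) = .non) (h2 : tkinfo (s' i) = .non) :
    Geo E s' := by
  refine ⟨g.h0, g.h1, g.h2, fun j => ?_, fun j ph z y r e1 e2 e3 => ?_⟩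
  · by_cases h : 2 * j = i
    · rw [← g.s1, h, h1, h2]
    · rw [hs _ h, g.s1]
  · by_cases h : 2 * j = i
    · have := g.s1 j
      rw [e1, h, h1] at this
      cases this
    · rw [hs _ h] at e3
      exact g.s2 j _ _ _ _ e1 e2 e3

theorem eff_slot {E : ℕ → Box P} {s s' : ℕ → Ctl P} {i : ℕ} (hs : ∀ j, j ≠ i → s' j = s j)
    (h : IStep Θ (s i) (s' i)) : (core Θ).Step Set.univ (absE E s) (absE E s') := by
  refine step_iff.2 (Or.inl ⟨i / 2, trivial, ?_, fun j hj => ?_⟩)
  · unfold absE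
    rcases Nat.mod_two_eq_zero_or_one i with hi | hi
    · rw [hs (2 * (i / 2) + 1) (by omega), show 2 * (i / 2) = i by omega, absC_non h.tkinfo.1,
        absC_non h.tkinfo.2]
      exact S1.c h
    · rw [hs (2 * (i / 2)) (by omega), show 2 * (i / 2) + 1 = i by omega]
      exact S1.s h
  · unfold absE
    rw [hs _ (by omega), hs _ (by omega)]

theorem eff_exec {E E' : ℕ → Box P} {s s' : ℕ → Ctl P} {i : ℕ} (hE : ∀ j, j ≠ i → E' j = E j)
    (hs : ∀ j, j ≠ i → s' j = s j) {c : Opc} {y : Dat P}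
    (e : E i = .act false .full (.h0, c) y) (e' : E' i = .act false .done (.h0, c) y)
    (hN : i % 2 = 0 → c.isN = true) (ha : App Θ c y (s i) (s' i)) (w : WfE E) (g : Geo E s) :
    (core Θ).Step Set.univ (absE E s) (absE E' s') := by
  rcases Nat.mod_two_eq_zero_or_one i with hi | hi
  · have hi0 : i ≠ 0 := by
      rintro rfl
      have := g.h0
      rw [e] at this
      cases this
    obtain ⟨j, rfl⟩ : ∃ j, i = 2 * j + 2 := ⟨i / 2 - 1, by omega⟩
    obtain ⟨t1, t2⟩ := g.trace_even w e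
    obtain ⟨r, r1, r2, r3, r4⟩ := g.src t2
    obtain ⟨n1, n2⟩ := ha.req_none (hN hi)
    refine step_iff.2 (Or.inr ⟨j, trivial, trivial, ?_, fun k hk hk' => ?_⟩)
    · have x1 : exE E j = false := by unfold exE; rw [t1, t2, e]; rfl
      have x2 : exE E' j = true := by
        unfold exE; rw [hE _ (by omega), hE (2 * j + 1) (by omega), t1, t2, e']; rfl
      unfold absE
      rw [x1, x2, hs (2 * j) (by omega), hs (2 * j + 1) (by omega), hs (2 * (j + 1) + 1) (by omega),
        show 2 * (j + 1) = 2 * j + 2 from rfl, absC_tk r1 r2, absC_tk r1 r2,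
        absC_non (tkinfo_none n1), absC_non (tkinfo_none n2)]
      exact S2.serve (r := { r with st := .pend }) rfl rfl r3 (hN hi) (by rw [← r4] at ha; exact ha)
    · unfold absE exE
      rw [hs _ (by omega), hs _ (by omega), hE _ (by omega), hE _ (by omega), hE _ (by omega)]
  · obtain ⟨j, rfl⟩ : ∃ j, i = 2 * j + 1 := ⟨i / 2, by omega⟩
    have t2 := g.trace_odd w e
    obtain ⟨r, r1, r2, r3, r4⟩ := g.src t2
    refine step_iff.2 (Or.inl ⟨j, trivial, ?_, fun k hk => ?_⟩)
    · have x1 : exE E j = false := by unfold exE; rw [t2, e]; rfl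
      have x2 : exE E' j = true := by unfold exE; rw [hE _ (by omega), t2, e']; rfl
      unfold absE
      rw [x1, x2, hs (2 * j) (by omega), absC_tk r1 r2, absC_tk r1 r2]
      exact S1.serve (r := { r with st := .pend }) rfl rfl r3 (by rw [← r4] at ha; exact ha)
    · unfold absE exE
      rw [hs _ (by omega), hs _ (by omega), hE _ (by omega), hE _ (by omega), hE _ (by omega)]

theorem setSt_self {T : Ctl P} {r : Rq P} (h : T.req = some r) : T.setSt r r.st = T := by
  obtain ⟨p, b, q⟩ := T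
  cases h
  rfl

theorem tkinfo_some {T : Ctl P} {r : Rq P} (h : T.req = some r) :
    tkinfo T = if r.st = .tk then .hd false r.x else .non := by
  obtain ⟨p, b, q⟩ := T
  obtain ⟨st, x, y, p', b'⟩ := r
  cases h
  cases st <;> rfl

theorem eff_one {E E' : ℕ → Box P} {s s' : ℕ → Ctl P} {i : ℕ} (hE : ∀ j, j ≠ i → E' j = E j)
    (hs : ∀ j, j ≠ i → s' j = s j) {p p' : P} {o : Opc} {y : Dat P}
    (hc : Call Θ p (E i) (.h1, o) y p' (E' i)) (ha : App Θ o y (s i) (s' i))
    (hp : Θ.pos p = decide (i % 2 = 1)) (w : WfE E) (w' : WfE E') :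
    p' = p ∧ (Geo E s ↔ Geo E' s') ∧ (Geo E s → (core Θ).Adj (absE E s) (absE E' s')) := by
  have hE' : ∀ j, j ≠ i → E j = E' j := fun j hj => (hE j hj).symm
  have hs' : ∀ j, j ≠ i → s j = s' j := fun j hj => (hs j hj).symm
  generalize e : E i = b at hc
  generalize e' : E' i = b' at hc
  cases hc with
  | exec hN =>
    have hN' : i % 2 = 0 → o.isN = true := fun hi => hN (by rw [hp]; simp; omega)
    refine ⟨rfl, ⟨fun g => g.one hE hs ?_ ?_ ?_ ?_ fun hi => ?_,
      fun g => g.one hE' hs' ?_ ?_ ?_ ?_ fun hi => ?_⟩,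
      fun g => Or.inr (Or.inl (eff_exec hE hs e e' hN' ha w g))⟩
    all_goals simp only [e, e']
    all_goals try rfl
    · rintro _ _ _ ⟨⟩; exact ⟨_, rfl⟩
    · exact ⟨tkinfo_none (ha.req_none (hN' hi)).2, by rintro _ _ _ _ ⟨⟩⟩
    · rintro _ _ _ ⟨⟩; exact ⟨_, rfl⟩
    · exact ⟨tkinfo_none (ha.req_none (hN' hi)).1, by rintro _ _ _ _ ⟨⟩⟩
  | lock _ _ =>
    obtain ⟨k, rfl⟩ := even_of_wf w' e'
    generalize f : s (2 * k) = T at ha
    generalize f' : s' (2 * k) = T' at ha
    cases ha with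
    | @lock _ r r1 r2 =>
      refine ⟨rfl, ⟨fun g => g.one hE hs ?_ ?_ ?_ ?_ fun hi => ?_,
        fun g => g.one hE' hs' ?_ ?_ ?_ ?_ fun hi => ?_⟩,
        fun g => Or.inl (g.abs_one hE hs ?_ ?_)⟩
      all_goals try simp only [e, e', f, f']
      all_goals try rfl
      · rintro _ _ _ ⟨⟩
      · exact ⟨rfl, by rintro _ _ _ _ ⟨⟩ ⟨⟩⟩
      · rintro _ _ _ ⟨⟩
      · exact ⟨by rw [tkinfo_some r1, r2]; rfl, by rintro _ _ _ _ ⟨⟩⟩
      · have x2 : exE E' k = false := by unfold exE; rw [e']; rfl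
        rw [x2, absC_non (by rw [tkinfo_some r1, r2]; rfl),
          absC_tk (T := T.setSt r .tk) (r := { r with st := .tk }) rfl rfl]
        have := setSt_self r1
        rw [r2] at this
        exact this.symm
  | test1 =>
    obtain ⟨k, rfl⟩ := even_of_wf w' e'
    generalize f : s (2 * k) = T at ha
    generalize f' : s' (2 * k) = T' at ha
    cases ha with
    | @test _ r r1 r2 =>
      refine ⟨rfl, ⟨fun g => g.one hE hs ?_ ?_ ?_ ?_ fun hi => ?_,
        fun g => g.one hE' hs' ?_ ?_ ?_ ?_ fun hi => ?_⟩,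
        fun g => Or.inl (g.abs_one hE hs ?_ ?_)⟩
      all_goals try simp only [e, e', f, f']
      all_goals try rfl
      · rintro _ _ _ ⟨⟩
      · have := g.s1 k
        rw [e, f] at this
        refine ⟨this, ?_⟩
        rintro _ _ _ _ ⟨⟩ _ h
        rw [r1] at h
        cases h
        rfl
      · rintro _ _ _ ⟨⟩
      · have := g.s1 k
        rw [e', f'] at this
        exact ⟨this, by rintro _ _ _ _ ⟨⟩ ⟨⟩⟩
      · have x1 : exE E k = false := by unfold exE; rw [e]; rfl
        have x2 : exE E' k = false := by unfold exE; rw [e']; rfl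
        rw [x1, x2]
  | test2 =>
    obtain ⟨k, rfl⟩ := even_of_wf w' e'
    generalize f : s (2 * k) = T at ha
    generalize f' : s' (2 * k) = T' at ha
    cases ha with
    | @test _ r r1 r2 =>
      refine ⟨rfl, ⟨fun g => g.one hE hs ?_ ?_ ?_ ?_ fun hi => ?_,
        fun g => g.one hE' hs' ?_ ?_ ?_ ?_ fun hi => ?_⟩,
        fun g => Or.inl (g.abs_one hE hs ?_ ?_)⟩
      all_goals try simp only [e, e', f, f']
      all_goals try rfl
      · rintro _ _ _ ⟨⟩
      · have := g.s1 k
        rw [e, f] at this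
        exact ⟨this, by rintro _ _ _ _ ⟨⟩ ⟨⟩⟩
      · rintro _ _ _ ⟨⟩
      · have := g.s1 k
        rw [e', f'] at this
        refine ⟨this, ?_⟩
        rintro _ _ _ _ ⟨⟩ _ h
        rw [r1] at h
        cases h
        rfl
      · have x1 : exE E k = true := by unfold exE; rw [e]; rfl
        have x2 : exE E' k = true := by unfold exE; rw [e']; rfl
        rw [x1, x2]
  | unlock _ _ =>
    obtain ⟨k, rfl⟩ := even_of_wf w e
    generalize f : s (2 * k) = T at ha
    generalize f' : s' (2 * k) = T' at ha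
    cases ha with
    | @unlock _ r r1 r2 =>
      refine ⟨rfl, ⟨fun g => g.one hE hs ?_ ?_ ?_ ?_ fun hi => ?_,
        fun g => g.one hE' hs' ?_ ?_ ?_ ?_ fun hi => ?_⟩,
        fun g => Or.inl (g.abs_one hE hs ?_ ?_)⟩
      all_goals try simp only [e, e', f, f']
      all_goals try rfl
      · rintro _ _ _ ⟨⟩
      · exact ⟨rfl, by rintro _ _ _ _ ⟨⟩⟩
      · rintro _ _ _ ⟨⟩
      · exact ⟨by rw [tkinfo_some r1, r2]; rfl, by rintro _ _ _ _ ⟨⟩ ⟨⟩⟩
      · have x1 : exE E k = true := by unfold exE; rw [e]; rfl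
        rw [x1, absC_tk r1 r2, absC_non (T := T.setSt r .done) rfl]
        rfl
  | ks1 _ => cases ha
  | ks2 _ => cases ha
  | pkV _ _ => cases ha

theorem eff_two {E E' : ℕ → Box P} {s : ℕ → Ctl P} {i : ℕ}
    (hE : ∀ j, j ≠ i → j ≠ i + 1 → E' j = E j) {p p' : P} {o : Opc} {y : Dat P} {d d' : Ctl P}
    (hc : Call Θ p (E i) (.h2, o) y p' (E' i)) (ha : App Θ o y d d') (f : E (i + 1) = d.box)
    (f' : E' (i + 1) = d'.box) (w : WfE E) :
    ((p' = p ∧ d'.pay = d.pay) ∨ Θ.stepH p d.pay p' d'.pay) ∧ (Geo E s ↔ Geo E' s) ∧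
      (Geo E s → absE E s = absE E' s) := by
  have hE' : ∀ j, j ≠ i → j ≠ i + 1 → E j = E' j := fun j hj hj' => (hE j hj hj').symm
  generalize e : E i = b at hc
  generalize e' : E' i = b' at hc
  cases hc with
  | @put1 o z y _ =>
    generalize hz : z.dec = z' at ha
    cases ha with
    | put1 r1 r2 =>
      rw [r2] at f
      refine ⟨Or.inl ⟨rfl, rfl⟩, ⟨fun g => g.two hE e e' rfl ?_ ?_ ?_ ?_ ?_ ?_,
        fun g => g.two hE' e' e rfl ?_ ?_ ?_ ?_ ?_ ?_⟩, fun g => g.abs_two w hE ?_ ?_ ?_⟩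
      all_goals simp only [e, e', f, f', ← hz]
      all_goals try rfl
      · rintro _ _ _ ⟨⟩
      · rintro _ _ _ ⟨⟩
      · exact fun _ _ => rfl
      · exact Or.inr rfl
  | put2 =>
    cases ha with
    | put2 r1 r2 =>
      rw [r2] at f
      refine ⟨Or.inl ⟨rfl, rfl⟩, ⟨fun g => g.two hE e e' rfl ?_ ?_ ?_ ?_ ?_ ?_,
        fun g => g.two hE' e' e rfl ?_ ?_ ?_ ?_ ?_ ?_⟩, fun g => g.abs_two w hE ?_ ?_ ?_⟩
      all_goals simp only [e, e', f, f']
      all_goals try rfl
      · have := g.h1 i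
        rw [e, f] at this
        cases this
        rfl
      · rintro _ _ _ ⟨⟩; rfl
      · have := g.h1 i
        rw [e', f'] at this
        cases this
        rfl
      · rintro _ _ _ ⟨⟩
      · exact fun _ _ => rfl
      · exact Or.inr rfl
  | get2 =>
    cases ha with
    | get2 r1 r2 =>
      rw [r2] at f
      refine ⟨Or.inl ⟨rfl, rfl⟩, ⟨fun g => g.two hE e e' rfl ?_ ?_ ?_ ?_ ?_ ?_,
        fun g => g.two hE' e' e rfl ?_ ?_ ?_ ?_ ?_ ?_⟩, fun g => g.abs_two w hE ?_ ?_ ?_⟩
      all_goals simp only [e, e', f, f']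
      all_goals try rfl
      · have := g.h1 i
        rw [e, f] at this
        cases this
        rfl
      · rintro _ _ _ ⟨⟩
      · have := g.h1 i
        rw [e', f'] at this
        cases this
        rfl
      · rintro _ _ _ ⟨⟩; rfl
      · exact fun _ _ => rfl
      · exact Or.inl (by rintro ⟨⟩)
  | @get1 o z y _ =>
    generalize hz : z.dec = z' at ha
    cases ha with
    | get1 r1 r2 =>
      rw [r2] at f
      refine ⟨Or.inl ⟨rfl, rfl⟩, ⟨fun g => g.two hE e e' rfl ?_ ?_ ?_ ?_ ?_ ?_,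
        fun g => g.two hE' e' e rfl ?_ ?_ ?_ ?_ ?_ ?_⟩, fun g => g.abs_two w hE ?_ ?_ ?_⟩
      all_goals simp only [e, e', f, f', ← hz]
      all_goals try rfl
      · rintro _ _ _ ⟨⟩
      · rintro _ _ _ ⟨⟩
      · exact fun _ _ => rfl
      · exact Or.inr rfl
  | ps h =>
    cases ha with
    | ps r1 r2 =>
      have : E' = E := by
        funext j
        by_cases h1 : j = i
        · rw [h1, e, e']
        · by_cases h2 : j = i + 1
          · rw [h2, f, f']
          · exact hE j h1 h2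
      subst this
      exact ⟨Or.inr h, Iff.rfl, fun _ => rfl⟩
  | kh1 => cases ha
  | kh2 => cases ha
  | pkH _ => cases ha

/-! ### the local conditions -/

theorem Call.pos_eq {p p' : P} {b b' : Box P} {x : Hd} {y : Dat P} (h : Call Θ p b x y p' b') :
    Θ.pos p' = Θ.pos p := h.inv Θ.pos Θ.pos_step

theorem Call.wf_iff {p p' : P} {b b' : Box P} {x : Hd} {y : Dat P} (h : Call Θ p b x y p' b') :
    b.wf (Θ.pos p) ↔ b'.wf (Θ.pos p) := by
  cases h <;> simp_all [Box.wf, Ph.mid, Ph.fwd]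

/-- the conditions of `Cons` on a single control -/
def LocC (Θ : Pay P) (t : Bool) (c : Ctl P) : Prop :=
  Θ.pos c.pay = t ∧ c.ok Θ ∧ ∀ r, c.req = some r → r.st ≠ .tk

theorem LocC.wf {t : Bool} {c : Ctl P} (h : LocC Θ t c) : c.effBox.wf t := by
  obtain ⟨p, b, _ | ⟨st, x, y, p', b'⟩⟩ := c
  · exact h.1 ▸ h.2.1.1
  · cases st
    · exact h.1 ▸ h.2.1.1
    · exact h.1 ▸ h.2.1.1
    · exact h.1 ▸ (h.2.1.2 _ rfl).wf_iff.1 h.2.1.1

theorem IStep.loc {c c' : Ctl P} (h : IStep Θ c c') (t : Bool) :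
    (LocC Θ t c ↔ LocC Θ t c') ∧ c'.effBox = c.effBox ∧ c'.effPay = c.effPay := by
  cases h with
  | issue h =>
    refine ⟨⟨fun l => ⟨l.1, ⟨l.2.1.1, ?_⟩, ?_⟩, fun l => ⟨l.1, ⟨l.2.1.1, ?_⟩, ?_⟩⟩, rfl, rfl⟩
    · rintro _ ⟨⟩; exact h
    · rintro _ ⟨⟩ ⟨⟩
    · rintro _ ⟨⟩
    · rintro _ ⟨⟩
  | finish h =>
    refine ⟨⟨fun l => ⟨h.pos_eq.trans l.1, ⟨?_, ?_⟩, ?_⟩,
      fun l => ⟨h.pos_eq.symm.trans l.1, ⟨?_, ?_⟩, ?_⟩⟩, rfl, rfl⟩
    · exact h.pos_eq ▸ h.wf_iff.1 l.2.1.1
    · rintro _ ⟨⟩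
    · rintro _ ⟨⟩
    · exact h.wf_iff.2 (h.pos_eq ▸ l.2.1.1)
    · rintro _ ⟨⟩; exact h
    · rintro _ ⟨⟩ ⟨⟩

theorem serve_loc {c : Ctl P} {r : Rq P} (h : c.req = some r) (h' : r.st = .pend) (t : Bool) :
    (LocC Θ t c ↔ LocC Θ t (c.setSt r .done)) ∧ c.effBox = c.box ∧ c.effPay = c.pay ∧
      (c.setSt r .done).effBox = r.box' ∧ (c.setSt r .done).effPay = r.pay' := by
  obtain ⟨p, b, q⟩ := c
  obtain ⟨st, x, y, p', b'⟩ := r
  cases h
  cases h'
  refine ⟨⟨fun l => ⟨l.1, ⟨l.2.1.1, ?_⟩, ?_⟩, fun l => ⟨l.1, ⟨l.2.1.1, ?_⟩, ?_⟩⟩, rfl, rfl, rfl, rfl⟩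
  · rintro _ ⟨⟩; exact l.2.1.2 ⟨.pend, x, y, p', b'⟩ rfl
  · rintro _ ⟨⟩ ⟨⟩
  · rintro _ ⟨⟩; exact l.2.1.2 ⟨.done, x, y, p', b'⟩ rfl
  · rintro _ ⟨⟩ ⟨⟩

theorem eff_none {c : Ctl P} (h : c.req = none) : c.effBox = c.box ∧ c.effPay = c.pay := by
  obtain ⟨p, b, q⟩ := c
  cases h
  exact ⟨rfl, rfl⟩

theorem App.loc {o : Opc} {y : Dat P} {d d' : Ctl P} (h : App Θ o y d d') (hN : o.isN = true)
    (t : Bool) : LocC Θ t d ↔ LocC Θ t d' := by
  have h1 := h.inv Θ.pos Θ.pos_step
  obtain ⟨n1, n2⟩ := h.req_none hN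
  have h2 : d.box.wf (Θ.pos d.pay) ↔ d'.box.wf (Θ.pos d.pay) := by
    cases h <;> simp_all [Box.wf, Ph.mid, Ph.fwd]
  simp only [LocC, Ctl.ok, h1, h2, n1, n2, reduceCtorEq, false_imp_iff, implies_true]

def Loc (Θ : Pay P) (x : ℕ → Let P) : Prop := ∀ i, LocC Θ (decide (i % 2 = 1)) (x i).1

theorem cons_iff {x : ℕ → Let P} :
    Cons Θ x ↔ Loc Θ x ∧ Geo (fun i => (x i).1.effBox) (fun i => (x i).2) :=
  ⟨fun h => ⟨fun i => ⟨h.pos i, h.ok i, h.ntk i⟩, h.h0, h.h1, h.h2, h.s1, h.s2⟩,
    fun h => ⟨fun i => (h.1 i).1, fun i => (h.1 i).2.1, fun i => (h.1 i).2.2, h.2.h0, h.2.h1,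
      h.2.h2, h.2.s1, h.2.s2⟩⟩

theorem absX_eq (x : ℕ → Let P) : absX x = absE (fun i => (x i).1.effBox) (fun i => (x i).2) := rfl

theorem loc_step {x x' : ℕ → Let P} (h : (core Θ).Step Set.univ x x') : Loc Θ x ↔ Loc Θ x' := by
  refine forall_congr' fun j => ?_
  rcases step_iff.1 h with ⟨i, -, h, hy⟩ | ⟨i, -, -, h, hy⟩
  · by_cases hj : j = i
    · subst hj
      change S1 Θ _ _ at h
      generalize x j = a at h
      generalize x' j = a' at h
      cases h with
      | c h => exact (h.loc _).1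
      | s h => rfl
      | serve h1 h2 _ _ => exact (serve_loc h1 h2 _).1
    · rw [hy j hj]
  · change S2 Θ _ _ _ _ at h
    by_cases hj : j = i
    · subst hj
      generalize x j = a at h
      generalize x' j = a' at h
      generalize x (j + 1) = b at h
      generalize x' (j + 1) = b' at h
      cases h with
      | serve h1 h2 _ _ _ => exact (serve_loc h1 h2 _).1
    · by_cases hj' : j = i + 1
      · subst hj'
        generalize x i = a at h
        generalize x' i = a' at h
        generalize x (i + 1) = b at h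
        generalize x' (i + 1) = b' at h
        cases h with
        | serve _ _ _ hN ha => exact ha.loc hN _
      · rw [hy j hj hj']

theorem sim_core {x x' : ℕ → Let P} (h : (core Θ).Step Set.univ x x') (l : Loc Θ x)
    (l' : Loc Θ x') :
    (Geo (fun i => (x i).1.effBox) (fun i => (x i).2) ↔
      Geo (fun i => (x' i).1.effBox) (fun i => (x' i).2)) ∧
    (Geo (fun i => (x i).1.effBox) (fun i => (x i).2) → (core Θ).Adj (absX x) (absX x')) ∧
    Θ.row.Adj (effRow x) (effRow x') := by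
  have w : WfE fun i => (x i).1.effBox := fun i => (l i).wf
  have w' : WfE fun i => (x' i).1.effBox := fun i => (l' i).wf
  rw [absX_eq, absX_eq]
  rcases step_iff.1 h with ⟨i, -, h, hy⟩ | ⟨i, -, -, h, hy⟩
  · change S1 Θ _ _ at h
    generalize e : x i = a at h
    generalize e' : x' i = a' at h
    have all : ∀ {β : Type} (f : Let P → β), f a' = f a → (fun j => f (x' j)) = fun j => f (x j) := by
      intro β f hf
      funext j
      by_cases hj : j = i
      · rw [hj, e, e', hf]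
      · rw [hy j hj]
    cases h with
    | c h =>
      rw [all (fun a => a.1.effBox) (h.loc true).2.1, all (fun a => a.2) rfl]
      exact ⟨Iff.rfl, fun _ => Or.inl rfl, Or.inl (all (fun a => a.1.effPay) (h.loc true).2.2).symm⟩
    | s h =>
      rw [all (fun a => a.1.effBox) rfl]
      have hs : ∀ j, j ≠ i → (x' j).2 = (x j).2 := fun j hj => by rw [hy j hj]
      have t1 : tkinfo (x i).2 = .non := by rw [e]; exact h.tkinfo.1
      have t2 : tkinfo (x' i).2 = .non := by rw [e']; exact h.tkinfo.2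
      exact ⟨⟨fun g => geo_slot g hs t1 t2, fun g => geo_slot g (fun j hj => (hs j hj).symm) t2 t1⟩,
        fun _ => Or.inr (Or.inl (eff_slot hs (by rw [e, e']; exact h))),
        Or.inl (all (fun a => a.1.effPay) rfl).symm⟩
    | @serve c s s' r o h1 h2 h3 ha =>
      obtain ⟨-, k1, k2, k3, k4⟩ := serve_loc (Θ := Θ) h1 h2 true
      have li := l i
      rw [e] at li
      have hc := li.2.1.2 r h1
      rw [h3] at hc
      obtain ⟨q1, q2, q3⟩ := eff_one (Θ := Θ) (E := fun i => (x i).1.effBox)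
        (E' := fun i => (x' i).1.effBox) (s := fun i => (x i).2) (s' := fun i => (x' i).2) (i := i)
        (fun j hj => by simp only [hy j hj]) (fun j hj => by simp only [hy j hj])
        (p := c.pay) (p' := r.pay') (o := o) (y := r.y)
        (by simp only [e, e', k1, k3]; exact hc) (by simp only [e, e']; exact ha) li.1 w w'
      exact ⟨q2, q3, Or.inl (all (fun a => a.1.effPay) (by simp only [k2, k4, q1])).symm⟩
  · change S2 Θ _ _ _ _ at h
    generalize e : x i = a at h
    generalize e' : x' i = a' at h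
    generalize f : x (i + 1) = b at h
    generalize f' : x' (i + 1) = b' at h
    cases h with
    | @serve c s d d' t r o h1 h2 h3 hN ha =>
      obtain ⟨-, k1, k2, k3, k4⟩ := serve_loc (Θ := Θ) h1 h2 true
      obtain ⟨n1, n2⟩ := ha.req_none hN
      have li := l i
      rw [e] at li
      have hc := li.2.1.2 r h1
      rw [h3] at hc
      have hs : (fun j => (x' j).2) = fun j => (x j).2 := by
        funext j
        by_cases hj : j = i
        · rw [hj, e, e']
        · by_cases hj' : j = i + 1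
          · rw [hj', f, f']
          · rw [hy j hj hj']
      rw [hs]
      obtain ⟨q1, q2, q3⟩ := eff_two (Θ := Θ) (E := fun i => (x i).1.effBox)
        (E' := fun i => (x' i).1.effBox) (s := fun i => (x i).2) (i := i)
        (fun j hj hj' => by simp only [hy j hj hj']) (p := c.pay) (p' := r.pay') (o := o) (y := r.y)
        (by simp only [e, e', k1, k3]; exact hc) ha (by simp only [f, (eff_none n1).1])
        (by simp only [f', (eff_none n2).1]) w
      refine ⟨q2, fun g => Or.inl (q3 g), ?_⟩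
      have u1 : effRow x i = c.pay := by simp only [effRow, e, k2]
      have u2 : effRow x' i = r.pay' := by simp only [effRow, e', k4]
      have u3 : effRow x (i + 1) = d.pay := by simp only [effRow, f, (eff_none n1).2]
      have u4 : effRow x' (i + 1) = d'.pay := by simp only [effRow, f', (eff_none n2).2]
      have u5 : ∀ j, j ≠ i → j ≠ i + 1 → effRow x' j = effRow x j := fun j hj hj' => by
        simp only [effRow, hy j hj hj']
      rcases q1 with q1 | q1
      · left
        funext j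
        by_cases hj : j = i
        · rw [hj, u1, u2, q1.1]
        · by_cases hj' : j = i + 1
          · rw [hj', u3, u4, q1.2]
          · rw [u5 j hj hj']
      · refine Or.inr (Or.inl (step_iff.2 (Or.inr ⟨i, trivial, trivial, ?_, u5⟩)))
        rw [u1, u2, u3, u4]
        exact q1

/-- Steps are simulated.  Useful geometry (from `h0,h1,ok`): boxes `act true` only at even cells; a box
`act false _ z _`/`half z` at an odd cell has `z.1 ≠ h2`, at an even cell `z.1 = h0` (so it does not forward).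
`issue`/`finish` on `c` change neither `effBox` nor `effPay`; internal steps on `s` are level-1 internal
steps; a serve step is a `Call` (from `ok`) together with an `App`: lock/test/unlock/put/get leave `absX` and
`effRow` unchanged, `ps` is a row step, `exec` at `2j+1` (resp. `2j+2`) is the level-1 serve step `S1.serve`
(resp. `S2.serve`) at `j`. -/
theorem sim_fwd {x x' : ℕ → Let P} (hx : Cons Θ x) (h : (core Θ).Step Set.univ x x') :
    Cons Θ x' ∧ (core Θ).Adj (absX x) (absX x') ∧ Θ.row.Adj (effRow x) (effRow x') := by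
  obtain ⟨l, g⟩ := cons_iff.1 hx
  have l' := (loc_step h).1 l
  obtain ⟨q1, q2, q3⟩ := sim_core h l l'
  exact ⟨cons_iff.2 ⟨l', q1.1 g⟩, q2 g, q3⟩

theorem sim_bwd {x x' : ℕ → Let P} (hx : Cons Θ x') (h : (core Θ).Step Set.univ x x') :
    Cons Θ x ∧ (core Θ).Adj (absX x) (absX x') ∧ Θ.row.Adj (effRow x) (effRow x') := by
  obtain ⟨l', g⟩ := cons_iff.1 hx
  have l := (loc_step h).2 l'
  obtain ⟨q1, q2, q3⟩ := sim_core h l l'
  exact ⟨cons_iff.2 ⟨l, q1.2 g⟩, q2 (q1.2 g), q3⟩

theorem absC_ok {T : Ctl P} {e : Bool} (h : (absC T e).ok Θ) : T.ok Θ := by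
  obtain ⟨p, b, _ | ⟨st, x, y, p', b'⟩⟩ := T
  · exact h
  · cases st
    · exact h
    · refine ⟨h.1, ?_⟩
      rintro _ ⟨⟩
      exact h.2 ⟨if e then .done else .pend, x, y, p', b'⟩ rfl
    · exact h

theorem kill_exec {E : ℕ → Box P} {s : ℕ → Ctl P} {i : ℕ} {c : Opc} {y : Dat P}
    (e : E i = .act false .full (.h0, c) y) (hN : i % 2 = 0 → c.isN = true) (hk : Kil c y (s i))
    (w : WfE E) (g : Geo E s) : ∃ j < i, (core Θ).KillAt Set.univ (absE E s) j := by
  rcases Nat.mod_two_eq_zero_or_one i with hi | hi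
  · have hi0 : i ≠ 0 := by
      rintro rfl
      have := g.h0
      rw [e] at this
      cases this
    obtain ⟨j, rfl⟩ : ∃ j, i = 2 * j + 2 := ⟨i / 2 - 1, by omega⟩
    obtain ⟨t1, t2⟩ := g.trace_even w e
    obtain ⟨r, r1, r2, r3, r4⟩ := g.src t2
    refine ⟨j, by omega, trivial, Or.inr ⟨trivial, ?_⟩⟩
    have x1 : exE E j = false := by unfold exE; rw [t1, t2, e]; rfl
    unfold absE
    rw [x1, show 2 * (j + 1) = 2 * j + 2 from rfl, absC_tk r1 r2,
      absC_non (tkinfo_none (hk.req_none (hN hi)))]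
    exact K2.serve (r := { r with st := .pend }) rfl rfl r3 (hN hi) (by rw [← r4] at hk; exact hk)
  · obtain ⟨j, rfl⟩ : ∃ j, i = 2 * j + 1 := ⟨i / 2, by omega⟩
    have t2 := g.trace_odd w e
    obtain ⟨r, r1, r2, r3, r4⟩ := g.src t2
    refine ⟨j, by omega, trivial, Or.inl ?_⟩
    have x1 : exE E j = false := by unfold exE; rw [t2, e]; rfl
    unfold absE
    rw [x1, absC_tk r1 r2]
    exact K1.serve (r := { r with st := .pend }) rfl rfl r3 (by rw [← r4] at hk; exact hk)

theorem kill_one {E : ℕ → Box P} {s : ℕ → Ctl P} {i : ℕ} {p p' : P} {b' : Box P} {o : Opc}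
    {y : Dat P} (hc : Call Θ p (E i) (.h1, o) y p' b') (hk : Kil o y (s i))
    (hp : Θ.pos p = decide (i % 2 = 1)) (w : WfE E) (g : Geo E s) :
    (i % 2 = 0 ∧ (s i).req = none ∧ Θ.killV p (s i).pay) ∨
      ∃ j < i, (core Θ).KillAt Set.univ (absE E s) j := by
  have ev : Θ.pos p = false → i % 2 = 0 := fun h => by rw [hp] at h; simp at h; omega
  generalize e : E i = b at hc
  cases hc with
  | exec hN => exact Or.inr (kill_exec e (fun hi => hN (by rw [hp]; simp; omega)) hk w g)
  | ks1 h =>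
    obtain ⟨k, rfl⟩ : ∃ k, i = 2 * k := ⟨i / 2, by have := ev h; omega⟩
    have := g.s1 k
    rw [e] at this
    generalize expS b' = z at hk this
    cases hk with
    | ks1 h => exact absurd this h
  | ks2 h =>
    obtain ⟨k, rfl⟩ := even_of_wf w e
    cases hk with
    | ks2 r1 r2 => exact absurd (g.s2 k _ _ _ _ e h r1) r2
  | pkV h1 h2 =>
    generalize s i = T at hk
    cases hk with
    | pk r1 => exact Or.inl ⟨ev h1, r1, h2⟩
  | _ => cases hk

theorem kill_two {E : ℕ → Box P} {s : ℕ → Ctl P} {i : ℕ} {p p' : P} {b' : Box P} {o : Opc}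
    {y : Dat P} {d : Ctl P} (hc : Call Θ p (E i) (.h2, o) y p' b') (hk : Kil o y d)
    (f : E (i + 1) = d.box) (g : Geo E s) : Θ.killH p d.pay := by
  generalize e : E i = b at hc
  cases hc with
  | kh1 =>
    have := g.h1 i
    rw [e, f] at this
    generalize expH b' = z at hk this
    cases hk with
    | kh1 _ h => exact absurd this h
  | kh2 =>
    cases hk with
    | kh2 r1 r2 r3 => exact absurd (g.h2 i _ _ _ _ _ _ e (f.trans r2)) r3
  | pkH h =>
    cases hk with
    | pk r1 => exact h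
  | _ => cases hk

theorem sim_kill {x : ℕ → Let P} (hx : Cons Θ x) (hx' : Cons Θ (absX x)) {i : ℕ}
    (h : (core Θ).KillAt Set.univ x i) :
    Θ.killH (effRow x i) (effRow x (i + 1)) ∨
    (∃ j, Θ.killV (effRow x (2 * j)) (effRow (absX x) j)) ∨
    ∃ j < i, (core Θ).KillAt Set.univ (absX x) j := by
  obtain ⟨l, g⟩ := cons_iff.1 hx
  have w : WfE fun i => (x i).1.effBox := fun i => (l i).wf
  have li := l i
  obtain ⟨-, h | ⟨-, h⟩⟩ := h
  · change K1 Θ _ at h
    generalize e : x i = a at h li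
    cases h with
    | c h => exact absurd li.2.1 h
    | tk h1 h2 => exact absurd h2 (li.2.2 _ h1)
    | @s c s h =>
      rcases Nat.mod_two_eq_zero_or_one i with hi | hi
      · have := absC_ok (hx'.ok (i / 2))
        rw [show 2 * (i / 2) = i by omega, e] at this
        exact absurd this h
      · refine Or.inr (Or.inr ⟨i / 2, by omega, trivial, Or.inl (K1.s ?_)⟩)
        rw [show 2 * (i / 2) + 1 = i by omega, e]
        exact h
    | @serve c s r o h1 h2 h3 hk =>
      obtain ⟨-, k1, k2, -⟩ := serve_loc (Θ := Θ) h1 h2 true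
      have hc := li.2.1.2 r h1
      rw [h3] at hc
      rcases kill_one (Θ := Θ) (E := fun i => (x i).1.effBox) (s := fun i => (x i).2) (i := i)
        (p := c.pay) (p' := r.pay') (b' := r.box') (o := o) (y := r.y)
        (by simp only [e, k1]; exact hc) (by simp only [e]; exact hk) li.1 w g with q | q
      · obtain ⟨k, rfl⟩ : ∃ k, i = 2 * k := ⟨i / 2, by omega⟩
        refine Or.inr (Or.inl ⟨k, ?_⟩)
        have u1 : effRow x (2 * k) = c.pay := by simp only [effRow, e, k2]
        have u2 : effRow (absX x) k = (x (2 * k)).2.pay := by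
          simp only [effRow, absX]
          rw [absC_non (tkinfo_none q.2.1), (eff_none q.2.1).2]
        rw [u1, u2]
        exact q.2.2
      · exact Or.inr (Or.inr q)
  · change K2 _ _ at h
    generalize e : x i = a at h li
    generalize f : x (i + 1) = b at h
    cases h with
    | @serve c s d t r o h1 h2 h3 hN hk =>
      obtain ⟨-, k1, k2, -⟩ := serve_loc (Θ := Θ) h1 h2 true
      have hc := li.2.1.2 r h1
      rw [h3] at hc
      have n1 := hk.req_none hN
      left
      have u1 : effRow x i = c.pay := by simp only [effRow, e, k2]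
      have u3 : effRow x (i + 1) = d.pay := by simp only [effRow, f, (eff_none n1).2]
      rw [u1, u3]
      exact kill_two (Θ := Θ) (E := fun i => (x i).1.effBox) (s := fun i => (x i).2) (i := i)
        (p' := r.pay') (b' := r.box') (o := o) (y := r.y)
        (by simp only [e, k1]; exact hc) hk (by simp only [f, (eff_none n1).1]) g

theorem sim_adj {x x' : ℕ → Let P} (hx : Cons Θ x) (h : (core Θ).Adj x x') :
    Cons Θ x' ∧ (core Θ).Adj (absX x) (absX x') ∧ Θ.row.Adj (effRow x) (effRow x') := by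
  rcases h with rfl | h | h
  · exact ⟨hx, Or.inl rfl, Or.inl rfl⟩
  · exact sim_fwd hx h
  · obtain ⟨q1, q2, q3⟩ := sim_bwd hx h
    exact ⟨q1, q2.symm, q3.symm⟩

/-- the slots of the idle tower -/
def towerSlot (p : ℕ → ℕ → P) (k i : ℕ) : Ctl P :=
  if _h : i % 2 = 0 then ⟨p (k + 1) (i / 2), .empty, none⟩ else towerSlot p (k + 1) (i / 2)
termination_by i
decreasing_by omega

def tower (p : ℕ → ℕ → P) (k : ℕ) : ℕ → Let P := fun i => (⟨p k i, .empty, none⟩, towerSlot p k i)

theorem towerSlot_even (p : ℕ → ℕ → P) (k j : ℕ) :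
    towerSlot p k (2 * j) = ⟨p (k + 1) j, .empty, none⟩ := by
  rw [towerSlot, dif_pos (by omega), show 2 * j / 2 = j by omega]

theorem absX_tower (p : ℕ → ℕ → P) (k : ℕ) : absX (tower p k) = tower p (k + 1) := by
  funext j
  simp only [absX, tower, towerSlot_even]
  rw [towerSlot, dif_neg (by omega), show (2 * j + 1) / 2 = j by omega]
  rfl

theorem iter_tower (p : ℕ → ℕ → P) (k : ℕ) : absX^[k] (tower p 0) = tower p k := by
  induction k with
  | zero => rfl
  | succ k ih => rw [Function.iterate_succ_apply', ih, absX_tower]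

/-- Soundness.  `Good x := ∀ k, Cons (absX^[k] x) ∧ G k (effRow (absX^[k] x))` is closed under steps
(`sim_fwd`, `sim_bwd`, `Adj` propagates along `k`), has no kill (`sim_kill`, strong induction on the cell,
for all levels at once), and contains the tower `T k i = (idle (p k i), slot k i)`,
`slot k (2j) = idle (p (k+1) j)`, `slot k (2j+1) = slot (k+1) j`, for which `absX (T k) = T (k+1)`. -/
theorem sound (G : ℕ → (ℕ → P) → Prop) (hne : ∀ k, ∃ p, G k p)
    (hpos : ∀ k p j, G k p → Θ.pos (p j) = decide (j % 2 = 1))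
    (hstep : ∀ k p p', Θ.row.Step Set.univ p p' → (G k p ↔ G k p'))
    (hH : ∀ k p j, G k p → ¬ Θ.killH (p j) (p (j + 1)))
    (hV : ∀ k p q j, G k p → G (k + 1) q → ¬ Θ.killV (p (2 * j)) (q j))
    (hb : ∀ p j, G 0 p → ¬ Θ.base (p j)) :
    ∃ x : ℕ → Let P, ¬ (phys Θ).Dead Set.univ x := by
  choose p hp using hne
  let Good : (ℕ → Let P) → Prop := fun x =>
    ∀ k, Cons Θ (absX^[k] x) ∧ G k (effRow (absX^[k] x))
  have hadj : ∀ x x', (core Θ).Adj x x' → Good x → Good x' := by
    intro x x' h hx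
    have : ∀ k, (core Θ).Adj (absX^[k] x) (absX^[k] x') := by
      intro k
      induction k with
      | zero => exact h
      | succ k ih =>
        rw [Function.iterate_succ_apply', Function.iterate_succ_apply']
        exact (sim_adj (hx k).1 ih).2.1
    intro k
    obtain ⟨q1, -, q3⟩ := sim_adj (hx k).1 (this k)
    refine ⟨q1, ?_⟩
    rcases q3 with q3 | q3 | q3
    · exact q3 ▸ (hx k).2
    · exact (hstep k _ _ q3).1 (hx k).2
    · exact (hstep k _ _ q3).2 (hx k).2
  have hkill : ∀ x, Good x → ∀ i k, ¬ (core Θ).KillAt Set.univ (absX^[k] x) i := by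
    intro x hx i
    induction i using Nat.strong_induction_on with
    | _ i ih =>
      intro k hk
      have h1 := hx (k + 1)
      rw [Function.iterate_succ_apply'] at h1
      rcases sim_kill (hx k).1 h1.1 hk with q | ⟨j, q⟩ | ⟨j, hj, q⟩
      · exact hH k _ i (hx k).2 q
      · exact hV k _ _ j (hx k).2 h1.2 q
      · exact ih j hj (k + 1) (by rwa [Function.iterate_succ_apply'])
  have h0 : Good (tower p 0) := by
    intro k
    rw [iter_tower]
    refine ⟨⟨fun i => hpos k _ i (hp k), fun i => ⟨trivial, ?_⟩, ?_, rfl, fun _ => rfl, ?_,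
      fun j => ?_, ?_⟩, hp k⟩
    · rintro _ ⟨⟩
    · rintro _ _ ⟨⟩
    · rintro _ _ _ _ _ _ _ ⟨⟩
    · simp only [tower, towerSlot_even]
      rfl
    · rintro _ _ _ _ _ ⟨⟩
  refine ⟨tower p 0, ?_⟩
  rintro ⟨y, i, h, -, hk⟩
  have hy : Good y := (Eqv.closed Good (fun x y h => ⟨hadj x y (Or.inr (Or.inl h)),
    hadj y x (Or.inr (Or.inr h))⟩) (phys_eqv.1 h)).1 h0
  rcases hk with (hk | hk) | hk
  · exact hkill y hy i 0 ⟨trivial, Or.inl hk⟩
  · refine hb _ i (hy 0).2 ?_
    show Θ.base (y i).1.effPay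
    rw [(eff_none hk.1).2]
    exact hk.2
  · exact hkill y hy i 0 ⟨trivial, Or.inr hk⟩

end Crest.Agent.R176
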