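import Crest.Agent.R176.Sys

/-! Row 176: window systems acting on configurations `ℕ → X`, localised on sets of cells. -/

set_option autoImplicit false

namespace Crest.Agent.R176

open Function

/-- window-1 and window-2 steps and kills -/
structure WSys (X : Type) where
  s1 : X → X → Prop
  k1 : X → Prop
  s2 : X → X → X → X → Prop
  k2 : X → X → Prop

namespace WSys

variable {X : Type} (W : WSys X)

inductive Step (S : Set ℕ) : (ℕ → X) → (ℕ → X) → Prop
  | one {x : ℕ → X} {i : ℕ} {a : X} : i ∈ S → W.s1 (x i) a → Step S x (update x i a)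
  | two {x : ℕ → X} {i : ℕ} {a b : X} : i ∈ S → i + 1 ∈ S → W.s2 (x i) (x (i + 1)) a b →
      Step S x (update (update x i a) (i + 1) b)

def Eqv (S : Set ℕ) : (ℕ → X) → (ℕ → X) → Prop := Relation.EqvGen (W.Step S)

/-- a kill window at cell `i` inside `S` -/
def KillAt (S : Set ℕ) (x : ℕ → X) (i : ℕ) : Prop :=
  i ∈ S ∧ (W.k1 (x i) ∨ (i + 1 ∈ S ∧ W.k2 (x i) (x (i + 1))))

def Dead (S : Set ℕ) (x : ℕ → X) : Prop := ∃ y i, W.Eqv S x y ∧ W.KillAt S y i

variable {W}

theorem Eqv.refl (S : Set ℕ) (x : ℕ → X) : W.Eqv S x x := Relation.EqvGen.refl x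

theorem Eqv.of_eq {S : Set ℕ} {x y : ℕ → X} (h : x = y) : W.Eqv S x y := h ▸ Eqv.refl S x

theorem Eqv.symm {S : Set ℕ} {x y : ℕ → X} (h : W.Eqv S x y) : W.Eqv S y x :=
  Relation.EqvGen.symm _ _ h

theorem Eqv.trans {S : Set ℕ} {x y z : ℕ → X} (h : W.Eqv S x y) (h' : W.Eqv S y z) :
    W.Eqv S x z := Relation.EqvGen.trans _ _ _ h h'

theorem Step.eqv {S : Set ℕ} {x y : ℕ → X} (h : W.Step S x y) : W.Eqv S x y :=
  Relation.EqvGen.rel _ _ h

theorem Step.mono {S T : Set ℕ} (hST : S ⊆ T) {x y : ℕ → X} (h : W.Step S x y) : W.Step T x y := by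
  cases h with
  | one hi h => exact Step.one (hST hi) h
  | two hi hi' h => exact Step.two (hST hi) (hST hi') h

theorem Eqv.mono {S T : Set ℕ} (hST : S ⊆ T) {x y : ℕ → X} (h : W.Eqv S x y) : W.Eqv T x y := by
  induction h with
  | rel _ _ h => exact (h.mono hST).eqv
  | refl => exact Eqv.refl _ _
  | symm _ _ _ ih => exact ih.symm
  | trans _ _ _ _ _ ih ih' => exact ih.trans ih'

/-- extensional form of a window-1 step -/
theorem eqv_one {S : Set ℕ} {x y : ℕ → X} {i : ℕ} (hi : i ∈ S) (h : W.s1 (x i) (y i))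
    (hy : ∀ j, j ≠ i → y j = x j) : W.Eqv S x y := by
  have : y = update x i (y i) := by
    funext j
    by_cases hj : j = i
    · subst hj; simp
    · simp [hj, hy j hj]
  rw [this]
  exact (Step.one hi h).eqv

/-- extensional form of a window-2 step -/
theorem eqv_two {S : Set ℕ} {x y : ℕ → X} {i : ℕ} (hi : i ∈ S) (hi' : i + 1 ∈ S)
    (h : W.s2 (x i) (x (i + 1)) (y i) (y (i + 1)))
    (hy : ∀ j, j ≠ i → j ≠ i + 1 → y j = x j) : W.Eqv S x y := by
  have : y = update (update x i (y i)) (i + 1) (y (i + 1)) := by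
    funext j
    by_cases hj : j = i + 1
    · subst hj; simp
    · by_cases hj' : j = i
      · subst hj'; simp
      · simp [hj, hj', hy j hj' hj]
  rw [this]
  exact (Step.two hi hi' h).eqv

/-- extensional description of a step -/
theorem step_iff {S : Set ℕ} {x y : ℕ → X} : W.Step S x y ↔
    (∃ i ∈ S, W.s1 (x i) (y i) ∧ ∀ j, j ≠ i → y j = x j) ∨
    (∃ i ∈ S, i + 1 ∈ S ∧ W.s2 (x i) (x (i + 1)) (y i) (y (i + 1)) ∧
      ∀ j, j ≠ i → j ≠ i + 1 → y j = x j) := by
  constructor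
  · intro h
    cases h with
    | @one i a hi h => exact Or.inl ⟨i, hi, by simpa using h, fun j hj => by simp [hj]⟩
    | @two i a b hi hi' h =>
      exact Or.inr ⟨i, hi, hi', by simpa using h, fun j hj hj' => by simp [hj, hj']⟩
  · rintro (⟨i, hi, h, hy⟩ | ⟨i, hi, hi', h, hy⟩)
    · have : y = update x i (y i) := by
        funext j
        by_cases hj : j = i
        · subst hj; simp
        · simp [hj, hy j hj]
      rw [this]
      exact Step.one hi h
    · have : y = update (update x i (y i)) (i + 1) (y (i + 1)) := by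
        funext j
        by_cases hj : j = i + 1
        · subst hj; simp
        · by_cases hj' : j = i
          · subst hj'; simp
          · simp [hj, hj', hy j hj' hj]
      rw [this]
      exact Step.two hi hi' h

theorem KillAt.mono {S T : Set ℕ} (hST : S ⊆ T) {x : ℕ → X} {i : ℕ} (h : W.KillAt S x i) :
    W.KillAt T x i :=
  ⟨hST h.1, h.2.imp id fun h' => ⟨hST h'.1, h'.2⟩⟩

theorem Dead.mono {S T : Set ℕ} (hST : S ⊆ T) {x : ℕ → X} (h : W.Dead S x) : W.Dead T x := by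
  obtain ⟨y, i, h, hk⟩ := h
  exact ⟨y, i, h.mono hST, hk.mono hST⟩

theorem Eqv.dead {S : Set ℕ} {x y : ℕ → X} (h : W.Eqv S x y) (hd : W.Dead S y) : W.Dead S x := by
  obtain ⟨z, i, h', hk⟩ := hd
  exact ⟨z, i, h.trans h', hk⟩

theorem Eqv.not_dead {S : Set ℕ} {x y : ℕ → X} (h : W.Eqv S x y) (hd : ¬ W.Dead S x) :
    ¬ W.Dead S y := fun h' => hd (h.dead h')

theorem dead_of_k1 {S : Set ℕ} {x : ℕ → X} {i : ℕ} (hi : i ∈ S) (h : W.k1 (x i)) : W.Dead S x :=
  ⟨x, i, Eqv.refl _ _, hi, Or.inl h⟩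

theorem dead_of_k2 {S : Set ℕ} {x : ℕ → X} {i : ℕ} (hi : i ∈ S) (hi' : i + 1 ∈ S)
    (h : W.k2 (x i) (x (i + 1))) : W.Dead S x :=
  ⟨x, i, Eqv.refl _ _, hi, Or.inr ⟨hi', h⟩⟩

theorem Step.frame {S : Set ℕ} {x y : ℕ → X} (h : W.Step S x y) {j : ℕ} (hj : j ∉ S) :
    y j = x j := by
  rcases step_iff.1 h with ⟨i, hi, -, hy⟩ | ⟨i, hi, hi', -, hy⟩
  · exact hy j fun e => hj (e ▸ hi)
  · exact hy j (fun e => hj (e ▸ hi)) fun e => hj (e ▸ hi')

/-- cells outside `S` do not change -/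
theorem Eqv.frame {S : Set ℕ} {x y : ℕ → X} (h : W.Eqv S x y) {j : ℕ} (hj : j ∉ S) :
    y j = x j := by
  induction h with
  | rel _ _ h => exact h.frame hj
  | refl => rfl
  | symm _ _ _ ih => exact ih.symm
  | trans _ _ _ _ _ ih ih' => exact ih'.trans ih

open Classical in
theorem Step.replay {S : Set ℕ} {x y : ℕ → X} (h : W.Step S x y) (z : ℕ → X) :
    W.Step S (S.piecewise x z) (S.piecewise y z) := by
  rcases step_iff.1 h with ⟨i, hi, h, hy⟩ | ⟨i, hi, hi', h, hy⟩
  · refine step_iff.2 (Or.inl ⟨i, hi, by simpa [hi] using h, fun j hj => ?_⟩)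
    by_cases hjS : j ∈ S <;> simp [hjS, hy j hj]
  · refine step_iff.2 (Or.inr ⟨i, hi, hi', by simpa [hi, hi'] using h, fun j hj hj' => ?_⟩)
    by_cases hjS : j ∈ S <;> simp [hjS, hy j hj hj']

open Classical in
theorem Eqv.piecewise {S : Set ℕ} {x y : ℕ → X} (h : W.Eqv S x y) (z : ℕ → X) :
    W.Eqv S (S.piecewise x z) (S.piecewise y z) := by
  induction h with
  | rel _ _ h => exact (h.replay z).eqv
  | refl => exact Eqv.refl _ _
  | symm _ _ _ ih => exact ih.symm
  | trans _ _ _ _ _ ih ih' => exact ih.trans ih'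

open Classical in
/-- replay of a computation in another context -/
theorem Eqv.replay {S : Set ℕ} {x y x' : ℕ → X} (h : W.Eqv S x y) (hx : ∀ i ∈ S, x' i = x i) :
    W.Eqv S x' (S.piecewise y x') := by
  have : S.piecewise x x' = x' := by
    funext j
    by_cases hj : j ∈ S <;> simp [hj, hx]
  have h' := h.piecewise x'
  rwa [this] at h'

/-- replay, extensional form -/
theorem Eqv.replay' {S : Set ℕ} {x y x' y' : ℕ → X} (h : W.Eqv S x y) (hx : ∀ i ∈ S, x' i = x i)
    (hy : ∀ i ∈ S, y' i = y i) (ho : ∀ i, i ∉ S → y' i = x' i) : W.Eqv S x' y' := by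
  classical
  have : y' = S.piecewise y x' := by
    funext j
    by_cases hj : j ∈ S
    · simp [hj, hy j hj]
    · simp [hj, ho j hj]
  rw [this]
  convert h.replay hx

theorem Dead.congr {S : Set ℕ} {x x' : ℕ → X} (h : W.Dead S x) (hx : ∀ i ∈ S, x' i = x i) :
    W.Dead S x' := by
  classical
  obtain ⟨y, i, h, hi, hk⟩ := h
  refine ⟨_, i, h.replay hx, hi, ?_⟩
  rcases hk with hk | ⟨hi', hk⟩
  · left; simpa [hi] using hk
  · right; exact ⟨hi', by simpa [hi, hi'] using hk⟩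

/-- shift of a configuration -/
def sh (o : ℕ) (x : ℕ → X) : ℕ → X := fun i => x (i + o)

/-- inverse shift, completed by `x` below `o` -/
def unsh (o : ℕ) (x y : ℕ → X) : ℕ → X := fun i => if o ≤ i then y (i - o) else x i

theorem unsh_sh (o : ℕ) (x : ℕ → X) : unsh o x (sh o x) = x := by
  funext i
  simp only [unsh, sh]
  split_ifs with h
  · rw [Nat.sub_add_cancel h]
  · rfl

theorem sh_unsh (o : ℕ) (x y : ℕ → X) : sh o (unsh o x y) = y := by
  funext i
  simp [unsh, sh]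

theorem Step.unsh {S : Set ℕ} {y y' : ℕ → X} (h : W.Step S y y') (o : ℕ) (x : ℕ → X) :
    W.Step {i | o ≤ i ∧ i - o ∈ S} (unsh o x y) (unsh o x y') := by
  rcases step_iff.1 h with ⟨i, hi, h, hy⟩ | ⟨i, hi, hi', h, hy⟩
  · refine step_iff.2 (Or.inl ⟨i + o, ⟨by omega, by simpa using hi⟩,
      by simpa [WSys.unsh] using h, fun j hj => ?_⟩)
    simp only [WSys.unsh]
    split_ifs with ho
    · exact hy _ (by omega)
    · rfl
  · have e : i + o + 1 - o = i + 1 := by omega
    refine step_iff.2 (Or.inr ⟨i + o, ⟨by omega, by simpa using hi⟩, ⟨by omega, by rwa [e]⟩,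
      ?_, fun j hj hj' => ?_⟩)
    · simp only [WSys.unsh, e, le_add_iff_nonneg_left, zero_le, if_true, Nat.add_sub_cancel,
        show o ≤ i + o + 1 by omega]
      exact h
    · simp only [WSys.unsh]
      split_ifs with ho
      · exact hy _ (by omega) (by omega)
      · rfl

theorem Eqv.unsh {S : Set ℕ} {y y' : ℕ → X} (h : W.Eqv S y y') (o : ℕ) (x : ℕ → X) :
    W.Eqv {i | o ≤ i ∧ i - o ∈ S} (unsh o x y) (unsh o x y') := by
  induction h with
  | rel _ _ h => exact (h.unsh o x).eqv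
  | refl => exact Eqv.refl _ _
  | symm _ _ _ ih => exact ih.symm
  | trans _ _ _ _ _ ih ih' => exact ih.trans ih'

theorem Eqv.of_sh {S : Set ℕ} {o : ℕ} {x y : ℕ → X} (h : W.Eqv S (sh o x) y) :
    W.Eqv {i | o ≤ i ∧ i - o ∈ S} x (WSys.unsh o x y) := by
  have := h.unsh o x
  rwa [unsh_sh] at this

theorem Dead.of_sh {S : Set ℕ} {o : ℕ} {x : ℕ → X} (h : W.Dead S (sh o x)) :
    W.Dead {i | o ≤ i ∧ i - o ∈ S} x := by
  obtain ⟨y, i, h, hi, hk⟩ := h
  have e : i + o + 1 - o = i + 1 := by omega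
  refine ⟨_, i + o, h.of_sh, ⟨by omega, by simpa using hi⟩, ?_⟩
  rcases hk with hk | ⟨hi', hk⟩
  · left; simpa [WSys.unsh] using hk
  · right
    refine ⟨⟨by omega, by rwa [e]⟩, ?_⟩
    simp only [WSys.unsh, e, le_add_iff_nonneg_left, zero_le, if_true, Nat.add_sub_cancel,
        show o ≤ i + o + 1 by omega]
    exact hk

theorem Step.sh {S : Set ℕ} {o : ℕ} (hS : ∀ i ∈ S, o ≤ i) {x y : ℕ → X} (h : W.Step S x y) :
    W.Step {i | i + o ∈ S} (sh o x) (sh o y) := by
  rcases step_iff.1 h with ⟨i, hi, h, hy⟩ | ⟨i, hi, hi', h, hy⟩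
  · obtain ⟨k, rfl⟩ : ∃ k, i = k + o := ⟨i - o, by have := hS i hi; omega⟩
    exact step_iff.2 (Or.inl ⟨k, hi, h, fun j hj => hy _ (by omega)⟩)
  · obtain ⟨k, rfl⟩ : ∃ k, i = k + o := ⟨i - o, by have := hS i hi; omega⟩
    have e : k + 1 + o = k + o + 1 := by omega
    refine step_iff.2 (Or.inr ⟨k, hi, by simpa [e] using hi', ?_,
      fun j hj hj' => hy _ (by omega) (by omega)⟩)
    simp only [WSys.sh, e]
    exact h

theorem Eqv.sh {S : Set ℕ} {o : ℕ} (hS : ∀ i ∈ S, o ≤ i) {x y : ℕ → X} (h : W.Eqv S x y) :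
    W.Eqv {i | i + o ∈ S} (sh o x) (sh o y) := by
  induction h with
  | rel _ _ h => exact (h.sh hS).eqv
  | refl => exact Eqv.refl _ _
  | symm _ _ _ ih => exact ih.symm
  | trans _ _ _ _ _ ih ih' => exact ih.trans ih'

theorem Dead.sh {S : Set ℕ} {o : ℕ} (hS : ∀ i ∈ S, o ≤ i) {x : ℕ → X} (h : W.Dead S x) :
    W.Dead {i | i + o ∈ S} (sh o x) := by
  obtain ⟨y, i, h, hi, hk⟩ := h
  obtain ⟨k, rfl⟩ : ∃ k, i = k + o := ⟨i - o, by have := hS i hi; omega⟩
  have e : k + 1 + o = k + o + 1 := by omega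
  refine ⟨_, k, h.sh hS, hi, ?_⟩
  rcases hk with hk | ⟨hi', hk⟩
  · exact Or.inl hk
  · refine Or.inr ⟨by simpa [e] using hi', ?_⟩
    simp only [WSys.sh, e]
    exact hk

/-- invariants of the steps are invariants of the equivalence -/
theorem Eqv.invariant {Y : Type*} (f : X → Y) (h1 : ∀ a a', W.s1 a a' → f a' = f a)
    (h2 : ∀ a b a' b', W.s2 a b a' b' → f a' = f a ∧ f b' = f b)
    {S : Set ℕ} {x y : ℕ → X} (h : W.Eqv S x y) (j : ℕ) : f (y j) = f (x j) := by
  induction h with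
  | rel x y h =>
    rcases step_iff.1 h with ⟨i, -, h, hy⟩ | ⟨i, -, -, h, hy⟩
    · by_cases hj : j = i
      · subst hj; exact h1 _ _ h
      · rw [hy j hj]
    · by_cases hj : j = i
      · subst hj; exact (h2 _ _ _ _ h).1
      · by_cases hj' : j = i + 1
        · subst hj'; exact (h2 _ _ _ _ h).2
        · rw [hy j hj hj']
  | refl => rfl
  | symm _ _ _ ih => exact ih.symm
  | trans _ _ _ _ _ ih ih' => exact ih'.trans ih

/-- closure of a set of configurations under the equivalence -/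
theorem Eqv.closed {S : Set ℕ} (G : (ℕ → X) → Prop)
    (hG : ∀ x y, W.Step S x y → (G x ↔ G y)) {x y : ℕ → X} (h : W.Eqv S x y) : G x ↔ G y := by
  induction h with
  | rel _ _ h => exact hG _ _ h
  | refl => rfl
  | symm _ _ _ ih => exact ih.symm
  | trans _ _ _ _ _ ih ih' => exact ih.trans ih'

end WSys

end Crest.Agent.R176
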