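import Mathlib

/-! Row 176: the alternating sum lemma. -/

set_option autoImplicit false

namespace Crest.Agent.R176

/-- a sum vanishes if it vanishes on the classes of a partition -/
theorem sum_eq_zero_of_classes {α M : Type*} [DecidableEq α] [AddCommMonoid M] (s : Finset α)
    (cls : α → Finset α) (g : α → M) (h1 : ∀ a ∈ s, a ∈ cls a) (h2 : ∀ a ∈ s, cls a ⊆ s)
    (h3 : ∀ a ∈ s, ∀ b ∈ cls a, cls b = cls a) (h4 : ∀ a ∈ s, ∑ b ∈ cls a, g b = 0) :
    ∑ a ∈ s, g a = 0 := by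
  rw [← Finset.sum_fiberwise_of_maps_to (g := cls) (t := s.image cls)
    (fun a ha => Finset.mem_image_of_mem _ ha)]
  refine Finset.sum_eq_zero fun c hc => ?_
  obtain ⟨a, ha, rfl⟩ := Finset.mem_image.1 hc
  rw [← h4 a ha]
  refine Finset.sum_congr ?_ fun _ _ => rfl
  ext b
  rw [Finset.mem_filter]
  exact ⟨fun h => h.2 ▸ h1 b h.1, fun h => ⟨h2 a ha h, h3 a ha b h⟩⟩

namespace NAlt

/-- path expansion of an entry of a matrix product -/
theorem prod_ofFn_apply {K Y : Type} [CommRing K] [Fintype Y] [DecidableEq Y] :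
    ∀ {n : ℕ} (M : Fin n → Matrix Y Y K) (a b : Y), (List.ofFn M).prod a b =
      ∑ p : Fin (n + 1) → Y, if p 0 = a ∧ p (Fin.last n) = b then
        ∏ i : Fin n, M i (p i.castSucc) (p i.succ) else 0
  | 0, M, a, b => by
    rw [← (Equiv.funUnique (Fin 1) Y).symm.sum_comp]
    simp only [List.ofFn_zero, List.prod_nil, Matrix.one_apply, Equiv.funUnique_symm_apply,
      uniqueElim_const, Finset.univ_eq_empty, Finset.prod_empty]
    rw [Finset.sum_eq_single a (fun c _ hc => by simp [hc]) (by simp)]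
    simp
  | n + 1, M, a, b => by
    rw [List.ofFn_succ, List.prod_cons, Matrix.mul_apply,
      ← (Fin.consEquiv fun _ : Fin (n + 2) => Y).sum_comp, Fintype.sum_prod_type]
    conv_rhs => rw [Finset.sum_eq_single a (fun c _ hc => by simp [Fin.consEquiv, hc]) (by simp)]
    simp only [prod_ofFn_apply, Finset.mul_sum]
    rw [Finset.sum_comm]
    refine Finset.sum_congr rfl fun p _ => ?_
    rw [Finset.sum_eq_single (p 0) (fun c _ hc => by simp [hc.symm]) (by simp)]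
    simp only [Fin.consEquiv, Equiv.coe_fn_mk, true_and, Fin.cons_zero, Fin.prod_univ_succ,
      ← Fin.succ_last, Fin.cons_succ, Fin.castSucc_zero, ← Fin.succ_castSucc, mul_ite, mul_zero]

/-- exchange of the intervals `[a, a + ℓ)` and `[b, b + ℓ)` -/
def sw (a b ℓ i : ℕ) : ℕ :=
  if a ≤ i ∧ i < a + ℓ then i - a + b else if b ≤ i ∧ i < b + ℓ then i - b + a else i

theorem sw_sw {a b ℓ : ℕ} (h : a + ℓ ≤ b) (i : ℕ) : sw a b ℓ (sw a b ℓ i) = i := by
  unfold sw
  split_ifs <;> omega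

theorem sw_lt {a b ℓ m i : ℕ} (h : a + ℓ ≤ b) (hm : b + ℓ ≤ m) (hi : i < m) : sw a b ℓ i < m := by
  unfold sw
  split_ifs <;> omega

theorem sw_of_out {a b ℓ i : ℕ} (h1 : ¬ (a ≤ i ∧ i < a + ℓ)) (h2 : ¬ (b ≤ i ∧ i < b + ℓ)) :
    sw a b ℓ i = i := by
  rw [sw, if_neg h1, if_neg h2]

theorem apply_sw {Y : Type} (P : ℕ → Y) {a b ℓ : ℕ} (h : a + ℓ ≤ b) (h1 : P a = P b) {c : ℕ}
    (hc : c ≤ a ∨ (a + ℓ ≤ c ∧ c ≤ b) ∨ b + ℓ ≤ c) : P (sw a b ℓ c) = P c := by
  unfold sw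
  split_ifs with p q
  · have : c = a := by omega
    subst this
    simp [h1]
  · have : c = b := by omega
    subst this
    simp [h1]
  · rfl

theorem apply_sw_succ {Y : Type} (P : ℕ → Y) {a b ℓ : ℕ} (h : a + ℓ ≤ b) (h1 : P a = P b)
    (h2 : P (a + ℓ) = P (b + ℓ)) (i : ℕ) : P (sw a b ℓ (i + 1)) = P (sw a b ℓ i + 1) := by
  by_cases hc : i + 1 ≤ a ∨ (a + ℓ ≤ i + 1 ∧ i + 1 ≤ b) ∨ b + ℓ ≤ i + 1
  · rw [apply_sw P h h1 hc]
    unfold sw
    split_ifs with p q
    · have e1 : i + 1 = a + ℓ := by omega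
      have e2 : i - a + b + 1 = b + ℓ := by omega
      rw [e1, e2, h2]
    · have e1 : i + 1 = b + ℓ := by omega
      have e2 : i - b + a + 1 = a + ℓ := by omega
      rw [e1, e2, h2]
    · rfl
  · congr 1
    unfold sw
    split_ifs <;> omega

/-- the exchange on `Fin m` -/
def swF (a b ℓ : ℕ) {m : ℕ} (i : Fin m) : Fin m :=
  if h : sw a b ℓ i < m then ⟨sw a b ℓ i, h⟩ else i

theorem swF_val {a b ℓ m : ℕ} (h : a + ℓ ≤ b) (hm : b + ℓ ≤ m) (i : Fin m) :
    (swF a b ℓ i : ℕ) = sw a b ℓ i := by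
  rw [swF, dif_pos (sw_lt h hm i.2)]

theorem swF_invol {a b ℓ m : ℕ} (h : a + ℓ ≤ b) (hm : b + ℓ ≤ m) :
    Function.Involutive (swF a b ℓ (m := m)) := fun i =>
  Fin.ext (by rw [swF_val h hm, swF_val h hm, sw_sw h])

/-- a path as a function on `ℕ` -/
def ext {Y : Type} {n : ℕ} (p : Fin (n + 1) → Y) (j : ℕ) : Y :=
  p ⟨min j n, Nat.lt_succ_of_le (min_le_right _ _)⟩

theorem ext_val {Y : Type} {n : ℕ} (p : Fin (n + 1) → Y) (j : Fin (n + 1)) : ext p j = p j :=
  congrArg p (Fin.ext (min_eq_left (Nat.le_of_lt_succ j.2)))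

theorem ext_comp {Y : Type} {n a b ℓ : ℕ} (h : a + ℓ ≤ b) (hm : b + ℓ ≤ n) (p : Fin (n + 1) → Y)
    {j : ℕ} (hj : j ≤ n) : ext (p ∘ swF a b ℓ) j = ext p (sw a b ℓ j) := by
  have := ext_val (p ∘ swF a b ℓ) ⟨j, Nat.lt_succ_of_le hj⟩
  rw [this, Function.comp_apply, ← ext_val p, swF_val h (hm.trans (Nat.le_succ n))]

end NAlt

/-- the factor of length `ℓ` at position `a` of a word (padded by `d`) -/
def slotOf {X : Type} {n : ℕ} (d : X) (ℓ a : ℕ) (w : Fin n → X) : Fin ℓ → X := fun v =>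
  if h : a + v < n then w ⟨a + v, h⟩ else d

/-- Words `w` have `r` disjoint slots of length `ℓ` at the positions `π t`; slot contents have a type `ty` and a
token `tk`.  If for every word of `C` the selected slots (a function of the types) are more than `|Y|²`, have
equal types and distinct tokens, and `C` is closed under replacing the contents of the selected slots by
contents of the same type with permuted tokens, then the weights of `C` sum to zero in characteristic 2.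
Proof: classes = (letters outside the selected slots `I`, token set `S`) (`sum_eq_zero_of_classes`).  An
entry of the weight of the word with slot contents `u t` is `∑_{φ : I → Y × Y} c φ * ∏_t (B (u t)) (φ t).1 (φ t).2`
with `c` independent of `u` (induction on `I`, cutting at the last slot).  Summing over `u` gives
`∑_φ c φ ∑_{bijections g : I → S} ∏_t V (g t) (φ t)` with `V k := ∑_{ty u = τ, tk u = k} B u`; `φ` is not
injective, say `φ t₁ = φ t₂`, and `g ↦ g ∘ swap t₁ t₂` is a fixed point free involution preserving the terms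
(`Finset.sum_involution`). -/
theorem alt_sum {X T Tk K Y : Type} [Fintype X] [DecidableEq X] [CommRing K] [CharP K 2]
    [Fintype Y] [DecidableEq Y] (B : X → Matrix Y Y K) (d : X) {n ℓ r : ℕ} (π : Fin r → ℕ)
    (hπ : ∀ t, π t + ℓ ≤ n) (hπ' : ∀ t t', t < t' → π t + ℓ ≤ π t')
    (ty : (Fin ℓ → X) → T) (tk : (Fin ℓ → X) → Tk) (sel : (Fin r → T) → Finset (Fin r))
    (C : Finset (Fin n → X))
    (h1 : ∀ w ∈ C, Fintype.card Y ^ 2 < (sel fun t => ty (slotOf d ℓ (π t) w)).card)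
    (h2 : ∀ w ∈ C, ∀ t ∈ sel fun t => ty (slotOf d ℓ (π t) w),
      ∀ t' ∈ sel fun t => ty (slotOf d ℓ (π t) w),
        ty (slotOf d ℓ (π t) w) = ty (slotOf d ℓ (π t') w) ∧
        (tk (slotOf d ℓ (π t) w) = tk (slotOf d ℓ (π t') w) → t = t'))
    (h3 : ∀ w ∈ C, ∀ (w' : Fin n → X) (σ : Equiv.Perm (Fin r)),
      (∀ t, t ∉ (sel fun t => ty (slotOf d ℓ (π t) w)) → σ t = t) →
      (∀ i : Fin n, (∀ t ∈ sel fun t => ty (slotOf d ℓ (π t) w), ¬ (π t ≤ i ∧ i < π t + ℓ)) →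
        w' i = w i) →
      (∀ t ∈ sel fun t => ty (slotOf d ℓ (π t) w),
        ty (slotOf d ℓ (π t) w') = ty (slotOf d ℓ (π t) w) ∧
        tk (slotOf d ℓ (π t) w') = tk (slotOf d ℓ (π (σ t)) w)) → w' ∈ C) :
    ∑ w ∈ C, (List.ofFn fun i => B (w i)).prod = 0 := by
  rcases C.eq_empty_or_nonempty with rfl | ⟨w₀, hw₀⟩
  · simp
  obtain ⟨t₀, -⟩ := Finset.card_pos.1 ((Nat.zero_le _).trans_lt (h1 w₀ hw₀))
  have hpick : ∀ (I : Finset (Fin r)) (φ : Fin r → Y × Y), ∃ q : Fin r × Fin r,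
      Fintype.card Y ^ 2 < I.card → q.1 ∈ I ∧ q.2 ∈ I ∧ q.1 < q.2 ∧ φ q.1 = φ q.2 := by
    intro I φ
    by_cases h : Fintype.card Y ^ 2 < I.card
    · obtain ⟨x, hx, y, hy, hne, he⟩ := Finset.exists_ne_map_eq_of_card_lt_of_maps_to
        (t := (Finset.univ : Finset (Y × Y))) (by simpa [sq] using h) (f := φ)
        (fun _ _ => Finset.mem_coe.2 (Finset.mem_univ _))
      rcases lt_or_gt_of_ne hne with hlt | hlt
      · exact ⟨(x, y), fun _ => ⟨hx, hy, hlt, he⟩⟩
      · exact ⟨(y, x), fun _ => ⟨hy, hx, hlt, he.symm⟩⟩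
    · exact ⟨(t₀, t₀), fun h' => absurd h' h⟩
  choose pick hpick using hpick
  -- slots of the exchanged word
  have hslot : ∀ (w : Fin n → X) (t₁ t₂ : Fin r), t₁ < t₂ → ∀ t,
      slotOf d ℓ (π t) (w ∘ NAlt.swF (π t₁) (π t₂) ℓ) = slotOf d ℓ (π (Equiv.swap t₁ t₂ t)) w := by
    intro w t₁ t₂ h t
    funext v
    have hv := v.2
    have ha := hπ t
    have hb := hπ (Equiv.swap t₁ t₂ t)
    have h12 := hπ' t₁ t₂ h
    simp only [slotOf]
    rw [dif_pos (by omega), dif_pos (by omega), Function.comp_apply]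
    refine congrArg w (Fin.ext ?_)
    rw [NAlt.swF_val h12 (hπ t₂)]
    simp only
    by_cases e1 : t = t₁
    · subst e1
      rw [Equiv.swap_apply_left, NAlt.sw, if_pos (by omega)]
      omega
    · by_cases e2 : t = t₂
      · subst e2
        rw [Equiv.swap_apply_right, NAlt.sw, if_neg (by omega), if_pos (by omega)]
        omega
      · rw [Equiv.swap_apply_of_ne_of_ne e1 e2]
        refine NAlt.sw_of_out ?_ ?_
        · rcases lt_or_gt_of_ne e1 with h' | h'
          · have := hπ' _ _ h'; omega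
          · have := hπ' _ _ h'; omega
        · rcases lt_or_gt_of_ne e2 with h' | h'
          · have := hπ' _ _ h'; omega
          · have := hπ' _ _ h'; omega
  have hbd : ∀ (t₁ t₂ : Fin r), t₁ < t₂ → ∀ t,
      (π t ≤ π t₁ ∨ (π t₁ + ℓ ≤ π t ∧ π t ≤ π t₂) ∨ π t₂ + ℓ ≤ π t) ∧
      (π t + ℓ ≤ π t₁ ∨ (π t₁ + ℓ ≤ π t + ℓ ∧ π t + ℓ ≤ π t₂) ∨ π t₂ + ℓ ≤ π t + ℓ) := by
    intro t₁ t₂ h t
    have h12 := hπ' t₁ t₂ h
    rcases lt_trichotomy t t₁ with a | rfl | a
    · have := hπ' _ _ a; omega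
    · omega
    · have := hπ' _ _ a
      rcases lt_trichotomy t t₂ with b | rfl | b
      · have := hπ' _ _ b; omega
      · omega
      · have := hπ' _ _ b; omega
  ext a b
  rw [Matrix.sum_apply, Matrix.zero_apply]
  simp only [NAlt.prod_ofFn_apply]
  rw [← Finset.sum_product']
  let I : (Fin n → X) → Finset (Fin r) := fun w => sel fun t => ty (slotOf d ℓ (π t) w)
  let φ : (Fin (n + 1) → Y) → Fin r → Y × Y := fun p t => (NAlt.ext p (π t), NAlt.ext p (π t + ℓ))
  let q : (Fin n → X) × (Fin (n + 1) → Y) → Fin r × Fin r := fun x => pick (I x.1) (φ x.2)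
  let g : (Fin n → X) × (Fin (n + 1) → Y) → (Fin n → X) × (Fin (n + 1) → Y) := fun x =>
    (x.1 ∘ NAlt.swF (π (q x).1) (π (q x).2) ℓ, x.2 ∘ NAlt.swF (π (q x).1) (π (q x).2) ℓ)
  have hq : ∀ x : (Fin n → X) × (Fin (n + 1) → Y), x.1 ∈ C →
      (q x).1 ∈ I x.1 ∧ (q x).2 ∈ I x.1 ∧ (q x).1 < (q x).2 ∧ φ x.2 (q x).1 = φ x.2 (q x).2 :=
    fun x hx => hpick _ _ (h1 _ hx)
  have hty : ∀ x : (Fin n → X) × (Fin (n + 1) → Y), x.1 ∈ C → ∀ t,
      ty (slotOf d ℓ (π t) (g x).1) = ty (slotOf d ℓ (π t) x.1) := by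
    intro x hx t
    obtain ⟨m1, m2, hlt, -⟩ := hq x hx
    simp only [g]
    rw [hslot _ _ _ hlt]
    by_cases e1 : t = (q x).1
    · rw [e1, Equiv.swap_apply_left]
      exact (h2 _ hx _ m2 _ m1).1
    · by_cases e2 : t = (q x).2
      · rw [e2, Equiv.swap_apply_right]
        exact (h2 _ hx _ m1 _ m2).1
      · rw [Equiv.swap_apply_of_ne_of_ne e1 e2]
  have hext : ∀ x : (Fin n → X) × (Fin (n + 1) → Y), x.1 ∈ C → ∀ c ≤ n,
      (c ≤ π (q x).1 ∨ (π (q x).1 + ℓ ≤ c ∧ c ≤ π (q x).2) ∨ π (q x).2 + ℓ ≤ c) →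
      NAlt.ext (g x).2 c = NAlt.ext x.2 c := by
    intro x hx c hc hc'
    obtain ⟨-, -, hlt, he⟩ := hq x hx
    simp only [g]
    rw [NAlt.ext_comp (hπ' _ _ hlt) (hπ _) _ hc,
      NAlt.apply_sw (NAlt.ext x.2) (hπ' _ _ hlt) (congrArg Prod.fst he) hc']
  have hqg : ∀ x : (Fin n → X) × (Fin (n + 1) → Y), x.1 ∈ C → q (g x) = q x := by
    intro x hx
    have hlt := (hq x hx).2.2.1
    have e1 : I (g x).1 = I x.1 := congrArg sel (funext (hty x hx))
    have e2 : φ (g x).2 = φ x.2 := by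
      funext t
      have := hπ t
      simp only [φ]
      rw [hext x hx _ (by omega) (hbd _ _ hlt t).1, hext x hx _ this (hbd _ _ hlt t).2]
    change pick (I (g x).1) (φ (g x).2) = _
    rw [e1, e2]
  refine Finset.sum_involution (fun x _ => g x) (fun x hx => ?_) (fun x hx _ hgx => ?_)
    (fun x hx => ?_) (fun x hx => ?_)
  · have hx := (Finset.mem_product.1 hx).1
    obtain ⟨-, -, hlt, he⟩ := hq x hx
    have h12 := hπ' _ _ hlt
    have hn := hπ (q x).2
    have e0 : (g x).2 0 = x.2 0 := by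
      rw [← NAlt.ext_val (g x).2, ← NAlt.ext_val x.2]
      exact hext x hx _ (by simp) (Or.inl (by simp))
    have el : (g x).2 (Fin.last n) = x.2 (Fin.last n) := by
      rw [← NAlt.ext_val (g x).2, ← NAlt.ext_val x.2]
      exact hext x hx _ (by simp) (Or.inr (Or.inr (by simpa using hn)))
    have ep : ∏ i : Fin n, B ((g x).1 i) ((g x).2 i.castSucc) ((g x).2 i.succ) =
        ∏ i : Fin n, B (x.1 i) (x.2 i.castSucc) (x.2 i.succ) := by
      rw [← Equiv.prod_comp (NAlt.swF_invol h12 hn).toPerm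
        (fun i => B (x.1 i) (x.2 i.castSucc) (x.2 i.succ))]
      refine Finset.prod_congr rfl fun i _ => ?_
      have hi := i.2
      rw [← NAlt.ext_val (g x).2, ← NAlt.ext_val (g x).2, ← NAlt.ext_val x.2, ← NAlt.ext_val x.2]
      simp only [g, Function.Involutive.coe_toPerm, Function.comp_apply, Fin.val_castSucc,
        Fin.val_succ]
      rw [NAlt.ext_comp h12 hn _ (by omega), NAlt.ext_comp h12 hn _ (by omega),
        NAlt.apply_sw_succ (NAlt.ext x.2) h12 (congrArg Prod.fst he) (congrArg Prod.snd he),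
        NAlt.swF_val h12 hn]
    rw [e0, el, ep]
    exact CharTwo.add_self_eq_zero _
  · have hx := (Finset.mem_product.1 hx).1
    obtain ⟨m1, m2, hlt, -⟩ := hq x hx
    have h4 := hslot x.1 _ _ hlt (q x).1
    rw [Equiv.swap_apply_left] at h4
    have h5 : (g x).1 = x.1 := congrArg Prod.fst hgx
    simp only [g] at h5
    rw [h5] at h4
    exact hlt.ne ((h2 _ hx _ m1 _ m2).2 (congrArg tk h4))
  · have hx := (Finset.mem_product.1 hx).1
    obtain ⟨m1, m2, hlt, -⟩ := hq x hx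
    refine Finset.mem_product.2 ⟨h3 _ hx _ (Equiv.swap (q x).1 (q x).2) (fun t ht => ?_)
      (fun i hi => ?_) (fun t _ => ⟨hty x hx t, ?_⟩), Finset.mem_univ _⟩
    · exact Equiv.swap_apply_of_ne_of_ne (fun h => ht (h ▸ m1)) (fun h => ht (h ▸ m2))
    · refine congrArg x.1 (Fin.ext ?_)
      rw [NAlt.swF_val (hπ' _ _ hlt) (hπ _)]
      exact NAlt.sw_of_out (hi _ m1) (hi _ m2)
    · simp only [g]
      rw [hslot _ _ _ hlt]
  · have hx := (Finset.mem_product.1 hx).1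
    have hlt := (hq x hx).2.2.1
    have h12 := hπ' _ _ hlt
    have hn := hπ (q x).2
    change ((g x).1 ∘ NAlt.swF (π (q (g x)).1) (π (q (g x)).2) ℓ,
      (g x).2 ∘ NAlt.swF (π (q (g x)).1) (π (q (g x)).2) ℓ) = x
    rw [hqg x hx]
    refine Prod.ext (funext fun i => ?_) (funext fun i => ?_)
    · exact congrArg x.1 (NAlt.swF_invol h12 hn i)
    · exact congrArg x.2 (NAlt.swF_invol h12 (hn.trans (Nat.le_succ n)) i)

end Crest.Agent.R176
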