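import Crest.Agent.R176.NDef

/-! Row 176: there are few types. -/

set_option autoImplicit false

namespace Crest.Agent.R176

open WSys

theorem nc_card {Y D Z : Type} [Fintype D] (P : Y → Prop) (R : Y → D → Prop) (g : Y → Z)
    (h1 : ∀ y, P y → ∃ δ, R y δ) (h2 : ∀ y y' δ, P y → P y' → R y δ → R y' δ → g y = g y') :
    ∃ TS : Finset Z, (∀ y, P y → g y ∈ TS) ∧ TS.card ≤ Fintype.card D := by
  classical
  refine ⟨(Finset.univ : Finset {δ // ∃ y, P y ∧ R y δ}).image fun δ => g δ.2.choose,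
    fun y hy => ?_, Finset.card_image_le.trans (Fintype.card_subtype_le _)⟩
  obtain ⟨δ, hδ⟩ := h1 y hy
  have : ∃ y, P y ∧ R y δ := ⟨y, hy, hδ⟩
  exact Finset.mem_image.2 ⟨⟨δ, this⟩, Finset.mem_univ _,
    h2 _ _ δ this.choose_spec.1 hy this.choose_spec.2 hδ⟩

/-- The erased normal form `erW (res y)` is determined by (a) the letters outside the physical span of `R2`
(`6 * 2^(lv f + q)` cells), (b) the level-`(lv f + q)` letters over `R2` (`uq + 2` letters), (c) five tag patterns
(`tag_repO`) on the `len = (uq+2) 2^q ≤ 2 * gp (f+1)` row cells.  Indeed for `z := putRow (lv f) y (row with the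
tokens erased on [2n,3n))` one has `res z = erW (res y)` (`putRow_apply`, `lv f = k+1`), and two such `z`
with the same data agree on `spn (lv f + q) R2` by `ext_spn` (`Ctl.ext`, `exists_level`, `iter_putRow`). -/
theorem card_types {f q : ℕ} (hp : Par f q) :
    ∃ TS : Finset (SW f q), (∀ y, NF f q y → erW f q (res f q y) ∈ TS) ∧
      TS.card ≤ Fintype.card Gam ^ (6 * 2 ^ (lv f + q) + uq f q + 2) *
        ((2 * gp (f + 1) + 1) * (Fintype.card Hs + 1)) ^ 5 := by
  have hU : 4 ≤ uq f q := by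
    have := hp.q4
    exact Nat.pow_le_pow_right (n := 2) (i := 2) (by norm_num) (by omega)
  have hq := hp.q1
  have hq4 := hp.q4
  have hn : uq f q * 2 ^ q = gp (f + 1) := by
    rw [uq, ← pow_add, gp]; congr 1; omega
  obtain ⟨k₀, hk₀⟩ : ∃ k₀, lv f = k₀ + 1 :=
    ⟨lv f - 1, by have : lv 0 < lv f := lv_strictMono (by have := hp.odd; omega); omega⟩
  set U := uq f q with hU'
  set w := 2 ^ (lv f + q) with hw
  set M := 2 * gp (f + 1) + 1 with hM
  set o := (2 * U - 1) * 2 ^ q with ho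
  set N := (U + 2) * 2 ^ q with hN
  have hsp : spn q (R2 f q) = Set.Ico o (o + N) := by
    rw [R2, spn_Ico, ho, hN, ← add_mul]; congr 2; omega
  have hNM : N < M := by
    have : N ≤ 2 * U * 2 ^ q := Nat.mul_le_mul_right _ (by omega)
    rw [mul_assoc, hn] at this
    omega
  let PR : ∀ {Q : Type}, (Cell → Tag Q) → (ℕ → Gam) → Fin M × Option Q → Prop := fun g y δ =>
    ∀ u < N, g (rowPay y (lv f) (o + u)) = patO δ.1 δ.2 u
  have ex : ∀ {Q : Type} (g : Cell → Tag Q) (y : ℕ → Gam), (∀ j ∈ spn q (R2 f q),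
      j + 1 ∈ spn q (R2 f q) → (g (rowPay y (lv f) j)).cons (g (rowPay y (lv f) (j + 1)))) →
      ∃ δ, PR g y δ := fun g y h => by
    obtain ⟨a, ha, oq, h⟩ := tag_repO (fun u => g (rowPay y (lv f) (o + u))) (N := N) fun u hu =>
      h _ (by rw [hsp]; exact ⟨by omega, by omega⟩) (by rw [hsp]; exact ⟨by omega, by omega⟩)
    exact ⟨(⟨a, by omega⟩, oq), h⟩
  have un : ∀ {Q : Type} {g : Cell → Tag Q} {y y' : ℕ → Gam} {δ}, PR g y δ → PR g y' δ →
      ∀ j ∈ spn q (R2 f q), g (rowPay y (lv f) j) = g (rowPay y' (lv f) j) := fun h h' j hj => by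
    rw [hsp] at hj
    obtain ⟨u, rfl⟩ := Nat.exists_eq_add_of_le hj.1
    rw [h u (by simpa using hj.2), h' u (by simpa using hj.2)]
  have er : ∀ y, NF f q y → ∀ v : Fin (sL f q), sA f q + v ∈ spn (lv f + q) (R2 f q) →
      erW f q (res f q y) v =
        putRow (lv f) y (fun j => { rowPay y (lv f) j with tok := false }) (sA f q + v) := by
    intro y hy v hv
    rw [← spn_spn] at hv
    have h0 := hy.rowT _ hv
    have h1 := congrFun (putRow_self (lv f) y) (sA f q + v)
    simp only [erW, res, XLoc]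
    rw [hk₀] at h0 h1 ⊢
    rw [putRow_apply] at h1 ⊢
    by_cases c : (sA f q + v + 1) % 2 ^ (k₀ + 1) = 2 ^ k₀
    · rw [if_pos c] at h1
      have h2 := congrArg (·.2.pay) h1
      simp only at h2
      rw [if_pos c, h2]
      split_ifs with c'
      · rfl
      · rw [h2] at h0
        have : (y (sA f q + v)).2.pay.tok = false := by
          by_contra e
          exact c' ⟨c, h0 (by simpa using e)⟩
        rw [← this]
    · rw [if_neg c, if_neg fun e => c e.1]
  obtain ⟨TS, h1, h2⟩ := nc_card (NF f q) (fun y (δ : ((Fin (3 * w) → Gam) × (Fin (3 * w) → Gam) ×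
      (Fin (U + 2) → Gam)) × (Fin M × Option Bool) × (Fin M × Option Hs) × (Fin M × Option Unit) ×
        (Fin M × Option Hs) × (Fin M × Option Unit)) =>
      δ.1 = (fun v => y (sA f q + v.1), fun v => y ((3 * U + 1) * w + v.1),
        fun v => up^[lv f + q] y (2 * U - 1 + v.1)) ∧ PR Cell.pm y δ.2.1 ∧ PR Cell.oh y δ.2.2.1 ∧
        PR Cell.oc y δ.2.2.2.1 ∧ PR Cell.gh y δ.2.2.2.2.1 ∧ PR Cell.gc y δ.2.2.2.2.2)
    (fun y => erW f q (res f q y)) (fun y hy => by
      obtain ⟨a, ha⟩ := ex Cell.pm y fun j a b => (hy.rowC j a b).1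
      obtain ⟨b, hb⟩ := ex Cell.oh y fun j a b => (hy.rowC j a b).2.1
      obtain ⟨c, hc⟩ := ex Cell.oc y fun j a b => (hy.rowC j a b).2.2.1
      obtain ⟨d, hd⟩ := ex Cell.gh y fun j a b => (hy.rowC j a b).2.2.2.1
      obtain ⟨e, he⟩ := ex Cell.gc y fun j a b => (hy.rowC j a b).2.2.2.2
      exact ⟨(_, a, b, c, d, e), rfl, ha, hb, hc, hd, he⟩)
    (fun y y' δ hy hy' ⟨a, a1, a2, a3, a4, a5⟩ ⟨b, b1, b2, b3, b4, b5⟩ => by
      rw [a, Prod.mk.injEq, Prod.mk.injEq] at b
      funext v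
      by_cases hv : sA f q + v ∈ spn (lv f + q) (R2 f q)
      · rw [er y hy v hv, er y' hy' v hv]
        refine ext_spn _ (fun l hl j hj => ?_) (fun j hj => ?_) _ hv
        · have c := hy.clean l hl j hj
          have c' := hy'.clean l hl j hj
          by_cases e : l = lv f
          · subst e
            rw [Nat.add_sub_cancel_left] at hj
            rw [ctl_putRow_self, ctl_putRow_self]
            exact Ctl.ext (Cell.ext ((hy.rowS j hj).trans (hy'.rowS j hj).symm) rfl (un a1 b1 j hj)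
              (un a2 b2 j hj) (un a3 b3 j hj) (un a4 b4 j hj) (un a5 b5 j hj))
              (c.2.trans c'.2.symm) (c.1.trans c'.1.symm)
          · rw [ctl_putRow_ne e, ctl_putRow_ne e]
            obtain ⟨f', r', hr, rfl⟩ := exists_level l
            exact Ctl.ext ((hy.low f' r' hr hl e j hj).trans (hy'.low f' r' hr hl e j hj).symm)
              (c.2.trans c'.2.symm) (c.1.trans c'.1.symm)
        · rw [iter_putRow (by omega), iter_putRow (by omega)]
          obtain ⟨u, rfl⟩ := Nat.exists_eq_add_of_le hj.1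
          exact congrFun b.2.2 ⟨u, by have := hj.2; omega⟩
      · have : y (sA f q + v) = y' (sA f q + v) := by
          rw [R2, spn_Ico, Set.mem_Ico, not_and_or, not_le, not_lt] at hv
          have e1 : (2 * U - 1) * w = sA f q + 3 * w := by
            rw [sA, ← add_mul]; congr 1; omega
          have e2 : (3 * U + 1) * w + 3 * w = sA f q + sL f q := by
            rw [sA, sL, ← add_mul, ← add_mul]; congr 1; omega
          rcases hv with hv | hv
          · exact congrFun b.1 ⟨v, by rw [e1] at hv; omega⟩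
          · obtain ⟨u, hu⟩ := Nat.exists_eq_add_of_le hv
            rw [hu]
            exact congrFun b.2.1 ⟨u, by have := v.2; rw [← hU', ← hw] at hu; omega⟩
        simp only [erW, res, this])
  refine ⟨TS, h1, h2.trans ?_⟩
  have hH : 2 ≤ Fintype.card Hs := Fintype.one_lt_card_iff.2 ⟨.idle, .e1, by decide⟩
  simp only [Fintype.card_prod (Fin M), Fintype.card_prod (_ × _) (_ × _),
    Fintype.card_prod (Fin _ → Gam), Fintype.card_fun, Fintype.card_fin, Fintype.card_option,
    Fintype.card_bool, Fintype.card_unit]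
  calc _ ≤ Fintype.card Gam ^ (3 * w) * (Fintype.card Gam ^ (3 * w) * Fintype.card Gam ^ (U + 2)) *
        (M * (Fintype.card Hs + 1) * (M * (Fintype.card Hs + 1) * (M * (Fintype.card Hs + 1) *
          (M * (Fintype.card Hs + 1) * (M * (Fintype.card Hs + 1)))))) := by gcongr <;> omega
    _ = _ := by ring

/-- Choice of the parameters: `2^q ≥ 8γ` where `G ≤ 2^γ`, then `f` by `exists_odd_gap`
(`n = gp (f+1) = 2^(gp f - 2) = uq * 2^q`). -/
theorem exists_par (G c l : ℕ) : ∃ f q, Par f q ∧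
    G ^ (6 * 2 ^ (lv f + q) + uq f q + 2) * ((2 * gp (f + 1) + 1) * c) ^ 5 * l + 4
      < 2 ^ gp (f + 1) := by
  obtain ⟨f, hf, -, hg⟩ := exists_odd_gap (51 * G + 5 * c + l + 20)
  refine ⟨f, G + 3, ⟨hf, by omega, by omega⟩, ?_⟩
  have h4 := four_mul_gp f
  have h5 := gp_ge (f + 1)
  have a1 : ∀ g, 12 ≤ g → 160 * g ≤ 2 ^ g := fun g hg => by
    induction g, hg using Nat.le_induction with
    | base => norm_num
    | succ g hg ih => rw [pow_succ]; omega
  have a2 := a1 (gp f) (by omega)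
  have a3 : G * uq f (G + 3) * 8 ≤ gp (f + 1) := by
    calc _ ≤ 2 ^ G * uq f (G + 3) * 2 ^ 3 := by gcongr; exacts [Nat.lt_two_pow_self.le, le_rfl]
      _ = _ := by rw [uq, ← pow_add, ← pow_add, gp]; congr 1; omega
  have a4 : 48 * G * 2 ^ (lv f + (G + 3)) ≤ gp (f + 1) := by
    calc _ ≤ 2 ^ (48 * G) * 2 ^ (lv f + (G + 3)) := by gcongr; exact Nat.lt_two_pow_self.le
      _ ≤ _ := by rw [← pow_add, gp]; exact Nat.pow_le_pow_right (by norm_num) (by omega)
  obtain ⟨n, hn⟩ : ∃ n, gp (f + 1) = n + 1 := ⟨gp (f + 1) - 1, by omega⟩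
  have a5 : 2 ^ 4 ≤ 2 ^ n := Nat.pow_le_pow_right (by norm_num) (by omega)
  have a6 : G ^ (6 * 2 ^ (lv f + (G + 3)) + uq f (G + 3) + 2) * ((2 * gp (f + 1) + 1) * c) ^ 5 * l
      ≤ 2 ^ n := by
    calc _ ≤ (2 ^ G) ^ (6 * 2 ^ (lv f + (G + 3)) + uq f (G + 3) + 2) * (2 ^ gp f * 2 ^ c) ^ 5 *
          2 ^ l := by
          gcongr
          exacts [Nat.lt_two_pow_self.le, by omega, Nat.lt_two_pow_self.le, Nat.lt_two_pow_self.le]
      _ ≤ _ := by
          rw [← pow_add, ← pow_mul, ← pow_mul, ← pow_add, ← pow_add]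
          exact Nat.pow_le_pow_right (by norm_num) (by nlinarith)
  rw [hn, pow_succ] at *
  omega

end Crest.Agent.R176
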