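import Crest.Agent.R176.NCoreA
import Crest.Agent.R176.NCount

/-! Row 176: the classes are closed under permutations of the tokens of free slots. -/

set_option autoImplicit false

namespace Crest.Agent.R176

open WSys

/-! ### physical positions of controls -/

def loc (k j : ℕ) : ℕ := 2 ^ k * (2 * j + 1) - 1

theorem loc_succ (k j : ℕ) : loc k j + 1 = 2 ^ k + j * 2 ^ (k + 1) := by
  have : 0 < 2 ^ k * (2 * j + 1) := by positivity
  rw [loc, Nat.sub_add_cancel this]; ring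

theorem loc_mod (k j : ℕ) : (loc k j + 1) % 2 ^ (k + 1) = 2 ^ k := by
  rw [loc_succ, Nat.add_mul_mod_self_right, Nat.mod_eq_of_lt (Nat.pow_lt_pow_right (by norm_num) (by omega))]

theorem loc_div (k j : ℕ) : loc k j / 2 ^ (k + 1) = j := by
  have h := loc_succ k j
  have h1 : 0 < 2 ^ k := by positivity
  have h2 : 2 ^ (k + 1) = 2 * 2 ^ k := by ring
  rw [Nat.div_eq_iff (by positivity)]
  omega

theorem eq_loc {k p : ℕ} (h : (p + 1) % 2 ^ (k + 1) = 2 ^ k) : p = loc k (p / 2 ^ (k + 1)) := by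
  have h0 := Nat.mod_add_div' (p + 1) (2 ^ (k + 1))
  have e : p = loc k ((p + 1) / 2 ^ (k + 1)) := by
    have := loc_succ k ((p + 1) / 2 ^ (k + 1))
    omega
  conv_rhs => rw [e, loc_div]
  exact e

theorem loc_add (k t m u : ℕ) : loc k (t * m + u) = t * (2 ^ (k + 1) * m) + loc k u := by
  have h1 := loc_succ k (t * m + u)
  have h2 := loc_succ k u
  have : (t * m + u) * 2 ^ (k + 1) = t * (2 ^ (k + 1) * m) + u * 2 ^ (k + 1) := by ring
  omega

theorem rowPay_loc (k : ℕ) (y : ℕ → Gam) (j : ℕ) : rowPay y (k + 1) j = (y (loc k j)).2.pay := by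
  rw [rowPay, ctl_pos]; rfl

/-- permute the tokens of the blocks, physically -/
def psi (f : ℕ) (σ : ℕ → ℕ) (y : ℕ → Gam) : ℕ → Gam := fun p =>
  if XLoc f (p % 2 ^ lv (f + 1)) then
    setT (y p) (y (σ (p / 2 ^ lv (f + 1)) * 2 ^ lv (f + 1) + p % 2 ^ lv (f + 1))).2.pay.tok
  else y p

def permX (f : ℕ) (σ : ℕ → ℕ) (r : ℕ → Cell) : ℕ → Cell := fun j =>
  if 2 * gp (f + 1) ≤ j % 2 ^ gp f ∧ j % 2 ^ gp f < 3 * gp (f + 1) then
    { r j with tok := (r (σ (j / 2 ^ gp f) * 2 ^ gp f + j % 2 ^ gp f)).tok }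
  else r j

theorem psi_eq {f q : ℕ} (hp : Par f q) (σ : ℕ → ℕ) (y : ℕ → Gam) :
    psi f σ y = putRow (lv f) y (permX f σ (rowPay y (lv f))) := by
  obtain ⟨k, hk⟩ : ∃ k, lv f = k + 1 := ⟨lv f - 1, by have := hp.lv_pos; omega⟩
  funext p
  have hs : 2 ^ lv (f + 1) = 2 ^ (k + 1) * 2 ^ gp f := by rw [lv_succ, hk, pow_add]
  have h1 : (p % 2 ^ lv (f + 1) + 1) % 2 ^ (k + 1) = (p + 1) % 2 ^ (k + 1) := by
    rw [Nat.add_mod, hs, Nat.mod_mul_right_mod, ← Nat.add_mod]
  have h2 : p % 2 ^ lv (f + 1) / 2 ^ (k + 1) = p / 2 ^ (k + 1) % 2 ^ gp f := by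
    rw [hs, Nat.mod_mul_right_div_self]
  have h3 : p / 2 ^ lv (f + 1) = p / 2 ^ (k + 1) / 2 ^ gp f := by rw [hs, Nat.div_div_eq_div_mul]
  simp only [psi, XLoc, hk, putRow_apply, Nat.add_sub_cancel, h1, h2, permX]
  by_cases hl : (p + 1) % 2 ^ (k + 1) = 2 ^ k
  · have e1 : rowPay y (k + 1) (p / 2 ^ (k + 1)) = (y p).2.pay := by
      rw [rowPay_loc, ← eq_loc hl]
    rw [if_pos hl]
    by_cases hX : 2 * gp (f + 1) ≤ p / 2 ^ (k + 1) % 2 ^ gp f ∧
        p / 2 ^ (k + 1) % 2 ^ gp f < 3 * gp (f + 1)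
    · rw [if_pos ⟨hl, hX⟩, if_pos hX, e1, rowPay_loc, loc_add, ← hs, ← h3, ← h2,
        ← eq_loc (h1.trans hl)]
      rfl
    · rw [if_neg (fun h => hX h.2), if_neg hX, e1]
  · rw [if_neg hl, if_neg (fun h => hl h.1)]

/-! ### the global normal form -/

/-- the cells of the token row with known static part -/
def SS (f : ℕ) : Set ℕ := spn (lv (f + 2) - lv f) (Set.Ico 5 11)

/-- the clean units -/
def WW (f q : ℕ) : Set ℕ := Set.Ico 2 (8 * 2 ^ (lv (f + 2) + 1 - (lv f + q)) - 2)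

theorem SS_eq (f : ℕ) : SS f =
    Set.Ico (5 * (2 ^ gp (f + 1) * 2 ^ gp f)) (11 * (2 ^ gp (f + 1) * 2 ^ gp f)) := by
  rw [SS, spn_Ico, ← pow_add]
  congr 3 <;> (rw [lv_succ, lv_succ]; omega)

theorem contS_sub (f : ℕ) : contS f 8 ⊆ SS f := by
  have hN : 0 < 2 ^ gp (f + 1) := by positivity
  have hm : 0 < 2 ^ gp f := by positivity
  rw [SS_eq, contS]
  refine Set.Ico_subset_Ico ?_ ?_
  · rw [← mul_assoc]; exact Nat.mul_le_mul_right _ (by omega)
  · have : 2 ^ gp f ≤ 2 ^ gp (f + 1) * 2 ^ gp f := Nat.le_mul_of_pos_left _ hN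
    nlinarith

theorem block_SS {f t u : ℕ} (ht : 8 * 2 ^ gp (f + 1) ≤ t) (ht' : t + 1 < 9 * 2 ^ gp (f + 1))
    (hu : u ≤ 2 ^ gp f) : t * 2 ^ gp f + u ∈ SS f := by
  rw [SS_eq, Set.mem_Ico]
  have hm : 0 < 2 ^ gp f := by positivity
  have h1 := Nat.mul_le_mul_right (2 ^ gp f) ht
  have h2 := Nat.mul_le_mul_right (2 ^ gp f) ht'.le
  have h3 : 0 < 2 ^ gp (f + 1) * 2 ^ gp f := by positivity
  rw [mul_assoc] at h1 h2
  rw [add_mul] at h2
  constructor <;> omega

structure Glob (f q : ℕ) (x x2 : ℕ → Gam) : Prop where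
  eqv : (core PP).Eqv (Set.Iio (8 * 2 ^ (lv (f + 2) + 1)) \ spn (lv f + q) (VV f q)) (repl f q x) x2
  al : Aligned PP (lv f + q) (WW f q) x2
  cl : Clean (lv f + q) (WW f q) x2
  st : ∀ j ∈ SS f, (rowPay x2 (lv f) j).s = spec f 0 j
  nd : ¬ RW.Dead (SS f) (rowPay x2 (lv f))

theorem WW_sub {f q : ℕ} (hp : Par f q) :
    spn (lv f + q) (WW f q) ⊆ Set.Iio (8 * 2 ^ (lv (f + 2) + 1)) := by
  have hq := hp.q4
  intro i hi
  rw [WW, spn_Ico] at hi
  refine lt_of_lt_of_le hi.2 ?_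
  calc _ ≤ 8 * 2 ^ (lv (f + 2) + 1 - (lv f + q)) * 2 ^ (lv f + q) :=
        Nat.mul_le_mul_right _ (Nat.sub_le _ _)
    _ = _ := by
      rw [mul_assoc, ← pow_add, Nat.sub_add_cancel (by rw [lv_succ, lv_succ]; omega)]

theorem SS_sub {f q : ℕ} (hp : Par f q) : SS f ⊆ spn (lv f + q - lv f) (WW f q) := by
  have hq := hp.q4
  rw [Nat.add_sub_cancel_left, SS, show lv (f + 2) - lv f = q + (lv (f + 2) - (lv f + q)) by
    rw [lv_succ, lv_succ]; omega, ← spn_spn]
  refine spn_mono _ ?_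
  rw [spn_Ico, WW, show lv (f + 2) + 1 - (lv f + q) = (lv (f + 2) - (lv f + q)) + 1 by
    rw [lv_succ, lv_succ]; omega, pow_succ]
  have : 0 < 2 ^ (lv (f + 2) - (lv f + q)) := by positivity
  exact Set.Ico_subset_Ico (by omega) (by omega)

theorem exists_glob {f q : ℕ} (hp : Par f q) {x : ℕ → Gam}
    (hA : Aligned PP (lv (f + 2) + 1) (Set.Iio 8) x)
    (h : ¬ (phys PP).Dead (Set.Iio (8 * 2 ^ (lv (f + 2) + 1))) x) : ∃ x2, Glob f q x x2 := by
  have hq := hp.q4
  have hle : lv f + q ≤ lv (f + 2) + 1 := by rw [lv_succ, lv_succ]; omega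
  have hM : 8 * 2 ^ (lv (f + 2) + 1 - (lv f + q)) * 2 ^ (lv f + q) = 8 * 2 ^ (lv (f + 2) + 1) := by
    rw [mul_assoc, ← pow_add, Nat.sub_add_cancel hle]
  have hI : ∀ b : ℕ, Set.Ico 0 b = Set.Iio b := fun b => by ext; simp
  have hc : ¬ (core PP).Dead (Set.Iio (8 * 2 ^ (lv (f + 2) + 1))) x := fun hd => h (phys_dead_of_core hd)
  have he := repl_eqv hp x
  have hA1 : Aligned PP (lv f + q) (Set.Ico 0 (8 * 2 ^ (lv (f + 2) + 1 - (lv f + q)))) (repl f q x) := by
    have := (hA.eqv he).down hle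
    rwa [← hI, spn_Ico, zero_mul] at this
  obtain ⟨x2, h1, h2⟩ := multiNorm (Θ := PP) (lv f + q) (a := 0) (b := 8 * 2 ^ (lv (f + 2) + 1)) (A := 0)
    (B := 8 * 2 ^ (lv (f + 2) + 1 - (lv f + q))) (by simp) (by simp) hM.ge (by omega) hA1
    (clean_repl hp hA h) (by rw [hI]; exact he.not_dead hc)
  rw [hI] at h1
  have h3 := he.trans (h1.mono Set.sdiff_subset)
  have hA2 : Aligned PP (lv f + q) (WW f q) x2 :=
    (hA1.eqv h1).mono (Set.Ico_subset_Ico (by omega) (Nat.sub_le _ _))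
  refine ⟨x2, h1, hA2, h2, fun j hj => ?_, fun hd => ?_⟩
  · rw [rowPay, ctl_static h3]
    exact static_spec hA h le_rfl (r := 0) (by have := gp_ge f; omega) j hj
  · exact row_not_dead (by have := hp.q1; omega) hA2 h2 (WW_sub hp) (h3.not_dead hc)
      (hd.mono (SS_sub hp))

theorem Glob.row {f q : ℕ} (hp : Par f q) {x x2 : ℕ → Gam} (hG : Glob f q x x2) {t : ℕ}
    (ht : 8 * 2 ^ gp (f + 1) ≤ t) (ht' : t + 1 < 9 * 2 ^ gp (f + 1)) {u : ℕ} (hu : u ∈ spn q (R2 f q)) :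
    rowPay x2 (lv f) (t * 2 ^ gp f + u) = rowPay (nfOf f q (bw f q x t)) (lv f) u := by
  have hu' : u ∈ spn (lv f + q - lv f) (SU f q) := by
    rw [Nat.add_sub_cancel_left]; exact spn_mono _ (R2_sub f q) hu
  have hlt := (hp.R2_lt (spn_mono _ (R2_sub f q) hu)).2
  have h1 := ctl_repl hp x ht ht' (Nat.le_add_right _ _) hu'
  rw [lv_succ, Nat.add_sub_cancel_left, add_comm u] at h1
  rw [rowPay, rowPay, ← h1]
  congr 1
  refine ctl_congr (Nat.le_add_right _ q) (V := VV f q)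
    (fun i hi => hG.eqv.frame fun hc => hc.2 hi) _ ?_
  rw [Nat.add_sub_cancel_left, mem_spn_VV, ← hp.m_eq, add_comm (t * _),
    Nat.add_mul_div_right _ _ (by positivity), Nat.add_mul_mod_self_right,
    Nat.div_eq_of_lt (by rwa [hp.m_eq]), Nat.mod_eq_of_lt (by rwa [hp.m_eq]), zero_add]
  exact ⟨ht, ht', hu⟩

/-- the type shows a held permit -/
def heldT (f q : ℕ) (τ : SW f q) : Prop :=
  (nemb f q τ (loc (lv f - 1) (2 ^ gp f / 2 - 1))).2.pay.pm = .H true

theorem loc_mem {f q : ℕ} (hp : Par f q) {u : ℕ} (hu : u ∈ spn q (R2 f q)) :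
    loc (lv f - 1) u ∈ spn (lv f + q) (SU f q) := by
  refine spn_mono _ (R2_sub f q) ?_
  rw [← spn_spn]
  change loc (lv f - 1) u / 2 ^ lv f ∈ spn q (R2 f q)
  have := loc_div (lv f - 1) u
  rw [Nat.sub_add_cancel hp.lv_pos] at this
  rwa [this]

theorem rowPay_loc' {f q : ℕ} (hp : Par f q) (y : ℕ → Gam) (j : ℕ) :
    rowPay y (lv f) j = (y (loc (lv f - 1) j)).2.pay := by
  rw [← rowPay_loc, Nat.sub_add_cancel hp.lv_pos]

theorem heldT_iff {f q : ℕ} (hp : Par f q) (u : SW f q) :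
    heldT f q (tyW f q u) ↔ (rowPay (nfOf f q u) (lv f) (2 ^ gp f / 2 - 1)).pm = .H true := by
  have hm := loc_mem hp hp.home_mem
  rw [hp.spn_SU, Set.mem_Ico] at hm
  rw [rowPay_loc' hp, heldT, nemb, dif_pos hm, tyW, erW]
  simp only [res, Nat.add_sub_cancel' hm.1]
  split_ifs <;> rfl

theorem Glob.held {f q : ℕ} (hp : Par f q) {x x2 : ℕ → Gam} (hG : Glob f q x x2) {t : ℕ}
    (ht : 8 * 2 ^ gp (f + 1) ≤ t) (ht' : t + 1 < 9 * 2 ^ gp (f + 1)) :
    heldT f q (tyW f q (bw f q x t)) ↔ (rowPay x2 (lv f) (home (2 ^ gp f) t)).pm = .H true := by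
  rw [heldT_iff hp, home, hG.row hp ht ht' hp.home_mem]

theorem div_eq_eight {f t : ℕ} (ht : 8 * 2 ^ gp (f + 1) ≤ t) (ht' : t + 1 < 9 * 2 ^ gp (f + 1)) :
    t / 2 ^ gp (f + 1) = 8 := by
  rw [Nat.div_eq_iff (by positivity)]; omega

theorem held_le {f q : ℕ} (hp : Par f q) {x : ℕ → Gam}
    (hA : Aligned PP (lv (f + 2) + 1) (Set.Iio 8) x)
    (h : ¬ (phys PP).Dead (Set.Iio (8 * 2 ^ (lv (f + 2) + 1))) x) {t t' : ℕ}
    (ht : 8 * 2 ^ gp (f + 1) ≤ t) (ht' : t + 1 < 9 * 2 ^ gp (f + 1))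
    (hu : 8 * 2 ^ gp (f + 1) ≤ t') (hu' : t' + 1 < 9 * 2 ^ gp (f + 1))
    (h1 : heldT f q (tyW f q (bw f q x t))) (h2 : heldT f q (tyW f q (bw f q x t'))) : t = t' := by
  obtain ⟨x2, hG⟩ := exists_glob hp hA h
  exact held_unique hp.odd (contS_sub f) hG.st hG.nd (div_eq_eight ht ht') (div_eq_eight hu hu')
    ((hG.held hp ht ht').1 h1) ((hG.held hp hu hu').1 h2)

theorem Glob.tok_false {f q : ℕ} {x x2 : ℕ → Gam} (hG : Glob f q x x2) {t : ℕ}
    (ht : 8 * 2 ^ gp (f + 1) ≤ t) (ht' : t + 1 < 9 * 2 ^ gp (f + 1)) {u : ℕ} (hu : u < 2 ^ gp f)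
    (hX : ¬ (2 * gp (f + 1) ≤ u ∧ u < 3 * gp (f + 1))) :
    (rowPay x2 (lv f) (t * 2 ^ gp f + u)).tok = false := by
  have h1 := block_SS ht ht' hu.le
  have h2 : t * 2 ^ gp f + u + 1 ∈ SS f := block_SS ht ht' (u := u + 1) hu
  by_contra hc
  have := ((pok_of_not_dead hG.nd h1 h2).tok (by simpa using hc)).1
  rw [hG.st _ h1, spec_zn_X, add_comm (t * _), Nat.add_mul_mod_self_right, Nat.mod_eq_of_lt hu] at this
  exact hX this

theorem setT_self (a : Gam) : setT a a.2.pay.tok = a := rfl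

theorem eq_setT {a b : Gam} (h : setT a false = setT b false) : a = setT b a.2.pay.tok := by
  have : setT (setT a false) a.2.pay.tok = setT (setT b false) a.2.pay.tok := by rw [h]
  exact this

theorem core_closed {f q : ℕ} (hp : Par f q) {x : ℕ → Gam}
    (hA : Aligned PP (lv (f + 2) + 1) (Set.Iio 8) x)
    (h : ¬ (phys PP).Dead (Set.Iio (8 * 2 ^ (lv (f + 2) + 1))) x) (I : Set ℕ)
    (hI : ∀ t ∈ I, 8 * 2 ^ gp (f + 1) + 1 ≤ t ∧ t + 1 < 9 * 2 ^ gp (f + 1) ∧
      ¬ heldT f q (tyW f q (bw f q x t)) ∧ ¬ heldT f q (tyW f q (bw f q x (t - 1)))) :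
    (∀ t ∈ I, ∀ t' ∈ I, tokW f q (bw f q x t) = tokW f q (bw f q x t') → t = t') ∧
    ∀ (x' : ℕ → Gam) (σ : Equiv.Perm ℕ), (∀ t, t ∉ I → σ t = t) →
      (∀ p, (∀ t ∈ I, ¬ (t * 2 ^ lv (f + 1) + sA f q ≤ p ∧
        p < t * 2 ^ lv (f + 1) + sA f q + sL f q)) → x' p = x p) →
      (∀ t ∈ I, tyW f q (bw f q x' t) = tyW f q (bw f q x t) ∧
        tokW f q (bw f q x' t) = tokW f q (bw f q x (σ t))) →
      (core PP).Eqv (Set.Iio (8 * 2 ^ (lv (f + 2) + 1))) x x' := by
  obtain ⟨x2, hG⟩ := exists_glob hp hA h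
  have hs : 0 < 2 ^ lv (f + 1) := by positivity
  have hle := hp.end_le
  have hR := row_perm hp.odd (c := 8) (by norm_num) (contS_sub f) hG.st hG.nd I fun t ht => by
    obtain ⟨h1, h2, h3, h4⟩ := hI t ht
    exact ⟨div_eq_eight (by omega) h2, fun hc => h3 ((hG.held hp (by omega) h2).2 hc),
      fun hc => h4 ((hG.held hp (by omega) (by omega)).2 hc)⟩
  constructor
  · intro t ht t' ht' he
    obtain ⟨h1, h2, -⟩ := hI t ht
    obtain ⟨h1', h2', -⟩ := hI t' ht'
    refine hR.1 t ht t' ht' fun u hu => ?_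
    by_cases hX : 2 * gp (f + 1) ≤ u ∧ u < 3 * gp (f + 1)
    · have hu' := hp.X_mem hX.1 hX.2
      have hm := loc_mem hp hu'
      rw [hp.spn_SU, Set.mem_Ico] at hm
      have hXL : XLoc f (loc (lv f - 1) u) := by
        have e1 := loc_mod (lv f - 1) u
        have e2 := loc_div (lv f - 1) u
        rw [Nat.sub_add_cancel hp.lv_pos] at e1 e2
        exact ⟨e1, by rw [e2]; exact hX.1, by rw [e2]; exact hX.2⟩
      have := congrFun he ⟨loc (lv f - 1) u - sA f q, by omega⟩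
      simp only [tokW, tkW, res, Nat.add_sub_cancel' hm.1, if_pos hXL] at this
      rw [hG.row hp (by omega) h2 hu', hG.row hp (by omega) h2' hu', rowPay_loc' hp, rowPay_loc' hp]
      exact this
    · rw [hG.tok_false (by omega) h2 hu hX, hG.tok_false (by omega) h2' hu hX]
  · intro x' σ hσ hx hty
    have hσI : ∀ t ∈ I, σ t ∈ I := fun t ht => by
      by_contra hc
      have := σ.injective (hσ _ hc)
      exact hc (this.symm ▸ ht)
    have hVV : ∀ t ∈ I, ∀ v, v < 2 ^ lv (f + 1) → XLoc f v →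
        t * 2 ^ lv (f + 1) + v ∈ spn (lv f + q) (VV f q) := fun t ht v hv hX => by
      obtain ⟨h1, h2, -⟩ := hI t ht
      rw [mem_spn_VV, ← hp.s_eq, add_comm (t * _), Nat.add_mul_div_right _ _ hs,
        Nat.add_mul_mod_self_right, Nat.div_eq_of_lt hv, Nat.mod_eq_of_lt hv, zero_add]
      exact ⟨by omega, h2, hp.XLoc_mem hX⟩
    have hoff : ∀ (y : ℕ → Gam) p, p ∉ spn (lv f + q) (VV f q) → psi f σ y p = y p := fun y p hc => by
      simp only [psi]
      split_ifs with hX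
      · by_cases ht : p / 2 ^ lv (f + 1) ∈ I
        · have := hVV _ ht _ (Nat.mod_lt _ hs) hX
          rw [Nat.div_add_mod'] at this
          exact absurd this hc
        · rw [hσ _ ht, Nat.div_add_mod', setT_self]
      · rfl
    have hrepl : repl f q x' = psi f σ (repl f q x) := by
      funext p
      have hpe := Nat.div_add_mod' p (2 ^ lv (f + 1))
      have hpl := Nat.mod_lt p hs
      have huniq : ∀ t, t * 2 ^ lv (f + 1) + sA f q ≤ p →
          p < t * 2 ^ lv (f + 1) + sA f q + sL f q → p / 2 ^ lv (f + 1) = t := fun t h1 h2 => by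
        rw [Nat.div_eq_iff hs]; omega
      by_cases ht : p / 2 ^ lv (f + 1) ∈ I
      · obtain ⟨h1, h2, -⟩ := hI _ ht
        obtain ⟨h1', h2', -⟩ := hI _ (hσI _ ht)
        by_cases hv : p % 2 ^ lv (f + 1) ∈ spn (lv f + q) (SU f q)
        · have e1 := repl_slot hp x' (by omega) h2 hv
          have e2 := repl_slot hp x (by omega) h2 hv
          have e3 := repl_slot hp x (by omega) h2' hv
          simp only [sh] at e1 e2 e3
          rw [add_comm, hpe] at e1 e2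
          rw [add_comm] at e3
          rw [hp.spn_SU, Set.mem_Ico] at hv
          have a1 := congrFun (hty _ ht).1 ⟨p % 2 ^ lv (f + 1) - sA f q, by omega⟩
          have a2 := congrFun (hty _ ht).2 ⟨p % 2 ^ lv (f + 1) - sA f q, by omega⟩
          simp only [tyW, tokW, erW, tkW, res, Nat.add_sub_cancel' hv.1] at a1 a2
          simp only [psi, e1, e2, e3]
          split_ifs at a1 a2 ⊢ with hX
          · rw [← a2]; exact eq_setT a1
          · exact a1
        · have hX : ¬ XLoc f (p % 2 ^ lv (f + 1)) := fun hX =>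
            hv (spn_mono _ (R2_sub f q) (hp.XLoc_mem hX))
          rw [hp.spn_SU, Set.mem_Ico] at hv
          simp only [psi, if_neg hX, repl, replT]
          rw [if_neg (by tauto), if_neg (by tauto)]
          refine hx p fun t _ hc => hv ?_
          have := huniq t hc.1 hc.2
          rw [this] at hpe
          omega
      · have e1 : bw f q x' (p / 2 ^ lv (f + 1)) = bw f q x (p / 2 ^ lv (f + 1)) := by
          funext v
          simp only [bw, res, sh]
          refine hx _ fun t ht' hc => ht ?_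
          have hv := v.2
          have : (sA f q + v + p / 2 ^ lv (f + 1) * 2 ^ lv (f + 1)) / 2 ^ lv (f + 1) = t := by
            rw [Nat.div_eq_iff hs]; omega
          rw [Nat.add_mul_div_right _ _ hs, Nat.div_eq_of_lt (by omega), zero_add] at this
          rwa [this]
        have e2 : x' p = x p := hx p fun t ht' hc => ht (by rwa [huniq t hc.1 hc.2])
        have e3 : psi f σ (repl f q x) p = repl f q x p := by
          simp only [psi]
          split_ifs
          · rw [hσ _ ht, hpe, setT_self]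
          · rfl
        rw [e3]
        simp only [repl, replT, e1, e2]
    have h1 : (core PP).Eqv _ (repl f q x') (psi f σ x2) := hG.eqv.replay'
      (fun i hi => by rw [hrepl, hoff _ _ hi.2]) (fun i hi => hoff _ _ hi.2)
      (fun i hi => by
        rw [hrepl]
        simp only [psi]
        rw [hG.eqv.frame hi]
        split_ifs with hX
        · by_cases ht : i / 2 ^ lv (f + 1) ∈ I
          · rw [hG.eqv.frame fun hc => hc.2 (hVV _ (hσI _ ht) _ (Nat.mod_lt _ hs) hX)]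
          · rw [hσ _ ht, Nat.div_add_mod', hG.eqv.frame hi]
        · rfl)
    have hperm : permTok (2 ^ gp f) σ (rowPay x2 (lv f)) = permX f σ (rowPay x2 (lv f)) := by
      funext j
      simp only [permTok, permX]
      split_ifs with hX
      · rfl
      · by_cases ht : j / 2 ^ gp f ∈ I
        · obtain ⟨h1, h2, -⟩ := hI _ ht
          obtain ⟨h1', h2', -⟩ := hI _ (hσI _ ht)
          have hu := Nat.mod_lt j (show 0 < 2 ^ gp f by positivity)
          have a1 := hG.tok_false (by omega) h2 hu hX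
          rw [Nat.div_add_mod'] at a1
          rw [hG.tok_false (by omega) h2' hu hX, ← a1]
        · rw [hσ _ ht, Nat.div_add_mod']
    have h2 := row_lift (by have := hp.q1; omega) hG.al hG.cl (SS_sub hp) (hR.2 σ hσ)
    rw [hperm, ← psi_eq hp] at h2
    exact (repl_eqv hp x).trans ((hG.eqv.mono Set.sdiff_subset).trans ((h2.mono (WW_sub hp)).trans
      ((h1.mono Set.sdiff_subset).symm.trans (repl_eqv hp x').symm)))

end Crest.Agent.R176
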