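import Crest.Agent.R176.NSlot

/-! Row 176: replacing all slots of a container by their normal forms. -/

set_option autoImplicit false

namespace Crest.Agent.R176

open WSys

/-! ### arithmetic -/

theorem lv_succ (f : ℕ) : lv (f + 1) = lv f + gp f := rfl

theorem Par.lv_pos {f q : ℕ} (hp : Par f q) : 1 ≤ lv f := by
  have h := hp.odd
  have : lv 0 < lv f := lv_strictMono (by omega)
  omega

theorem Par.uq4 {f q : ℕ} (hp : Par f q) : 4 ≤ uq f q := by
  have h := hp.q4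
  calc 4 = 2 ^ 2 := rfl
    _ ≤ 2 ^ (gp f - q - 2) := Nat.pow_le_pow_right (by norm_num) (by omega)

theorem Par.m_eq {f q : ℕ} (hp : Par f q) : 2 ^ gp f = 4 * uq f q * 2 ^ q := by
  have h := hp.q4
  rw [uq, show (4 : ℕ) = 2 ^ 2 from rfl, ← pow_add, ← pow_add]
  congr 1; omega

theorem Par.n_eq {f q : ℕ} (hp : Par f q) : gp (f + 1) = uq f q * 2 ^ q := by
  have h := four_mul_gp f
  rw [hp.m_eq] at h
  linarith

theorem Par.s_eq {f q : ℕ} (hp : Par f q) : 2 ^ lv (f + 1) = 4 * uq f q * 2 ^ (lv f + q) := by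
  rw [lv_succ, pow_add, hp.m_eq, pow_add]; ring

theorem Par.end_eq {f q : ℕ} (hp : Par f q) :
    sA f q + sL f q = (3 * uq f q + 4) * 2 ^ (lv f + q) := by
  have h := hp.uq4
  rw [sA, sL, ← add_mul]
  congr 1; omega

theorem Par.end_le {f q : ℕ} (hp : Par f q) : sA f q + sL f q ≤ 2 ^ lv (f + 1) := by
  have h := hp.uq4
  rw [hp.end_eq, hp.s_eq]
  exact Nat.mul_le_mul_right _ (by omega)

theorem Par.spn_SU {f q : ℕ} (hp : Par f q) :
    spn (lv f + q) (SU f q) = Set.Ico (sA f q) (sA f q + sL f q) := by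
  rw [SU, spn_Ico, hp.end_eq, sA]

theorem R2_sub (f q : ℕ) : R2 f q ⊆ SU f q := by
  intro j hj
  simp only [R2, SU, Set.mem_Ico] at hj ⊢
  omega

theorem Par.X_mem {f q : ℕ} (hp : Par f q) {u : ℕ} (h1 : 2 * gp (f + 1) ≤ u)
    (h2 : u < 3 * gp (f + 1)) : u ∈ spn q (R2 f q) := by
  rw [R2, spn_Ico, Set.mem_Ico]
  rw [hp.n_eq] at h1 h2
  constructor
  · calc (2 * uq f q - 1) * 2 ^ q ≤ (2 * uq f q) * 2 ^ q := Nat.mul_le_mul_right _ (by omega)
      _ ≤ u := by linarith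
  · calc u < (3 * uq f q) * 2 ^ q := by linarith
      _ ≤ (3 * uq f q + 1) * 2 ^ q := Nat.mul_le_mul_right _ (by omega)

theorem Par.XLoc_mem {f q : ℕ} (hp : Par f q) {v : ℕ} (h : XLoc f v) :
    v ∈ spn (lv f + q) (R2 f q) := by
  rw [← spn_spn]
  exact hp.X_mem h.2.1 h.2.2

theorem Par.home_mem {f q : ℕ} (hp : Par f q) : 2 ^ gp f / 2 - 1 ∈ spn q (R2 f q) := by
  have h := hp.uq4
  have hq : 0 < 2 ^ q := by positivity
  have e : 2 ^ gp f / 2 = 2 * uq f q * 2 ^ q := by rw [hp.m_eq]; ring_nf; omega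
  rw [R2, spn_Ico, Set.mem_Ico, e]
  obtain ⟨a, ha⟩ : ∃ a, 2 * uq f q = a + 1 := ⟨2 * uq f q - 1, by omega⟩
  constructor
  · rw [ha, Nat.add_sub_cancel, add_mul]; omega
  · have : 2 * uq f q * 2 ^ q ≤ (3 * uq f q + 1) * 2 ^ q := Nat.mul_le_mul_right _ (by omega)
    have : 0 < 2 * uq f q * 2 ^ q := by positivity
    omega

theorem Par.R2_lt {f q : ℕ} (hp : Par f q) {d j : ℕ} (hj : j ∈ spn d (SU f q)) :
    (uq f q) * 2 ^ d ≤ j ∧ j < 4 * uq f q * 2 ^ d := by
  have h := hp.uq4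
  rw [SU, spn_Ico, Set.mem_Ico] at hj
  exact ⟨le_trans (Nat.mul_le_mul_right _ (by omega)) hj.1,
    lt_of_lt_of_le hj.2 (Nat.mul_le_mul_right _ (by omega))⟩

theorem Par.pow_sub {f q : ℕ} (hp : Par f q) {l : ℕ} (hl : l ≤ lv f + q) :
    2 ^ (lv (f + 1) - l) = 4 * uq f q * 2 ^ (lv f + q - l) := by
  have h := hp.q4
  have := hp.s_eq
  rw [show lv (f + 1) = (lv (f + 1) - l) + l by rw [lv_succ]; omega,
    show lv f + q = (lv f + q - l) + l by omega, pow_add, pow_add, ← mul_assoc] at this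
  exact Nat.eq_of_mul_eq_mul_right (by positivity) this

/-! ### slots of arbitrary blocks -/

theorem nfOf_eqv (f q : ℕ) (u : SW f q) :
    (core PP).Eqv (spn (lv f + q) (SU f q)) (nemb f q u) (nfOf f q u) := by
  unfold nfOf
  split_ifs with h
  · exact h.choose_spec.1
  · exact Eqv.refl _ _

theorem nfOf_nf {f q : ℕ} {u : SW f q}
    (h : ∃ y, (core PP).Eqv (spn (lv f + q) (SU f q)) (nemb f q u) y ∧ NF f q y) :
    NF f q (nfOf f q u) := by
  unfold nfOf
  rw [dif_pos h]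
  exact h.choose_spec.2

theorem emb_res {f q : ℕ} (hp : Par f q) (y : ℕ → Gam) {v : ℕ} (hv : v ∈ spn (lv f + q) (SU f q)) :
    nemb f q (res f q y) v = y v := by
  rw [hp.spn_SU, Set.mem_Ico] at hv
  simp only [nemb, res, dif_pos hv]
  rw [Nat.add_sub_cancel' hv.1]

/-- the slot word of the block `t` -/
def bw (f q : ℕ) (x : ℕ → Gam) (t : ℕ) : SW f q := res f q (sh (t * 2 ^ lv (f + 1)) x)

theorem ctl_block {f : ℕ} {l : ℕ} (hl : l ≤ lv (f + 1)) (x : ℕ → Gam) (t j : ℕ) :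
    ctl (sh (t * 2 ^ lv (f + 1)) x) l j = ctl x l (j + t * 2 ^ (lv (f + 1) - l)) := by
  rw [← ctl_sh, mul_assoc, ← pow_add, Nat.sub_add_cancel hl]

theorem block_div {f q : ℕ} (hp : Par f q) {l j t : ℕ} (hl : l ≤ lv f + q)
    (hj : j ∈ spn (lv f + q - l) (SU f q)) :
    (j + t * 2 ^ (lv (f + 1) - l)) / 2 ^ (lv (f + 1) - l) = t := by
  have := (hp.R2_lt hj).2
  rw [← hp.pow_sub hl] at this
  rw [Nat.add_mul_div_right _ _ (by positivity), Nat.div_eq_of_lt this, zero_add]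

theorem block_mem {f q : ℕ} (hp : Par f q) {l j t d : ℕ} (hl : l ≤ lv f + q)
    (hj : j ∈ spn (lv f + q - l) (SU f q)) {V : Set ℕ} (ht : t ∈ spn d V) :
    j + t * 2 ^ (lv (f + 1) - l) ∈ spn (lv (f + 1) + d - l) V := by
  have h := hp.q4
  rw [show lv (f + 1) + d - l = (lv (f + 1) - l) + d by rw [lv_succ]; omega, ← spn_spn]
  change _ / _ ∈ spn d V
  rwa [block_div hp hl hj]

/-- all blocks of the container `8` except the last one have a normal form -/
theorem nf_block {f q : ℕ} (hp : Par f q) {x : ℕ → Gam}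
    (hA : Aligned PP (lv (f + 2) + 1) (Set.Iio 8) x)
    (h : ¬ (phys PP).Dead (Set.Iio (8 * 2 ^ (lv (f + 2) + 1))) x) {t : ℕ}
    (ht : 8 * 2 ^ gp (f + 1) ≤ t) (ht' : t + 1 < 9 * 2 ^ gp (f + 1)) :
    NF f q (nfOf f q (bw f q x t)) := by
  have hq := hp.q4
  have hN : 0 < 2 ^ gp (f + 1) := by positivity
  have htd : t / 2 ^ gp (f + 1) = 8 := by
    rw [Nat.div_eq_iff hN]; omega
  have hc : ∀ l ≤ lv f + q, ∀ j ∈ spn (lv f + q - l) (SU f q),
      ctl (nemb f q (bw f q x t)) l j = ctl x l (j + t * 2 ^ (lv (f + 1) - l)) := by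
    intro l hl j hj
    rw [← ctl_block (by rw [lv_succ]; omega)]
    exact ctl_congr hl (fun i hi => emb_res hp _ hi) j hj
  refine nfOf_nf (slot_nf hp ⟨?_, ?_⟩ ?_)
  · intro l hl j hj
    rw [hc l hl.le j hj, hA l (by rw [lv_succ, lv_succ]; omega)]
    · obtain ⟨e, he⟩ : ∃ e, lv (f + 1) - l = e + 1 := ⟨lv (f + 1) - l - 1, by rw [lv_succ]; omega⟩
      rw [he, pow_succ, ← mul_assoc, Nat.add_mul_mod_self_right]
    · have := block_mem hp hl.le hj (t := t) (d := gp (f + 1) + 1) (V := Set.Iio 8) (by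
        change t / 2 ^ (gp (f + 1) + 1) < 8
        rw [pow_succ, ← Nat.div_div_eq_div_mul, htd]; norm_num)
      exact this
  · intro f' r' hr hl j hj
    have hf' : f' ≤ f := by
      by_contra hc'
      have : lv (f + 1) ≤ lv f' := lv_strictMono.monotone (by omega)
      rw [lv_succ] at this; omega
    rw [hc _ hl.le j hj, static_spec hA h hf' hr _ (block_mem hp hl.le hj (d := gp (f + 1)) (by
      change t / 2 ^ gp (f + 1) ∈ Set.Ico 5 11
      rw [htd]; simp))]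
    rcases hf'.lt_or_eq with hlt | rfl
    · have h2 : lv (f' + 2) ≤ lv (f + 1) := lv_strictMono.monotone (by omega)
      rw [lv_succ (f' + 1), lv_succ f'] at h2
      have e : t * 2 ^ (lv (f + 1) - (lv f' + r')) =
          (t * 2 ^ (lv (f + 1) - (lv f' + gp f' + gp (f' + 1)))) * 2 ^ (gp f' - r' + gp (f' + 1)) := by
        rw [mul_assoc, ← pow_add]; congr 2; omega
      rw [e, spec_period hr]
    · have e : lv (f' + 1) - (lv f' + r') = gp f' - r' := by rw [lv_succ]; omega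
      have hj' := hp.R2_lt hj
      rw [← hp.pow_sub hl.le, e] at hj'
      rw [e]
      refine spec_block hr hj'.2 ?_ ?_
      · calc gp (f' + 1) = uq f' q * 2 ^ (lv f' + q - (lv f' + r')) * 2 ^ r' := by
              rw [hp.n_eq, mul_assoc, ← pow_add]; congr 2; omega
          _ ≤ j * 2 ^ r' := Nat.mul_le_mul_right _ hj'.1
      · intro h0
        obtain ⟨c, hc⟩ := Nat.dvd_of_mod_eq_zero h0
        have h8 : 2 ^ gp (f' + 1) * 8 < 2 ^ gp (f' + 1) * c := by omega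
        have h9 : 2 ^ gp (f' + 1) * c < 2 ^ gp (f' + 1) * 9 := by omega
        have := Nat.lt_of_mul_lt_mul_left h8
        have := Nat.lt_of_mul_lt_mul_left h9
        omega
  · intro hd
    have h1 := (hd.congr (x' := sh (t * 2 ^ lv (f + 1)) x) fun i hi => (emb_res hp _ hi).symm).of_sh
    refine h (phys_dead_of_core (h1.mono ?_))
    rintro i ⟨hi, hi'⟩
    rw [hp.spn_SU] at hi'
    have h2 := hp.end_le
    have h3 : (t + 1) * 2 ^ lv (f + 1) ≤ 8 * 2 ^ (lv (f + 2) + 1) := by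
      rw [lv_succ (f + 1), pow_succ, pow_add]
      calc (t + 1) * 2 ^ lv (f + 1) ≤ (16 * 2 ^ gp (f + 1)) * 2 ^ lv (f + 1) :=
            Nat.mul_le_mul_right _ (by omega)
        _ = _ := by ring
    have := hi'.2
    rw [add_mul] at h3
    change i < _
    omega

/-! ### replacement -/

/-- replace the slots of the blocks in `[8·2^n, T)` by their normal forms -/
noncomputable def replT (f q T : ℕ) (x : ℕ → Gam) : ℕ → Gam := fun p =>
  if 8 * 2 ^ gp (f + 1) ≤ p / 2 ^ lv (f + 1) ∧ p / 2 ^ lv (f + 1) < T ∧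
      sA f q ≤ p % 2 ^ lv (f + 1) ∧ p % 2 ^ lv (f + 1) < sA f q + sL f q then
    nfOf f q (bw f q x (p / 2 ^ lv (f + 1))) (p % 2 ^ lv (f + 1))
  else x p

theorem replT_step {f q : ℕ} (hp : Par f q) (x : ℕ → Gam) {T : ℕ} (hT : 8 * 2 ^ gp (f + 1) ≤ T) :
    (core PP).Eqv (Set.Iio ((T + 1) * 2 ^ lv (f + 1))) (replT f q T x) (replT f q (T + 1) x) := by
  have hs : 0 < 2 ^ lv (f + 1) := by positivity
  have hle := hp.end_le
  have hdm : ∀ v, v < 2 ^ lv (f + 1) → (v + T * 2 ^ lv (f + 1)) / 2 ^ lv (f + 1) = T ∧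
      (v + T * 2 ^ lv (f + 1)) % 2 ^ lv (f + 1) = v := fun v hv => by
    rw [Nat.add_mul_div_right _ _ hs, Nat.div_eq_of_lt hv, zero_add, Nat.add_mul_mod_self_right,
      Nat.mod_eq_of_lt hv]
    exact ⟨rfl, rfl⟩
  have h1 := (nfOf_eqv f q (bw f q x T)).replay' (x' := sh (T * 2 ^ lv (f + 1)) (replT f q T x))
    (y' := sh (T * 2 ^ lv (f + 1)) (replT f q (T + 1) x))
    (fun i hi => by
      rw [bw, emb_res hp _ hi]
      rw [hp.spn_SU] at hi
      have := hdm i (by have := hi.2; omega)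
      simp only [sh, replT, this.1, lt_irrefl, false_and, and_false, if_false])
    (fun i hi => by
      rw [hp.spn_SU] at hi
      have := hdm i (by have := hi.2; omega)
      simp only [sh, replT, this.1, this.2]
      rw [if_pos ⟨hT, by omega, hi.1, hi.2⟩])
    (fun i hi => by
      rw [hp.spn_SU, Set.mem_Ico] at hi
      simp only [sh, replT]
      by_cases hi' : i < 2 ^ lv (f + 1)
      · have := hdm i hi'
        rw [this.1, this.2, if_neg (by tauto), if_neg (by tauto)]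
      · have : T + 1 ≤ (i + T * 2 ^ lv (f + 1)) / 2 ^ lv (f + 1) := by
          rw [Nat.le_div_iff_mul_le hs, add_mul]; omega
        rw [if_neg (by omega), if_neg (by omega)])
  have h2 := h1.of_sh
  have e : unsh (T * 2 ^ lv (f + 1)) (replT f q T x)
      (sh (T * 2 ^ lv (f + 1)) (replT f q (T + 1) x)) = replT f q (T + 1) x := by
    funext i
    simp only [unsh, sh]
    split_ifs with hi
    · rw [Nat.sub_add_cancel hi]
    · have : i / 2 ^ lv (f + 1) < T := by rw [Nat.div_lt_iff_lt_mul hs]; omega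
      simp only [replT]
      by_cases hc : 8 * 2 ^ gp (f + 1) ≤ i / 2 ^ lv (f + 1) ∧ sA f q ≤ i % 2 ^ lv (f + 1) ∧
          i % 2 ^ lv (f + 1) < sA f q + sL f q
      · rw [if_pos ⟨hc.1, this, hc.2⟩, if_pos ⟨hc.1, by omega, hc.2⟩]
      · rw [if_neg (by tauto), if_neg (by tauto)]
  rw [e] at h2
  refine h2.mono ?_
  rintro i ⟨hi, hi'⟩
  rw [hp.spn_SU] at hi'
  have := hi'.2
  change i < _
  rw [add_mul]; omega

theorem replT_eqv {f q : ℕ} (hp : Par f q) (x : ℕ → Gam) (d : ℕ) :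
    (core PP).Eqv (Set.Iio ((8 * 2 ^ gp (f + 1) + d) * 2 ^ lv (f + 1))) x
      (replT f q (8 * 2 ^ gp (f + 1) + d) x) := by
  induction d with
  | zero =>
    refine Eqv.of_eq (funext fun p => ?_)
    simp only [replT]
    rw [if_neg (by omega)]
  | succ d ih =>
    refine (ih.mono ?_).trans (replT_step hp x (T := 8 * 2 ^ gp (f + 1) + d) (by omega))
    exact Set.Iio_subset_Iio (Nat.mul_le_mul_right _ (by omega))

/-- all slots of the container `8` but the last are replaced by their normal forms -/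
noncomputable def repl (f q : ℕ) (x : ℕ → Gam) : ℕ → Gam := replT f q (9 * 2 ^ gp (f + 1) - 1) x

theorem top_eq (f : ℕ) : 8 * 2 ^ (lv (f + 2) + 1) = 16 * 2 ^ gp (f + 1) * 2 ^ lv (f + 1) := by
  rw [lv_succ (f + 1), pow_succ, pow_add]; ring

theorem repl_eqv {f q : ℕ} (hp : Par f q) (x : ℕ → Gam) :
    (core PP).Eqv (Set.Iio (8 * 2 ^ (lv (f + 2) + 1))) x (repl f q x) := by
  have hN : 0 < 2 ^ gp (f + 1) := by positivity
  have := replT_eqv hp x (2 ^ gp (f + 1) - 1)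
  rw [show 8 * 2 ^ gp (f + 1) + (2 ^ gp (f + 1) - 1) = 9 * 2 ^ gp (f + 1) - 1 by omega] at this
  refine this.mono (Set.Iio_subset_Iio ?_)
  rw [top_eq]
  exact Nat.mul_le_mul_right _ (by omega)

theorem repl_slot {f q : ℕ} (hp : Par f q) (x : ℕ → Gam) {t : ℕ} (ht : 8 * 2 ^ gp (f + 1) ≤ t)
    (ht' : t + 1 < 9 * 2 ^ gp (f + 1)) {v : ℕ} (hv : v ∈ spn (lv f + q) (SU f q)) :
    sh (t * 2 ^ lv (f + 1)) (repl f q x) v = nfOf f q (bw f q x t) v := by
  have hs : 0 < 2 ^ lv (f + 1) := by positivity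
  have hle := hp.end_le
  rw [hp.spn_SU] at hv
  have hv' : v < 2 ^ lv (f + 1) := by have := hv.2; omega
  simp only [sh, repl, replT]
  rw [Nat.add_mul_div_right _ _ hs, Nat.div_eq_of_lt hv', zero_add, Nat.add_mul_mod_self_right,
      Nat.mod_eq_of_lt hv', if_pos ⟨ht, by omega, hv.1, hv.2⟩]

theorem ctl_repl {f q : ℕ} (hp : Par f q) (x : ℕ → Gam) {t : ℕ} (ht : 8 * 2 ^ gp (f + 1) ≤ t)
    (ht' : t + 1 < 9 * 2 ^ gp (f + 1)) {l j : ℕ} (hl : l ≤ lv f + q)
    (hj : j ∈ spn (lv f + q - l) (SU f q)) :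
    ctl (repl f q x) l (j + t * 2 ^ (lv (f + 1) - l)) = ctl (nfOf f q (bw f q x t)) l j := by
  have hq := hp.q4
  rw [← ctl_block (by rw [lv_succ]; omega)]
  exact ctl_congr hl (fun i hi => repl_slot hp x ht ht' hi) j hj

/-- the protected units -/
def VV (f q : ℕ) : Set ℕ := {j | 8 * 2 ^ gp (f + 1) ≤ j / (4 * uq f q) ∧
  j / (4 * uq f q) + 1 < 9 * 2 ^ gp (f + 1) ∧ j % (4 * uq f q) ∈ R2 f q}

theorem mem_spn_VV {f q : ℕ} {d j : ℕ} :
    j ∈ spn d (VV f q) ↔ 8 * 2 ^ gp (f + 1) ≤ j / (4 * uq f q * 2 ^ d) ∧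
      j / (4 * uq f q * 2 ^ d) + 1 < 9 * 2 ^ gp (f + 1) ∧
      j % (4 * uq f q * 2 ^ d) ∈ spn d (R2 f q) := by
  simp only [spn, VV, Set.mem_ofPred_eq]
  rw [Nat.div_div_eq_div_mul, mul_comm (2 ^ d), mul_comm (4 * uq f q) (2 ^ d), Nat.mod_mul_right_div_self]

theorem clean_repl {f q : ℕ} (hp : Par f q) {x : ℕ → Gam}
    (hA : Aligned PP (lv (f + 2) + 1) (Set.Iio 8) x)
    (h : ¬ (phys PP).Dead (Set.Iio (8 * 2 ^ (lv (f + 2) + 1))) x) :
    Clean (lv f + q) (VV f q) (repl f q x) := by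
  intro l hl j hj
  rw [mem_spn_VV, ← hp.pow_sub hl.le] at hj
  have := ctl_repl hp x hj.1 hj.2.1 hl.le (spn_mono _ (R2_sub f q) hj.2.2)
  rw [Nat.mod_add_div'] at this
  rw [this]
  exact (nf_block hp hA h hj.1 hj.2.1).clean l hl _ hj.2.2

end Crest.Agent.R176
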