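import Crest.Agent.R176.PDef

/-! Row 176: arithmetic helpers for `PDet`. -/

set_option autoImplicit false

namespace Crest.Agent.R176.Det

theorem mod_succ_zero (x i : ℕ) :
    decide (x % 2 ^ (i + 1) = 0) = (decide (x % 2 ^ i = 0) && !x.testBit i) := by
  rw [Nat.mod_pow_succ, Nat.testBit_eq_decide_div_mod_eq]
  have h : 0 < 2 ^ i := by positivity
  rcases Nat.mod_two_eq_zero_or_one (x / 2 ^ i) with h2 | h2 <;> simp [h2]

theorem testBit_pred (x i : ℕ) :
    x.testBit i = xor ((x + 1).testBit i) (decide ((x + 1) % 2 ^ i = 0)) := by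
  rw [Nat.testBit_eq_decide_div_mod_eq, Nat.testBit_eq_decide_div_mod_eq, Nat.succ_div]
  by_cases h : 2 ^ i ∣ x + 1
  · have h' : (x + 1) % 2 ^ i = 0 := Nat.mod_eq_zero_of_dvd h
    rcases Nat.mod_two_eq_zero_or_one (x / 2 ^ i) with h2 | h2
    · have : (x / 2 ^ i + 1) % 2 = 1 := by omega
      simp [h, h', h2, this]
    · have : (x / 2 ^ i + 1) % 2 = 0 := by omega
      simp [h, h', h2, this]
  · have h' : ¬ (x + 1) % 2 ^ i = 0 := fun e => h (Nat.dvd_of_mod_eq_zero e)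
    simp [h, h']

theorem mod_succ_congr {x y i : ℕ} (h : x % 2 ^ i = y % 2 ^ i) (hb : x.testBit i = y.testBit i) :
    x % 2 ^ (i + 1) = y % 2 ^ (i + 1) := by
  rw [Nat.mod_pow_succ, Nat.mod_pow_succ, h]
  rw [Nat.testBit_eq_decide_div_mod_eq, Nat.testBit_eq_decide_div_mod_eq] at hb
  have : x / 2 ^ i % 2 = y / 2 ^ i % 2 := by
    rcases Nat.mod_two_eq_zero_or_one (x / 2 ^ i) with h2 | h2 <;>
    rcases Nat.mod_two_eq_zero_or_one (y / 2 ^ i) with h3 | h3 <;> simp_all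
  rw [this]

/-- the borrow chain computes the predecessor -/
theorem succ_of_pb {n x y : ℕ} (hy : y < 2 ^ n)
    (h : ∀ i < n, x.testBit i = xor (y.testBit i) (decide (y % 2 ^ i = 0))) :
    y = (x + 1) % 2 ^ n := by
  have key : ∀ i ≤ n, y % 2 ^ i = (x + 1) % 2 ^ i := by
    intro i
    induction i with
    | zero => intro _; simp [Nat.mod_one]
    | succ i ih =>
      intro hi
      have e := ih (by omega)
      refine mod_succ_congr e ?_
      have h1 := h i (by omega)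
      have h2 := testBit_pred x i
      rw [h1, e] at h2
      revert h2
      cases y.testBit i <;> cases (x + 1).testBit i <;> simp
  rw [← key n le_rfl, Nat.mod_eq_of_lt hy]

theorem succ_mod_cases {m : ℕ} (hm : 0 < m) (j : ℕ) :
    ((j + 1) % m = j % m + 1 ∧ j % m + 1 < m) ∨ ((j + 1) % m = 0 ∧ j % m + 1 = m) := by
  have h := Nat.mod_lt j hm
  rcases Nat.lt_or_ge (j % m + 1) m with h1 | h1
  · left
    refine ⟨?_, h1⟩
    rw [← Nat.mod_add_mod, Nat.mod_eq_of_lt h1]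
  · right
    have e : j % m + 1 = m := by omega
    refine ⟨?_, e⟩
    rw [← Nat.mod_add_mod, e, Nat.mod_self]

theorem zone_bits (c j : ℕ) :
    j.testBit (c + 1) = decide (2 * 2 ^ c ≤ j % 2 ^ (c + 2)) ∧
    j.testBit c = decide ((2 ^ c ≤ j % 2 ^ (c + 2) ∧ j % 2 ^ (c + 2) < 2 * 2 ^ c) ∨
      3 * 2 ^ c ≤ j % 2 ^ (c + 2)) := by
  have e1 : j.testBit (c + 1) = (j % 2 ^ (c + 2)).testBit (c + 1) := by simp
  have e2 : j.testBit c = (j % 2 ^ (c + 2)).testBit c := by simp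
  rw [e1, e2]
  have hu : j % 2 ^ (c + 2) < 4 * 2 ^ c := by
    have := Nat.mod_lt j (show 0 < 2 ^ (c + 2) by positivity)
    rw [show 4 * 2 ^ c = 2 ^ (c + 2) by ring]; exact this
  generalize j % 2 ^ (c + 2) = u at *
  have hn : 0 < 2 ^ c := by positivity
  rw [Nat.testBit_eq_decide_div_mod_eq, Nat.testBit_eq_decide_div_mod_eq, pow_succ,
    ← Nat.div_div_eq_div_mul]
  generalize 2 ^ c = n at *
  have h1 := Nat.div_add_mod u n
  have h2 := Nat.mod_lt u hn
  have h3 : u / n < 4 := by rw [Nat.div_lt_iff_lt_mul hn]; exact hu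
  generalize u / n = w at *
  generalize u % n = v at *
  interval_cases w <;> simp <;> omega

/-- zones of the nodes `d + 1` levels below a mark -/
def Zs : ℕ → ℕ → Zn
  | 0, j => .t (j.testBit 0)
  | d + 1, j => .q (j.testBit (d + 1)) (j.testBit d)

def Reg (K A B k j : ℕ) : Prop := A * 2 ^ (K - k) ≤ j ∧ j < B * 2 ^ (K - k)

variable {K A B : ℕ}

theorem mem_reg {k j : ℕ} : j ∈ spn (K - k) (Set.Ico A B) ↔ Reg K A B k j := by
  simp only [spn, Set.mem_ofPred_eq, Set.mem_Ico, Reg]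
  rw [Nat.le_div_iff_mul_le (by positivity), Nat.div_lt_iff_lt_mul (by positivity)]

theorem pow_split {k r : ℕ} (h : k + r ≤ K) : 2 ^ (K - k) = 2 ^ (K - (k + r)) * 2 ^ r := by
  rw [← pow_add]; congr 1; omega

theorem Reg.mul {k r j u : ℕ} (h : k + r ≤ K) (hj : Reg K A B (k + r) j) (hu : u < 2 ^ r) :
    Reg K A B k (j * 2 ^ r + u) := by
  unfold Reg at *
  rw [pow_split h, ← mul_assoc, ← mul_assoc]
  constructor
  · have := Nat.mul_le_mul_right (2 ^ r) hj.1
    omega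
  · have := Nat.mul_le_mul_right (2 ^ r) (Nat.succ_le_of_lt hj.2)
    rw [Nat.succ_mul] at this
    omega

theorem Reg.div {k r j : ℕ} (h : k + r ≤ K) (hj : Reg K A B k j) :
    Reg K A B (k + r) (j / 2 ^ r) := by
  unfold Reg at *
  rw [pow_split h, ← mul_assoc, ← mul_assoc] at hj
  rw [Nat.le_div_iff_mul_le (by positivity), Nat.div_lt_iff_lt_mul (by positivity)]
  exact hj

theorem Reg.two {k j : ℕ} (h : k < K) (hj : Reg K A B (k + 1) j) :
    Reg K A B k (2 * j) ∧ Reg K A B k (2 * j + 1) := by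
  have h0 := hj.mul (r := 1) (u := 0) h (by norm_num)
  have h1 := hj.mul (r := 1) (u := 1) h (by norm_num)
  rw [pow_one, mul_comm] at h0 h1
  exact ⟨h0, h1⟩

theorem Reg.half {k j : ℕ} (h : k < K) (hj : Reg K A B k j) : Reg K A B (k + 1) (j / 2) := by
  simpa using hj.div (r := 1) h

theorem reg_gap (hAB : A + 4 ≤ B) (k : ℕ) : A * 2 ^ (K - k) + 4 * 2 ^ (K - k) ≤ B * 2 ^ (K - k) := by
  rw [← add_mul]; exact Nat.mul_le_mul_right _ hAB

theorem reg_lo (hAB : A + 4 ≤ B) (k : ℕ) : Reg K A B k (A * 2 ^ (K - k)) := by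
  have := reg_gap (K := K) hAB k
  have h : 0 < 2 ^ (K - k) := by positivity
  exact ⟨le_rfl, by omega⟩

end Crest.Agent.R176.Det
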