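import Crest.Agent.R176.PSpec
import Crest.Agent.R176.PDetA

/-! Row 176: the static checks determine the static tower. -/

set_option autoImplicit false

namespace Crest.Agent.R176

/-- Static data on the levels `≤ K` below the level-`K` nodes `[A, B)` passing all checks. -/
structure Tower (σ : ℕ → ℕ → PSt) (K A B : ℕ) : Prop where
  pos : ∀ k ≤ K, ∀ j ∈ spn (K - k) (Set.Ico A B), (σ k j).pos = decide (j % 2 = 1)
  H : ∀ k ≤ K, ∀ j ∈ spn (K - k) (Set.Ico A B), j + 1 ∈ spn (K - k) (Set.Ico A B) →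
    (σ k j).OKH (σ k (j + 1))
  V : ∀ k < K, ∀ j ∈ spn (K - (k + 1)) (Set.Ico A B), (σ k (2 * j)).OKV (σ (k + 1) j)
  base : ∀ j ∈ spn K (Set.Ico A B), (σ 0 j).OKB
  chk : ∀ k ≤ K, ∀ m t, 4 ≤ m → tape m t ⊆ spn (K - k) (Set.Ico A B) → IF m (tape m t) (σ k) →
    ∀ u, u + 1 < m → (σ k (t * m + u)).b = (σ k ((t + 1) * m + u)).pb

namespace Det

/-- the common values of `mr`, `par` on a row -/
def MR (σ : ℕ → ℕ → PSt) (K A k : ℕ) : Bool := (σ k (A * 2 ^ (K - k))).mr

def PAR (σ : ℕ → ℕ → PSt) (K A k : ℕ) : Bool := (σ k (A * 2 ^ (K - k))).par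

variable {σ : ℕ → ℕ → PSt} {K A B : ℕ}

theorem tH (hT : Tower σ K A B) {k j : ℕ} (hk : k ≤ K) (h : Reg K A B k j)
    (h' : Reg K A B k (j + 1)) : (σ k j).OKH (σ k (j + 1)) :=
  hT.H k hk j (mem_reg.2 h) (mem_reg.2 h')

theorem tV (hT : Tower σ K A B) {k j : ℕ} (hk : k < K) (h : Reg K A B (k + 1) j) :
    (σ k (2 * j)).OKV (σ (k + 1) j) := hT.V k hk j (mem_reg.2 h)

theorem tpos (hT : Tower σ K A B) {k j : ℕ} (hk : k ≤ K) (h : Reg K A B k j) :
    (σ k j).pos = decide (j % 2 = 1) := hT.pos k hk j (mem_reg.2 h)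

theorem loc (hT : Tower σ K A B) (hAB : A + 4 ≤ B) {k j : ℕ} (hk : k ≤ K) (h : Reg K A B k j) :
    (σ k j).Loc := by
  have hg := reg_gap (K := K) hAB k
  have hp : 0 < 2 ^ (K - k) := by positivity
  by_cases h' : Reg K A B k (j + 1)
  · exact (tH hT hk h h').locx
  · unfold Reg at h h'
    obtain ⟨i, rfl⟩ : ∃ i, j = i + 1 := ⟨j - 1, by omega⟩
    exact (tH hT hk (j := i) ⟨by omega, by omega⟩ h).locy

theorem unif (hT : Tower σ K A B) {k j : ℕ} (hk : k ≤ K) (h : Reg K A B k j) :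
    (σ k j).mr = MR σ K A k ∧ (σ k j).par = PAR σ K A k ∧
      (σ k j).cd = (σ k (A * 2 ^ (K - k))).cd := by
  obtain ⟨h1, h2⟩ := h
  induction j, h1 using Nat.le_induction with
  | base => exact ⟨rfl, rfl, rfl⟩
  | succ j hj ih =>
    have ih := ih (by omega)
    have := tH hT hk (j := j) ⟨hj, by omega⟩ ⟨by omega, h2⟩
    exact ⟨this.mr.trans ih.1, this.par.trans ih.2.1, this.cd.trans ih.2.2⟩

theorem mr_eq (hT : Tower σ K A B) {k j : ℕ} (hk : k ≤ K) (h : Reg K A B k j) :
    (σ k j).mr = MR σ K A k := (unif hT hk h).1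

theorem par_eq (hT : Tower σ K A B) {k j : ℕ} (hk : k ≤ K) (h : Reg K A B k j) :
    (σ k j).par = PAR σ K A k := (unif hT hk h).2.1

theorem cd_eq (hT : Tower σ K A B) {k : ℕ} (hk : k ≤ K) :
    ∀ {j : ℕ}, Reg K A B k j → (σ k j).cd.val = 5 - k := by
  induction k with
  | zero =>
    intro j h
    exact (hT.base j (by simpa using mem_reg.2 h)).2.2.1
  | succ k ih =>
    intro j h
    have := (tV hT (by omega) h).cd
    rw [this, ih (by omega) (h.two (by omega)).1]
    omega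

theorem PAR_succ (hT : Tower σ K A B) (hAB : A + 4 ≤ B) {k : ℕ} (hk : k < K) :
    PAR σ K A (k + 1) = xor (PAR σ K A k) (MR σ K A (k + 1)) := by
  have h := reg_lo (K := K) hAB (k + 1)
  have := (tV hT hk h).par
  rwa [par_eq hT hk h, par_eq hT hk.le (h.two hk).1, mr_eq hT hk h] at this

theorem up_child (hT : Tower σ K A B) {k j : ℕ} (hk : k < K) (h : Reg K A B k j) :
    (σ k j).up = if MR σ K A (k + 1) = true then none else some (σ (k + 1) (j / 2)).zn := by
  have hp := h.half hk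
  have h0 := (tV hT hk hp).up
  rw [mr_eq hT hk hp] at h0
  rw [← h0]
  rcases Nat.mod_two_eq_zero_or_one j with e | e
  · rw [show 2 * (j / 2) = j by omega]
  · have h2 := hp.two hk
    have := (tH hT hk.le h2.1 h2.2).up (by rw [tpos hT hk.le h2.1]; simp)
    rw [← this, show 2 * (j / 2) + 1 = j by omega]

theorem inh (hT : Tower σ K A B) {k r : ℕ} (hk : k + r ≤ K)
    (hn : ∀ s, 0 < s → s ≤ r → MR σ K A (k + s) = false) :
    ∀ {j : ℕ}, Reg K A B (k + r) j →
      (σ (k + r) j).z = (σ k (j * 2 ^ r)).z ∧ (σ (k + r) j).zc = (σ k (j * 2 ^ r)).zc := by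
  induction r with
  | zero => intro j _; simp
  | succ r ih =>
    intro j h
    have hk' : k + r < K := by omega
    have hV := tV hT hk' h
    have hm : (σ (k + r + 1) j).mr = false := (mr_eq hT hk h).trans (hn _ (by omega) le_rfl)
    have ih := ih (by omega) (fun s h1 h2 => hn s h1 (by omega)) (h.two hk').1
    have e : j * 2 ^ (r + 1) = 2 * j * 2 ^ r := by ring
    rw [e, ← ih.1, ← ih.2]
    refine ⟨?_, hV.zc hm⟩
    have := hV.z
    rw [hm] at this
    exact this

/-- two consecutive mark levels `k`, `k + (c + 2)` -/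
structure Seg (σ : ℕ → ℕ → PSt) (K A k c : ℕ) : Prop where
  le : k + (c + 2) ≤ K
  m0 : MR σ K A k = true
  nm : ∀ r, 0 < r → r < c + 2 → MR σ K A (k + r) = false
  m1 : MR σ K A (k + (c + 2)) = true

theorem zn_eq (hT : Tower σ K A B) {k c : ℕ} (S : Seg σ K A k c) :
    ∀ d r, r + d + 1 = c + 2 → ∀ {j : ℕ}, Reg K A B (k + r) j → (σ (k + r) j).zn = Zs d j := by
  have hle := S.le
  intro d
  induction d with
  | zero =>
    intro r hr j h
    have hu := up_child hT (by omega) h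
    rw [show k + r + 1 = k + (c + 2) by omega, S.m1] at hu
    simp only [if_true] at hu
    simp only [PSt.zn, hu, Zs, tpos hT (by omega) h, Nat.testBit_zero]
  | succ d ih =>
    intro r hr j h
    have hu := up_child hT (by omega) h
    have hm := S.nm (r + 1) (by omega) (by omega)
    have ih := ih (r + 1) (by omega) (h.half (k := k + r) (by omega))
    rw [← add_assoc] at hm ih
    rw [hm, ih] at hu
    simp only [Bool.false_eq_true, if_false] at hu
    cases d with
    | zero =>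
      simp only [PSt.zn, hu, Zs, tpos hT (by omega) h, Nat.testBit_zero, Nat.testBit_succ]
    | succ d =>
      simp only [PSt.zn, hu, Zs, Nat.testBit_div_two]

theorem up_eq (hT : Tower σ K A B) {k c : ℕ} (S : Seg σ K A k c) {d r j : ℕ} (hr : r + d = c + 2)
    (hd : 0 < d) (h : Reg K A B (k + r) j) :
    (σ (k + r) j).up = if d = 1 then none else if d = 2 then some (.t (decide (j % 2 ^ d / 2 = 1)))
      else some (.q (decide (j % 2 ^ d / 2 ^ (d - 1) = 1))
        (decide (j % 2 ^ d / 2 ^ (d - 2) % 2 = 1))) := by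
  have hle := S.le
  have hu := up_child hT (by omega) h
  have top : ∀ i, decide (j % 2 ^ (i + 1) / 2 ^ i = 1) = j.testBit i := by
    intro i
    have h1 : j % 2 ^ (i + 1) / 2 ^ i < 2 := by
      rw [Nat.div_lt_iff_lt_mul (by positivity), mul_comm, ← pow_succ]
      exact Nat.mod_lt _ (by positivity)
    have h2 : j.testBit i = (j % 2 ^ (i + 1)).testBit i := by simp
    rw [h2, Nat.testBit_eq_decide_div_mod_eq, Nat.mod_eq_of_lt h1]
  rcases d with _ | _ | d
  · omega
  · rw [show k + r + 1 = k + (c + 2) by omega, S.m1] at hu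
    simpa using hu
  · have hm := S.nm (r + 1) (by omega) (by omega)
    have hz := zn_eq hT S d (r + 1) (by omega) (h.half (k := k + r) (by omega))
    rw [← add_assoc] at hm hz
    rw [hm, hz] at hu
    simp only [Bool.false_eq_true, if_false] at hu
    rw [hu, if_neg (by omega)]
    cases d with
    | zero =>
      have := top 1
      simp only [pow_one] at this
      rw [if_pos (by omega), this]
      simp only [Zs, Nat.testBit_div_two]
    | succ d =>
      rw [if_neg (by omega)]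
      have h1 := top (d + 2)
      have h2 : j.testBit (d + 1) = (j % 2 ^ (d + 3)).testBit (d + 1) := by simp
      rw [Nat.testBit_eq_decide_div_mod_eq (x := j % 2 ^ (d + 3))] at h2
      simp only [Zs, Nat.testBit_div_two]
      rw [← h1, h2]
      rfl

theorem zn_row (hT : Tower σ K A B) {k c : ℕ} (S : Seg σ K A k c) {j : ℕ} (h : Reg K A B k j) :
    (σ k j).zn = .q (decide (2 * 2 ^ c ≤ j % 2 ^ (c + 2)))
      (decide ((2 ^ c ≤ j % 2 ^ (c + 2) ∧ j % 2 ^ (c + 2) < 2 * 2 ^ c) ∨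
        3 * 2 ^ c ≤ j % 2 ^ (c + 2))) := by
  have := zn_eq hT S (c + 1) 0 (by omega) (j := j) h
  rw [add_zero] at this
  rw [this, Zs, (zone_bits c j).1, (zone_bits c j).2]

theorem zn_ff (hT : Tower σ K A B) {k c : ℕ} (S : Seg σ K A k c) {j : ℕ} (h : Reg K A B k j) :
    (σ k j).zn = .q false false ↔ j % 2 ^ (c + 2) < 2 ^ c := by
  rw [zn_row hT S h]
  simp only [Zn.q.injEq, decide_eq_false_iff_not]
  omega

theorem bnd_eq (hT : Tower σ K A B) {k c : ℕ} (S : Seg σ K A k c) {j : ℕ} (h : Reg K A B k j)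
    (h' : Reg K A B k (j + 1)) :
    PSt.bnd (σ k j) (σ k (j + 1)) = decide (j % 2 ^ (c + 2) + 1 = 2 ^ (c + 2)) := by
  have hp : 0 < 2 ^ c := by positivity
  have h4 : 2 ^ (c + 2) = 4 * 2 ^ c := by ring
  have hc := succ_mod_cases (show 0 < 2 ^ (c + 2) by positivity) j
  simp only [PSt.bnd, zn_ff hT S h', zn_row hT S h, Zn.q.injEq, decide_eq_true_eq, decide_eq_decide]
  omega

theorem flags (hT : Tower σ K A B) {k c : ℕ} (S : Seg σ K A k c) {j : ℕ} (h : Reg K A B k j)
    (h' : Reg K A B k (j + 1)) :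
    (σ k j).dl = decide (j % 2 ^ (c + 2) + 1 = 2 ^ (c + 2)) ∧
    (σ k (j + 1)).df = decide ((j + 1) % 2 ^ (c + 2) = 0) ∧
    (σ k j).hm = decide (j % 2 ^ (c + 2) + 1 = 2 ^ (c + 2) / 2) := by
  have hle := S.le
  have hH := tH hT (by omega) h h'
  have hm : (σ k j).mr = true := by rw [mr_eq hT (by omega) h, S.m0]
  have hp : 0 < 2 ^ c := by positivity
  have h4 : 2 ^ (c + 2) = 4 * 2 ^ c := by ring
  have hc := succ_mod_cases (show 0 < 2 ^ (c + 2) by positivity) j
  refine ⟨by rw [hH.dl hm, bnd_eq hT S h h'], ?_, ?_⟩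
  · rw [hH.df hm, bnd_eq hT S h h', decide_eq_decide]
    omega
  · rw [hH.hm hm]
    simp only [zn_row hT S h', zn_row hT S h, Zn.q.injEq, decide_eq_true_eq, decide_eq_decide,
      decide_eq_false_iff_not]
    omega

/-- the counter of the block `t` -/
def Cn (σ : ℕ → ℕ → PSt) (k c t : ℕ) : ℕ :=
  Nat.ofBits fun i : Fin (2 ^ c) => (σ k (t * 2 ^ (c + 2) + (2 ^ c - 1 - i))).b

theorem Cn_lt (k c t : ℕ) : Cn σ k c t < 2 ^ 2 ^ c := Nat.ofBits_lt_two_pow _

theorem b_eq {k c t u i : ℕ} (h : u + i + 1 = 2 ^ c) :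
    (σ k (t * 2 ^ (c + 2) + u)).b = (Cn σ k c t).testBit i := by
  rw [Cn, Nat.testBit_ofBits_lt _ _ (by omega)]
  simp only
  rw [show 2 ^ c - 1 - i = u by omega]

theorem blk_mod {c t u : ℕ} (hu : u < 2 ^ (c + 2)) : (t * 2 ^ (c + 2) + u) % 2 ^ (c + 2) = u := by
  rw [Nat.mul_add_mod_self_right, Nat.mod_eq_of_lt hu]

theorem bi_eq (hT : Tower σ K A B) {k c : ℕ} (S : Seg σ K A k c) {t : ℕ}
    (ht : Reg K A B (k + (c + 2)) t) :
    ∀ i u, u + i + 1 = 2 ^ c → (σ k (t * 2 ^ (c + 2) + u)).bi = decide (Cn σ k c t % 2 ^ i = 0) := by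
  have hle := S.le
  have h4 : 2 ^ (c + 2) = 4 * 2 ^ c := by ring
  have aux : ∀ u, u < 2 ^ c → (σ k (t * 2 ^ (c + 2) + u)).bi =
      if u + 1 < 2 ^ c then (σ k (t * 2 ^ (c + 2) + (u + 1))).bo else true := by
    intro u hu
    have h := ht.mul (u := u) hle (by omega)
    have h' := ht.mul (u := u + 1) hle (by omega)
    have hm : (σ k (t * 2 ^ (c + 2) + u)).mr = true := by rw [mr_eq hT (by omega) h, S.m0]
    have := (tH hT (by omega) h h').bi hm ((zn_ff hT S h).2 (by rwa [blk_mod (by omega)]))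
    rw [this]
    have e := zn_ff hT S h'
    rw [blk_mod (by omega)] at e
    simp only [add_assoc, e]
  intro i
  induction i with
  | zero =>
    intro u hu
    rw [aux u (by omega), if_neg (by omega)]
    simp [Nat.mod_one]
  | succ i ih =>
    intro u hu
    rw [aux u (by omega), if_pos (by omega), PSt.bo, ih (u + 1) (by omega),
      b_eq (i := i) (by omega), mod_succ_zero]

theorem bo_eq (hT : Tower σ K A B) (hAB : A + 4 ≤ B) {k c : ℕ} (S : Seg σ K A k c) {t : ℕ}
    (ht : Reg K A B (k + (c + 2)) t) {u : ℕ} (hu : u < 2 ^ (c + 2)) :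
    (σ k (t * 2 ^ (c + 2) + u)).bo = decide (u < 2 ^ c ∧ Cn σ k c t % 2 ^ (2 ^ c - u) = 0) := by
  have hle := S.le
  by_cases h : u < 2 ^ c
  · obtain ⟨i, hi⟩ : ∃ i, u + i + 1 = 2 ^ c := ⟨2 ^ c - 1 - u, by omega⟩
    rw [PSt.bo, bi_eq hT S ht i u hi, b_eq hi, ← mod_succ_zero, show 2 ^ c - u = i + 1 by omega]
    simp [h]
  · have hr := ht.mul (u := u) hle hu
    have := (loc hT hAB (by omega) hr).y (by
      rw [zn_ff hT S hr, blk_mod hu]; tauto)
    simp [PSt.bo, this.2, h]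

theorem bo_zero (hT : Tower σ K A B) (hAB : A + 4 ≤ B) {k c : ℕ} (S : Seg σ K A k c) {t : ℕ}
    (ht : Reg K A B (k + (c + 2)) t) :
    (σ k (t * 2 ^ (c + 2))).bo = decide (Cn σ k c t = 0) := by
  have := bo_eq hT hAB S ht (u := 0) (by positivity)
  rw [add_zero] at this
  rw [this, Nat.sub_zero, Nat.mod_eq_of_lt (Cn_lt k c t)]
  simp

theorem z_top (hT : Tower σ K A B) (hAB : A + 4 ≤ B) {k c : ℕ} (S : Seg σ K A k c) {t : ℕ}
    (ht : Reg K A B (k + (c + 2)) t) : (σ (k + (c + 2)) t).z = decide (Cn σ k c t = 0) := by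
  have hle := S.le
  have hk : k + (c + 1) < K := by omega
  have hV := (tV hT hk ht).z
  have hm : (σ (k + (c + 1) + 1) t).mr = true := (mr_eq hT hle ht).trans S.m1
  rw [hm, if_pos rfl] at hV
  have h2 := (ht.two hk).1
  have h3 := (inh hT (k := k) (r := c + 1) hk.le (fun s h1 h2 => S.nm s h1 (by omega)) h2).2
  have e : 2 * t * 2 ^ (c + 1) = t * 2 ^ (c + 2) := by ring
  have hr := ht.mul (u := 0) hle (by positivity)
  rw [add_zero] at hr
  have h4 := (loc hT hAB (by omega) hr).zc (by rw [mr_eq hT (by omega) hr, S.m0])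
  rw [e, h4, bo_zero hT hAB S ht] at h3
  exact hV.trans h3

theorem Cn_succ (hT : Tower σ K A B) {k c : ℕ} (S : Seg σ K A k c) {t : ℕ}
    (h1 : A * 2 ^ (K - (k + (c + 2))) + 1 ≤ t) (h2 : t + 3 ≤ B * 2 ^ (K - (k + (c + 2)))) :
    Cn σ k c (t + 1) = (Cn σ k c t + 1) % 2 ^ 2 ^ c := by
  have hle := S.le
  have hp : 0 < 2 ^ c := by positivity
  have h4 : 2 ^ (c + 2) = 4 * 2 ^ c := by ring
  have hreg : ∀ j ∈ tape (2 ^ (c + 2)) t, ∃ i, j = i + 1 ∧ Reg K A B k i ∧ Reg K A B k j ∧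
      Reg K A B k (j + 1) := by
    intro j hj
    have e1 := Nat.mul_le_mul_right (2 ^ (c + 2)) h1
    have e2 := Nat.mul_le_mul_right (2 ^ (c + 2)) h2
    simp only [tape, Set.mem_Icc] at hj
    simp only [Reg, pow_split hle, ← mul_assoc]
    rw [add_mul] at e1 e2 hj
    refine ⟨j - 1, ?_⟩
    omega
  have hc := hT.chk k (by omega) (2 ^ (c + 2)) t (by omega)
    (fun j hj => by obtain ⟨i, -, -, h, -⟩ := hreg j hj; exact mem_reg.2 h)
    ⟨fun j hj => by
      obtain ⟨i, rfl, h, h', -⟩ := hreg j hj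
      exact (flags hT S h h').2.1,
    fun j hj => by
      obtain ⟨i, -, -, h, h'⟩ := hreg j hj
      exact (flags hT S h h').1,
    fun j hj => by
      obtain ⟨i, -, -, h, h'⟩ := hreg j hj
      exact (flags hT S h h').2.2⟩
  refine succ_of_pb (Cn_lt _ _ _) fun i hi => ?_
  obtain ⟨u, hu⟩ : ∃ u, u + i + 1 = 2 ^ c := ⟨2 ^ c - 1 - i, by omega⟩
  have := hc u (by omega)
  rwa [PSt.pb, b_eq hu, b_eq hu, bi_eq hT S ⟨by omega, by omega⟩ i u hu] at this

theorem Cn_add (hT : Tower σ K A B) {k c : ℕ} (S : Seg σ K A k c) {t : ℕ}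
    (h1 : A * 2 ^ (K - (k + (c + 2))) + 1 ≤ t) (s : ℕ)
    (h2 : t + s + 2 ≤ B * 2 ^ (K - (k + (c + 2)))) :
    Cn σ k c (t + s) = (Cn σ k c t + s) % 2 ^ 2 ^ c := by
  induction s with
  | zero => simp [Nat.mod_eq_of_lt (Cn_lt k c t)]
  | succ s ih =>
    rw [← add_assoc, Cn_succ hT S (by omega) (by omega), ih (by omega), Nat.mod_add_mod, add_assoc]

theorem dvd_of_z (hT : Tower σ K A B) (hAB : A + 4 ≤ B) {L r : ℕ} (hk : L + r ≤ K)
    (hn : ∀ s, 0 < s → s ≤ r → MR σ K A (L + s) = false) {t : ℕ} (ht : Reg K A B L t)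
    (hz : (σ L t).z = true) : 2 ^ (r + 1) ∣ t := by
  induction r with
  | zero =>
    have h1 := (loc hT hAB (by omega) ht).z
    rw [tpos hT (by omega) ht, hz] at h1
    have : ¬ t % 2 = 1 := by simpa using h1
    omega
  | succ r ih =>
    obtain ⟨s, hs⟩ := ih (by omega) (fun s h1 h2 => hn s h1 (by omega))
    have hr := ht.div (r := r + 1) hk
    have e : t / 2 ^ (r + 1) = s := by rw [hs, Nat.mul_div_cancel_left _ (by positivity)]
    rw [e] at hr
    have h0 := (inh hT hk hn hr).1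
    rw [mul_comm, ← hs, hz] at h0
    have h1 := (loc hT hAB hk hr).z
    rw [tpos hT hk hr, h0] at h1
    have h2 : ¬ s % 2 = 1 := by simpa using h1
    obtain ⟨s', rfl⟩ : ∃ s', s = 2 * s' := ⟨s / 2, by omega⟩
    exact ⟨s', by rw [hs]; ring⟩

theorem z_of_mark (hT : Tower σ K A B) {L h : ℕ} (h5 : 5 ≤ L) (hk : L + (h + 1) ≤ K)
    (hn : ∀ s, 0 < s → s ≤ h → MR σ K A (L + s) = false) (hm : MR σ K A (L + (h + 1)) = true)
    {j : ℕ} (hj : Reg K A B (L + (h + 1)) j) : (σ L (j * 2 ^ (h + 1))).z = true := by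
  have hk' : L + h < K := by omega
  have h2 := (hj.two hk').1
  have := (tV hT hk' hj).cd0 (by rw [cd_eq hT hk'.le h2]; omega)
    ((mr_eq hT hk hj).trans hm)
  rw [(inh hT hk'.le hn h2).1] at this
  rwa [show j * 2 ^ (h + 1) = 2 * j * 2 ^ h by ring]

theorem step (hT : Tower σ K A B) (hAB : A + 4 ≤ B) {k c c' : ℕ} (S : Seg σ K A k c)
    (h5 : 5 ≤ k + (c + 2)) (hc : c' + 2 = 2 ^ c) (hK : k + (c + 2) + (c' + 2) ≤ K) :
    Seg σ K A (k + (c + 2)) c' ∧ ∀ t, A * 2 ^ (K - (k + (c + 2))) + 1 ≤ t →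
      t + 2 ≤ B * 2 ^ (K - (k + (c + 2))) → Cn σ k c t = t % 2 ^ 2 ^ c := by
  classical
  have hz := fun {t} => z_top hT hAB S (t := t)
  have hadd := fun {t} => Cn_add hT S (t := t)
  have hlt := Cn_lt (σ := σ) k c
  have hm0 := S.m1
  rw [← hc] at hadd hlt ⊢
  generalize k + (c + 2) = L at *
  generalize Cn σ k c = I at *
  have hgap := reg_gap (K := K) hAB L
  have hN : 2 ^ (c' + 2) ≤ 2 ^ (K - L) := Nat.pow_le_pow_right (by norm_num) (by omega)
  have hN2 : 2 ≤ 2 ^ (c' + 2) := by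
    have : 0 < 2 ^ (c' + 1) := by positivity
    rw [pow_succ]; omega
  have hex : ∃ h, h < c' + 2 ∧ MR σ K A (L + (h + 1)) = true := by
    by_contra hne
    have hn : ∀ s, 0 < s → s ≤ c' + 2 → MR σ K A (L + s) = false := by
      intro s h1 h2
      obtain ⟨s, rfl⟩ : ∃ s', s = s' + 1 := ⟨s - 1, by omega⟩
      by_contra h3
      exact hne ⟨s, by omega, by simpa using h3⟩
    set a := A * 2 ^ (K - L) with ha
    have hI := hlt (a + 1)
    have e1 := hadd (t := a + 1) le_rfl (2 ^ (c' + 2) - I (a + 1)) (by omega)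
    have e2 := hadd (t := a + 1) le_rfl (2 ^ (c' + 2) - I (a + 1) + 2 ^ (c' + 2)) (by omega)
    rw [show I (a + 1) + (2 ^ (c' + 2) - I (a + 1)) = 2 ^ (c' + 2) by omega, Nat.mod_self] at e1
    rw [show I (a + 1) + (2 ^ (c' + 2) - I (a + 1) + 2 ^ (c' + 2)) = 2 * 2 ^ (c' + 2) by omega,
      Nat.mul_mod_left, ← add_assoc] at e2
    have r1 : Reg K A B L (a + 1 + (2 ^ (c' + 2) - I (a + 1))) := ⟨by omega, by omega⟩
    have r2 : Reg K A B L (a + 1 + (2 ^ (c' + 2) - I (a + 1)) + 2 ^ (c' + 2)) := ⟨by omega, by omega⟩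
    have d1 := dvd_of_z hT hAB hK hn r1 (by rw [hz r1, e1]; simp)
    have d2 := dvd_of_z hT hAB hK hn r2 (by rw [hz r2, e2]; simp)
    have d3 := Nat.le_of_dvd (by positivity) ((Nat.dvd_add_right d1).1 d2)
    rw [pow_succ _ (c' + 2)] at d3
    omega
  obtain ⟨hh, hm⟩ := Nat.find_spec hex
  have hn : ∀ s, 0 < s → s ≤ Nat.find hex → MR σ K A (L + s) = false := by
    intro s h1 h2
    obtain ⟨s, rfl⟩ : ∃ s', s = s' + 1 := ⟨s - 1, by omega⟩
    have := Nat.find_min hex (m := s) (by omega)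
    by_contra h3
    exact this ⟨by omega, by simpa using h3⟩
  generalize Nat.find hex = h at *
  have hk : L + (h + 1) ≤ K := by omega
  have hzero : ∀ j, Reg K A B (L + (h + 1)) j → I (j * 2 ^ (h + 1)) = 0 := by
    intro j hj
    have h1 := z_of_mark hT h5 hk hn hm hj
    have h2 := hj.mul (u := 0) hk (by positivity)
    rw [add_zero] at h2
    rw [hz h2] at h1
    simpa using h1
  have hgap' := reg_gap (K := K) hAB (L + (h + 1))
  have hp' : 0 < 2 ^ (K - (L + (h + 1))) := by positivity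
  have hp2 : 2 ≤ 2 ^ (h + 1) := by
    have : 0 < 2 ^ h := by positivity
    rw [pow_succ]; omega
  have ea : A * 2 ^ (K - L) = A * 2 ^ (K - (L + (h + 1))) * 2 ^ (h + 1) := by
    rw [pow_split hk, mul_assoc]
  have eb : B * 2 ^ (K - L) = B * 2 ^ (K - (L + (h + 1))) * 2 ^ (h + 1) := by
    rw [pow_split hk, mul_assoc]
  set a' := A * 2 ^ (K - (L + (h + 1))) with ha'
  have z1 := hzero (a' + 1) ⟨by omega, by omega⟩
  have z2 := hzero (a' + 2) ⟨by omega, by omega⟩
  have hb' : (a' + 4) * 2 ^ (h + 1) ≤ B * 2 ^ (K - L) := by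
    rw [eb]; exact Nat.mul_le_mul_right _ (by omega)
  rw [add_mul] at hb' z1 z2
  rw [← ea] at hb' z1 z2
  rw [one_mul] at z1
  have e := hadd (t := A * 2 ^ (K - L) + 2 ^ (h + 1)) (by omega) (2 ^ (h + 1)) (by omega)
  rw [add_assoc, ← two_mul, z1, z2, zero_add] at e
  have hle := Nat.le_of_dvd (by positivity) (Nat.dvd_of_mod_eq_zero e.symm)
  rw [Nat.pow_le_pow_iff_right (by norm_num)] at hle
  obtain rfl : h = c' + 1 := by omega
  refine ⟨⟨hK, hm0, fun r h1 h2 => hn r h1 (by omega), hm⟩, fun t h1 h2 => ?_⟩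
  have hmod : A * 2 ^ (K - L) % 2 ^ (c' + 2) = 0 := by rw [ea]; exact Nat.mul_mod_left _ _
  set a := A * 2 ^ (K - L) with ha
  obtain ⟨s, hs⟩ : ∃ s, s + 1 = 2 ^ (c' + 2) := ⟨_, Nat.sub_add_cancel Nat.one_le_two_pow⟩
  have e0 : 2 ^ (c' + 1 + 1) = 2 ^ (c' + 2) := rfl
  have e1 := hadd (t := a + 1) le_rfl s (by omega)
  rw [show a + 1 + s = a + 2 ^ (c' + 1 + 1) by omega, z1] at e1
  have hI : I (a + 1) = 1 := by
    have h3 := hlt (a + 1)
    rcases Nat.eq_zero_or_pos (I (a + 1)) with h4 | h4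
    · rw [h4, zero_add, Nat.mod_eq_of_lt (by omega)] at e1
      omega
    · rw [show I (a + 1) + s = (I (a + 1) - 1) + 2 ^ (c' + 2) by omega,
        Nat.add_mod_right, Nat.mod_eq_of_lt (by omega)] at e1
      omega
  have e2 := hadd (t := a + 1) le_rfl (t - (a + 1)) (by omega)
  rw [show a + 1 + (t - (a + 1)) = t by omega, hI] at e2
  rw [e2]
  conv_rhs => rw [show t = a + (1 + (t - (a + 1))) by omega, Nat.add_mod, hmod, zero_add,
    Nat.mod_mod]

theorem PAR_seg (hT : Tower σ K A B) (hAB : A + 4 ≤ B) {k c : ℕ} (S : Seg σ K A k c) :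
    (∀ r < c + 2, PAR σ K A (k + r) = PAR σ K A k) ∧ PAR σ K A (k + (c + 2)) = !PAR σ K A k := by
  have hle := S.le
  have h1 : ∀ r < c + 2, PAR σ K A (k + r) = PAR σ K A k := by
    intro r
    induction r with
    | zero => intro _; rfl
    | succ r ih =>
      intro hr
      have := S.nm (r + 1) (by omega) hr
      rw [← add_assoc] at this ⊢
      rw [PAR_succ hT hAB (by omega), this, ih (by omega)]
      simp
  refine ⟨h1, ?_⟩
  have := S.m1
  rw [show k + (c + 2) = k + (c + 1) + 1 by omega] at this ⊢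
  rw [PAR_succ hT hAB (by omega), this, h1 _ (by omega)]
  simp

theorem ce_eq (hT : Tower σ K A B) (hAB : A + 4 ≤ B) {k c : ℕ} (S : Seg σ K A k c) {t : ℕ}
    (ht : Reg K A B (k + (c + 2)) t) (ht' : Reg K A B (k + (c + 2)) (t + 1)) :
    ∀ i u, u + i + 1 = 2 ^ (c + 2) →
      (σ k (t * 2 ^ (c + 2) + u)).ce = decide (Cn σ k c (t + 1) = 0) := by
  have hle := S.le
  intro i
  induction i with
  | zero =>
    intro u hu
    have h := ht.mul (u := u) hle (by omega)
    have h' := ht'.mul (u := 0) hle (by positivity)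
    have e : t * 2 ^ (c + 2) + u + 1 = (t + 1) * 2 ^ (c + 2) := by rw [add_mul]; omega
    rw [add_zero, ← e] at h'
    rw [(tH hT (by omega) h h').ce (by rw [mr_eq hT (by omega) h, S.m0]), bnd_eq hT S h h',
      blk_mod (by omega), if_pos (by simpa using hu), e, bo_zero hT hAB S ht']
  | succ i ih =>
    intro u hu
    have h := ht.mul (u := u) hle (by omega)
    have h' := ht.mul (u := u + 1) hle (by omega)
    rw [(tH hT (by omega) h h').ce (by rw [mr_eq hT (by omega) h, S.m0]), bnd_eq hT S h h',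
      blk_mod (by omega), if_neg (by simp only [decide_eq_true_eq]; omega)]
    exact ih (u + 1) (by omega)

theorem seg_zero (hT : Tower σ K A B) (hAB : A + 4 ≤ B) (hK : 5 ≤ K) : Seg σ K A 0 3 := by
  have key : ∀ k < 5, (k = 4 → MR σ K A (k + 1) = true) ∧ (k < 4 → MR σ K A (k + 1) = false) := by
    intro k hk
    have h := reg_lo (K := K) hAB (k + 1)
    have hV := tV hT (by omega) h
    have hc := cd_eq hT (by omega) (h.two (by omega)).1
    exact ⟨fun e => hV.cd1 (by omega), fun e => hV.cd2 (by omega)⟩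
  refine ⟨by omega, (hT.base _ (by simpa using mem_reg.2 (reg_lo (K := K) hAB 0))).1,
    fun r h1 h2 => ?_, (key 4 (by omega)).1 rfl⟩
  obtain ⟨s, rfl⟩ : ∃ s, r = s + 1 := ⟨r - 1, by omega⟩
  rw [zero_add]
  exact (key s (by omega)).2 (by omega)

theorem seg_lv (hT : Tower σ K A B) (hAB : A + 4 ≤ B) (f : ℕ) (hK : lv (f + 1) ≤ K) :
    Seg σ K A (lv f) (gp f - 2) ∧ PAR σ K A (lv f) = decide (f % 2 = 1) := by
  induction f with
  | zero =>
    exact ⟨seg_zero hT hAB hK, (hT.base _ (mem_reg.2 (reg_lo (K := K) hAB 0))).2.1⟩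
  | succ f ih =>
    have h1 := lv_lt_succ (f + 1)
    obtain ⟨S, hp⟩ := ih (by omega)
    have g1 := gp_ge f
    have g2 := gp_ge (f + 1)
    have e : lv f + (gp f - 2 + 2) = lv (f + 1) := by rw [lv]; omega
    have e' : lv (f + 1 + 1) = lv (f + 1) + gp (f + 1) := rfl
    have e'' : gp (f + 1) = 2 ^ (gp f - 2) := rfl
    have hs := (step hT hAB S (c' := gp (f + 1) - 2) (by omega)
      (by rw [← e'']; omega) (by omega)).1
    have hp' := (PAR_seg hT hAB S).2
    rw [e] at hs hp'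
    refine ⟨hs, ?_⟩
    rw [hp', hp]
    rcases Nat.mod_two_eq_zero_or_one f with h | h
    · have : (f + 1) % 2 = 1 := by omega
      simp [h, this]
    · have : (f + 1) % 2 = 0 := by omega
      simp [h, this]

theorem Cn_lv (hT : Tower σ K A B) (hAB : A + 4 ≤ B) (f : ℕ) (hK : lv (f + 2) ≤ K) :
    ∀ t, A * 2 ^ (K - lv (f + 1)) + 1 ≤ t → t + 2 ≤ B * 2 ^ (K - lv (f + 1)) →
      Cn σ (lv f) (gp f - 2) t = t % 2 ^ gp (f + 1) := by
  have h1 : lv (f + 1) < lv (f + 2) := lv_lt_succ (f + 1)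
  have S := (seg_lv hT hAB f (by omega)).1
  have g1 := gp_ge f
  have g2 := gp_ge (f + 1)
  have e : lv f + (gp f - 2 + 2) = lv (f + 1) := by rw [lv]; omega
  have e' : lv (f + 2) = lv (f + 1) + gp (f + 1) := rfl
  have e'' : gp (f + 1) = 2 ^ (gp f - 2) := rfl
  have hs := (step hT hAB S (c' := gp (f + 1) - 2) (by omega)
    (by rw [← e'']; omega) (by omega)).2
  rw [e] at hs
  exact hs

end Det

/-- Determination of the static tower.  Rows are uniform in `mr, par, cd` (`H`).  Induction on `f`, knowing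
that for the levels `≤ lv (f+1)` exactly the `lv _` are marks (and `par`, `cd`, and `z` below `lv (f+1)`):
`up`/`zn` on the levels `[lv f, lv (f+1))` follow top-down (`V.up` for child 0, `H.up` for its sibling); hence
`df, dl, hm` on row `lv f` for all cells having both neighbours in the region.  With `n = gp (f+1)` let `I t`
be the number with big-endian bits `b` on the first `n` cells of block `t`; the borrow chain gives
`pb` = bits of `I t - 1 mod 2^n`, `bo (first cell) ↔ I t = 0`; `chk` gives `I (t+1) = I t + 1 mod 2^n` for all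
blocks except the outermost ones; `z` of the level-`lv (f+1)` node `t` is `I t = 0` (`V.zc`, `V.z`, `Loc.zc`)
and is inherited by non-mark ancestors along child 0.  If `I t₀ = 0` then `pos = true → z = false` forces
`2^(r+1) ∣ t₀` as long as the heights `1..r` are non-marks; applied to `t₀` and `t₀ + 2^n` this gives a mark
at some height `h ≤ n`; `V.cd0` for two adjacent nodes of that height gives `2^n ∣ 2^h`.  So `h = n` and
`I t = t mod 2^n`. -/
theorem det {σ : ℕ → ℕ → PSt} {K A B e : ℕ} (hT : Tower σ K A B) (hK : lv (e + 2) ≤ K)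
    (hAB : A + 4 ≤ B) {f r : ℕ} (hf : f ≤ e) (hr : r < gp f) :
    ∀ j ∈ spn (K - (lv f + r)) (Set.Ico (A + 1) (B - 1)), σ (lv f + r) j = spec f r j := by
  intro j hj
  have hj' : Det.Reg K (A + 1) (B - 1) (lv f + r) j := Det.mem_reg.1 hj
  have hK2 : lv (f + 2) ≤ K := (lv_strictMono.monotone (by omega)).trans hK
  have h12 : lv (f + 1) < lv (f + 2) := lv_lt_succ (f + 1)
  have g1 := gp_ge f
  have g2 := gp_ge (f + 1)
  obtain ⟨S, hpar⟩ := Det.seg_lv hT hAB f (by omega)
  have hC := Det.Cn_lv hT hAB f hK2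
  have e1 : lv (f + 1) = lv f + gp f := rfl
  have e2 : lv (f + 2) = lv (f + 1) + gp (f + 1) := rfl
  have e3 : gp (f + 1) = 2 ^ (gp f - 2) := rfl
  obtain ⟨c, hc⟩ : ∃ c, gp f = c + 2 := ⟨gp f - 2, by omega⟩
  rw [hc, Nat.add_sub_cancel] at S hC e3
  obtain ⟨d, hd⟩ : ∃ d, r + d = c + 2 := ⟨c + 2 - r, by omega⟩
  have hd0 : 0 < d := by omega
  have hdd : gp f - r = d := by omega
  have hle := S.le
  have hlr : lv f + r ≤ K := by omega
  have sub : ∀ {k i}, Det.Reg K (A + 1) (B - 1) k i →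
      A * 2 ^ (K - k) + 2 ^ (K - k) ≤ i ∧ i + 2 ^ (K - k) < B * 2 ^ (K - k) := by
    intro k i h
    obtain ⟨B', rfl⟩ : ∃ B', B = B' + 1 := ⟨B - 1, by omega⟩
    simp only [Det.Reg, Nat.add_sub_cancel, add_mul, one_mul] at h ⊢
    omega
  have sub' : ∀ {k i}, Det.Reg K (A + 1) (B - 1) k i → Det.Reg K A B k i := by
    intro k i h
    have := sub h
    have hp : 0 < 2 ^ (K - k) := by positivity
    exact ⟨by omega, by omega⟩
  have hjr := sub' hj'
  -- the block
  have ht' : Det.Reg K (A + 1) (B - 1) (lv f + (c + 2)) (j / 2 ^ d) := by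
    have := hj'.div (r := d) (by omega)
    rwa [add_assoc, hd] at this
  have hP : 2 ≤ 2 ^ (K - (lv f + (c + 2))) := by
    calc 2 = 2 ^ 1 := rfl
      _ ≤ _ := Nat.pow_le_pow_right (by norm_num) (by omega)
  have htb := sub ht'
  have ht := sub' ht'
  have ht1 : Det.Reg K A B (lv f + (c + 2)) (j / 2 ^ d + 1) := ⟨by omega, by omega⟩
  rw [e1, hc] at hC
  have hC0 := hC (j / 2 ^ d) (by omega) (by omega)
  have hC1 := hC (j / 2 ^ d + 1) (by omega) (by omega)
  have hu : j % 2 ^ d < 2 ^ d := Nat.mod_lt _ (by positivity)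
  have hm : 2 ^ (c + 2) = 2 ^ d * 2 ^ r := by rw [← pow_add, ← hd, add_comm]
  have hur : j % 2 ^ d * 2 ^ r < 2 ^ (c + 2) := by
    rw [hm]; exact Nat.mul_lt_mul_of_pos_right hu (by positivity)
  have hj0 : j * 2 ^ r = j / 2 ^ d * 2 ^ (c + 2) + j % 2 ^ d * 2 ^ r := by
    rw [hm, ← mul_assoc, ← add_mul, Nat.div_add_mod']
  have hinh := Det.inh hT hlr (fun s h1 h2 => S.nm s h1 (by omega)) hjr
  have hreg0 : Det.Reg K A B (lv f) (j * 2 ^ r) := by
    simpa using hjr.mul (u := 0) hlr (by positivity)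
  have hzc : (σ (lv f + r) j).zc = (spec f r j).zc := by
    rw [hinh.2, (Det.loc hT hAB (by omega) hreg0).zc (by rw [Det.mr_eq hT (by omega) hreg0, S.m0]),
      hj0, Det.bo_eq hT hAB S ht hur, hC0]
    simp only [spec, hdd, e3]
  have hz : (σ (lv f + r) j).z = (spec f r j).z := by
    rw [hinh.1]
    simp only [spec, hdd]
    rcases f with _ | g
    · exact (hT.base _ (Det.mem_reg.2 hreg0)).2.2.2.trans (by simp)
    · have g0 := gp_ge g
      have S' := (Det.seg_lv hT hAB g (by omega)).1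
      have e4 : lv g + (gp g - 2 + 2) = lv (g + 1) := by rw [lv]; omega
      have hz := Det.z_top hT hAB S' (t := j * 2 ^ r) (by rwa [e4])
      have h0' : Det.Reg K (A + 1) (B - 1) (lv (g + 1)) (j * 2 ^ r) := by
        simpa using hj'.mul (u := 0) hlr (by positivity)
      have h0 := sub h0'
      have hp : 0 < 2 ^ (K - lv (g + 1)) := by positivity
      rw [e4, Det.Cn_lv hT hAB g (h12.le.trans hK2) _ (by omega) (by omega), hc, hj0,
        Det.blk_mod hur] at hz
      rw [hj0, hz]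
      simp
  have hmr : (σ (lv f + r) j).mr = decide (r = 0) := by
    rw [Det.mr_eq hT hlr hjr]
    rcases Nat.eq_zero_or_pos r with rfl | h
    · simpa using S.m0
    · rw [S.nm r h (by omega)]; simp; omega
  have hloc := Det.loc hT hAB hlr hjr
  have hrest : (σ (lv f + r) j).b = (spec f r j).b ∧ (σ (lv f + r) j).bi = (spec f r j).bi ∧
      (σ (lv f + r) j).ce = (spec f r j).ce ∧ (σ (lv f + r) j).df = (spec f r j).df ∧
      (σ (lv f + r) j).dl = (spec f r j).dl ∧ (σ (lv f + r) j).hm = (spec f r j).hm := by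
    rcases Nat.eq_zero_or_pos r with rfl | h
    · obtain rfl : d = c + 2 := by omega
      simp only [add_zero, pow_zero, mul_one] at *
      have hs := sub hj'
      have hp : 0 < 2 ^ (K - lv f) := by positivity
      have hfl := Det.flags hT S hjr ⟨by omega, by omega⟩
      have hdf : (σ (lv f) j).df = decide (j % 2 ^ (c + 2) = 0) := by
        obtain ⟨i, rfl⟩ : ∃ i, j = i + 1 := ⟨j - 1, by omega⟩
        exact (Det.flags hT S (j := i) ⟨by omega, by omega⟩ hjr).2.1
      have hce := Det.ce_eq hT hAB S ht ht1 (2 ^ (c + 2) - 1 - j % 2 ^ (c + 2)) (j % 2 ^ (c + 2))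
        (by omega)
      rw [← hj0, hC1] at hce
      have hcases := Det.succ_mod_cases (show 0 < 2 ^ gp (f + 1) by positivity) (j / 2 ^ (c + 2))
      have hbb : (σ (lv f) j).b = (spec f 0 j).b ∧ (σ (lv f) j).bi = (spec f 0 j).bi := by
        by_cases hun : j % 2 ^ (c + 2) < 2 ^ c
        · have hi : j % 2 ^ (c + 2) + (2 ^ c - 1 - j % 2 ^ (c + 2)) + 1 = 2 ^ c := by omega
          have hb := Det.b_eq (σ := σ) (k := lv f) (t := j / 2 ^ (c + 2)) hi
          have hbi := Det.bi_eq hT S ht _ _ hi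
          rw [← hj0, hC0] at hb hbi
          rw [hb, hbi]
          simp only [spec, Nat.sub_zero, hc, e3, hun, true_and, decide_true, Bool.true_and,
            and_self]
        · have := hloc.y (by rw [Det.zn_ff hT S hjr]; tauto)
          rw [this.1, this.2]
          simp only [spec, Nat.sub_zero, hc, e3, hun, false_and, and_false, decide_false,
            Bool.false_and, and_self]
      refine ⟨hbb.1, hbb.2, ?_, ?_, ?_, ?_⟩
      · rw [hce]
        simp only [spec, Nat.sub_zero, hc, true_and, decide_eq_decide]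
        omega
      · rw [hdf]
        simp only [spec, Nat.sub_zero, hc, true_and]
      · rw [hfl.1]
        simp only [spec, Nat.sub_zero, hc, true_and]
      · rw [hfl.2.2, show 2 ^ (c + 2) / 2 = 2 ^ (c + 1) by rw [pow_succ _ (c + 1)]; omega]
        simp only [spec, Nat.sub_zero, hc, true_and]
        rfl
    · have hr0 : r ≠ 0 := by omega
      have hm0 : (σ (lv f + r) j).mr = false := by rw [hmr]; simpa using hr0
      have h1 := hloc.y (by simp [hm0])
      have h2 := hloc.nm hm0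
      simp [spec, hr0, h1, h2]
  refine PSt.ext (Det.tpos hT hlr hjr) hmr ?_ ?_ ?_ hrest.1 hrest.2.1 hzc hz hrest.2.2.1
    hrest.2.2.2.1 hrest.2.2.2.2.1 hrest.2.2.2.2.2
  · rw [Det.par_eq hT hlr hjr, (Det.PAR_seg hT hAB S).1 r (by omega), hpar]
    rfl
  · apply Fin.ext
    rw [Det.cd_eq hT hlr hjr]
    rcases f with _ | g
    · simp [spec, lv]
    · have : lv (0 + 1) ≤ lv (g + 1) := lv_strictMono.monotone (by omega)
      have e5 : lv (0 + 1) = 5 := rfl
      simp only [spec, Nat.add_one_ne_zero, if_false, Fin.val_zero]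
      omega
  · rw [Det.up_eq hT S hd hd0 hjr]
    simp only [spec, hdd]

end Crest.Agent.R176
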