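import Crest.Agent.R176.PDef

/-! Row 176: the explicit static tower satisfies all static checks. -/

set_option autoImplicit false

namespace Crest.Agent.R176

theorem gp_ge (f : ℕ) : 5 ≤ gp f := by
  induction f with
  | zero => simp [gp]
  | succ f ih =>
    have : 2 ^ 3 ≤ 2 ^ (gp f - 2) := Nat.pow_le_pow_right (by norm_num) (by omega)
    simp only [gp]
    omega

theorem four_mul_gp (f : ℕ) : 4 * gp (f + 1) = 2 ^ gp f := by
  have h := gp_ge f
  obtain ⟨k, hk⟩ : ∃ k, gp f = k + 2 := ⟨gp f - 2, by omega⟩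
  simp only [gp, hk, Nat.add_sub_cancel, pow_add]
  ring

theorem lv_lt_succ (f : ℕ) : lv f < lv (f + 1) := by
  have := gp_ge f
  simp only [lv]
  omega

theorem lv_strictMono : StrictMono lv := strictMono_nat_of_lt_succ lv_lt_succ

theorem exists_level (k : ℕ) : ∃ f r, r < gp f ∧ k = lv f + r := by
  induction k with
  | zero => exact ⟨0, 0, by simp [gp], by simp [lv]⟩
  | succ k ih =>
    obtain ⟨f, r, h, e⟩ := ih
    by_cases hr : r + 1 < gp f
    · exact ⟨f, r + 1, hr, by omega⟩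
    · exact ⟨f + 1, 0, by have := gp_ge (f + 1); omega, by simp only [lv]; omega⟩

theorem level_unique {f r f' r' : ℕ} (h : r < gp f) (h' : r' < gp f') (e : lv f + r = lv f' + r') :
    f = f' ∧ r = r' := by
  rcases lt_trichotomy f f' with hf | hf | hf
  · have := lv_strictMono.monotone (Nat.succ_le_of_lt hf)
    simp only [lv] at this
    omega
  · subst hf
    exact ⟨rfl, by omega⟩
  · have := lv_strictMono.monotone (Nat.succ_le_of_lt hf)
    simp only [lv] at this
    omega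

theorem ps_pow_ge (k : ℕ) : 3 * (k + 8) + 1 ≤ 2 ^ (k + 6) := by
  induction k with
  | zero => norm_num
  | succ k ih =>
    rw [show k + 1 + 6 = k + 6 + 1 from rfl, pow_succ]
    omega

theorem ps_gp_ge (f : ℕ) : 8 ≤ gp (f + 1) := by
  have := gp_ge f
  have : 2 ^ 3 ≤ 2 ^ (gp f - 2) := Nat.pow_le_pow_right (by norm_num) (by omega)
  simp only [gp]
  omega

theorem ps_growth (f : ℕ) : 2 * lv (f + 2) + (f + 2) ≤ gp (f + 2) := by
  induction f with
  | zero => decide
  | succ f ih =>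
    obtain ⟨k, hk⟩ : ∃ k, gp (f + 2) = k + 8 := ⟨gp (f + 2) - 8, by have : 8 ≤ gp (f + 2) := ps_gp_ge (f + 1); omega⟩
    have h1 := ps_pow_ge k
    have h2 : gp (f + 1 + 2) = 2 ^ (k + 6) := by
      change 2 ^ (gp (f + 2) - 2) = _
      rw [hk]; rfl
    have h3 : lv (f + 1 + 2) = lv (f + 2) + gp (f + 2) := rfl
    omega

/-- growth: the gaps dominate the levels -/
theorem exists_odd_gap (c : ℕ) : ∃ f, f % 2 = 1 ∧ 3 ≤ f ∧ 2 * lv f + c ≤ gp f := by
  have := ps_growth (2 * c + 1)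
  exact ⟨2 * c + 1 + 2, by omega, by omega, by omega⟩

theorem ps_two_mul_gp (f : ℕ) : 2 ^ (gp f - 1) = 2 * gp (f + 1) := by
  have h := gp_ge f
  obtain ⟨k, hk⟩ : ∃ k, gp f = k + 2 := ⟨gp f - 2, by omega⟩
  simp only [gp, hk, Nat.add_sub_cancel]
  rw [show k + 2 - 1 = k + 1 from rfl, pow_succ]
  ring

theorem ps_mod_succ (x k : ℕ) : x % 2 ^ (k + 1) = 0 ↔ x % 2 ^ k = 0 ∧ x.testBit k = false := by
  rw [Nat.mod_pow_succ, Nat.testBit_eq_decide_div_mod_eq]
  have h : 0 < 2 ^ k := by positivity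
  rcases Nat.mod_two_eq_zero_or_one (x / 2 ^ k) with h1 | h1 <;> simp [h1]

theorem ps_testBit_pred (q k : ℕ) :
    q.testBit k = xor ((q + 1).testBit k) (decide ((q + 1) % 2 ^ k = 0)) := by
  rw [Nat.testBit_eq_decide_div_mod_eq, Nat.testBit_eq_decide_div_mod_eq, Nat.succ_div]
  by_cases h : 2 ^ k ∣ q + 1
  · rw [if_pos h, decide_eq_true (Nat.mod_eq_zero_of_dvd h)]
    rcases Nat.mod_two_eq_zero_or_one (q / 2 ^ k) with h1 | h1 <;> simp [h1, Nat.add_mod]
  · rw [if_neg h, decide_eq_false (fun h' => h (Nat.dvd_of_mod_eq_zero h'))]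
    simp

theorem ps_succ_mod (q M : ℕ) (hM : 0 < M) : q % M + 1 = M ↔ (q + 1) % M = 0 := by
  have h := Nat.mod_lt q hM
  have e : (q + 1) % M = (q % M + 1) % M := by simp
  rw [e]
  constructor
  · intro h1; rw [h1]; simp
  · intro h1
    by_contra h2
    rw [Nat.mod_eq_of_lt (by omega)] at h1
    omega

theorem ps_succ_cases (j D : ℕ) (hD : 0 < D) :
    (j % D + 1 = D ∧ (j + 1) % D = 0 ∧ (j + 1) / D = j / D + 1) ∨
    (j % D + 1 < D ∧ (j + 1) % D = j % D + 1 ∧ (j + 1) / D = j / D) := by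
  have h := Nat.mod_lt j hD
  by_cases h1 : j % D + 1 = D
  · have h2 := (ps_succ_mod j D hD).1 h1
    refine Or.inl ⟨h1, h2, ?_⟩
    rw [Nat.succ_div, if_pos (Nat.dvd_of_mod_eq_zero h2)]
  · have h2 : (j + 1) % D ≠ 0 := fun h' => h1 ((ps_succ_mod j D hD).2 h')
    refine Or.inr ⟨by omega, ?_, ?_⟩
    · have e : (j + 1) % D = (j % D + 1) % D := by simp
      rw [e, Nat.mod_eq_of_lt (by omega)]
    · rw [Nat.succ_div, if_neg (fun h' => h2 (Nat.mod_eq_zero_of_dvd h'))]
      rfl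

theorem ps_mod_two (j : ℕ) {d : ℕ} (hd : 1 ≤ d) : j % 2 ^ d % 2 = j % 2 :=
  Nat.mod_mod_of_dvd _ (dvd_pow_self 2 (by omega))

theorem spec_zn {f r : ℕ} (h : 2 ≤ gp f - r) (j : ℕ) : (spec f r j).zn =
    .q (decide (j % 2 ^ (gp f - r) / 2 ^ (gp f - r - 1) = 1))
      (decide (j % 2 ^ (gp f - r) / 2 ^ (gp f - r - 2) % 2 = 1)) := by
  by_cases h2 : gp f - r = 2
  · have := ps_mod_two j (d := 2) (by norm_num)
    simp only [PSt.zn, spec, h2]
    simp only [show (2 : ℕ) ≠ 1 by norm_num, if_false, if_true]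
    simp only [show 2 - 1 = 1 from rfl, Nat.sub_self, pow_one, pow_zero, Nat.div_one, this]
  · simp only [PSt.zn, spec, if_neg h2, if_neg (show gp f - r ≠ 1 by omega)]

theorem spec_zn0 (f j : ℕ) : (spec f 0 j).zn =
    .q (decide (2 * gp (f + 1) ≤ j % 2 ^ gp f))
      (decide ((gp (f + 1) ≤ j % 2 ^ gp f ∧ j % 2 ^ gp f < 2 * gp (f + 1)) ∨
        3 * gp (f + 1) ≤ j % 2 ^ gp f)) := by
  have h5 := gp_ge f
  rw [spec_zn (by omega)]
  simp only [Zn.q.injEq, decide_eq_decide, Nat.sub_zero]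
  rw [ps_two_mul_gp, show 2 ^ (gp f - 2) = gp (f + 1) from rfl]
  have hu : j % 2 ^ gp f < 4 * gp (f + 1) := by
    rw [four_mul_gp]; exact Nat.mod_lt _ (by positivity)
  generalize j % 2 ^ gp f = u at hu
  have hn := ps_gp_ge f
  generalize gp (f + 1) = n at hu hn
  have hn0 : 0 < n := by omega
  have e1 : u / (2 * n) = 1 ↔ 2 * n ≤ u := by
    rw [Nat.div_eq_iff (by omega)]
    omega
  have e2 : u / n % 2 = 1 ↔ (n ≤ u ∧ u < 2 * n) ∨ 3 * n ≤ u := by
    have a1 : u / n < 4 := (Nat.div_lt_iff_lt_mul hn0).2 hu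
    have a2 := Nat.div_add_mod u n
    have a3 := Nat.mod_lt u hn0
    generalize u / n = c at a1 a2
    interval_cases c <;> omega
  exact ⟨e1, e2⟩

theorem spec_zn_ff (f j : ℕ) : (spec f 0 j).zn = .q false false ↔ j % 2 ^ gp f < gp (f + 1) := by
  rw [spec_zn0]
  simp only [Zn.q.injEq, decide_eq_false_iff_not]
  omega

theorem spec_zn_ft (f j : ℕ) : (spec f 0 j).zn = .q false true ↔
    gp (f + 1) ≤ j % 2 ^ gp f ∧ j % 2 ^ gp f < 2 * gp (f + 1) := by
  rw [spec_zn0]
  simp only [Zn.q.injEq, decide_eq_false_iff_not, decide_eq_true_eq]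
  omega

theorem spec_zn_tt (f j : ℕ) : (spec f 0 j).zn = .q true true ↔ 3 * gp (f + 1) ≤ j % 2 ^ gp f := by
  rw [spec_zn0]
  simp only [Zn.q.injEq, decide_eq_true_eq]
  omega

theorem spec_zn_tf (f j : ℕ) : (spec f 0 j).zn = .q true false ↔
    2 * gp (f + 1) ≤ j % 2 ^ gp f ∧ j % 2 ^ gp f < 3 * gp (f + 1) := by
  rw [spec_zn0]
  simp only [Zn.q.injEq, decide_eq_false_iff_not, decide_eq_true_eq]
  omega

theorem spec_bo0 (f j : ℕ) : (spec f 0 j).bo = decide (j % 2 ^ gp f < gp (f + 1) ∧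
    j / 2 ^ gp f % 2 ^ gp (f + 1) % 2 ^ (gp (f + 1) - j % 2 ^ gp f) = 0) := by
  simp only [PSt.bo, spec, Nat.sub_zero, true_and]
  by_cases hu : j % 2 ^ gp f < gp (f + 1)
  · rw [show gp (f + 1) - j % 2 ^ gp f = gp (f + 1) - 1 - j % 2 ^ gp f + 1 by omega]
    simp only [ps_mod_succ, hu, true_and, decide_true, Bool.true_and]
    cases (j / 2 ^ gp f % 2 ^ gp (f + 1)).testBit (gp (f + 1) - 1 - j % 2 ^ gp f) <;> simp
  · simp [hu]

theorem spec_Loc {f r : ℕ} (h : r < gp f) (j : ℕ) : (spec f r j).Loc := by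
  refine ⟨fun hy => ?_, fun hm => ?_, fun hm => ?_, fun hp => ?_⟩
  · by_cases hr : r = 0
    · subst hr
      rw [spec_zn_ff] at hy
      have : ¬ j % 2 ^ gp f < gp (f + 1) := fun h' => hy ⟨by simp [spec], h'⟩
      simp [spec, this]
    · simp [spec, hr]
  · have hr : r ≠ 0 := by simpa [spec] using hm
    simp [spec, hr]
  · have hr : r = 0 := by simpa [spec] using hm
    subst hr
    rw [spec_bo0]
    simp [spec]
  · have h1 : j % 2 = 1 := by simpa [spec] using hp
    have h2 := ps_mod_two j (d := gp f - r) (by omega)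
    have h3 : j % 2 ^ (gp f - r) ≠ 0 := by omega
    simp [spec, h3]

theorem spec_bnd (f j : ℕ) :
    PSt.bnd (spec f 0 j) (spec f 0 (j + 1)) = decide (j % 2 ^ gp f + 1 = 2 ^ gp f) := by
  unfold PSt.bnd
  simp only [spec_zn_tt, spec_zn_ff]
  have h4 := four_mul_gp f
  have hn := ps_gp_ge f
  have := ps_succ_cases j (2 ^ gp f) (by positivity)
  rw [decide_eq_decide]
  omega

theorem ps_succ_div {u k : ℕ} (hu : u % 2 = 0) (hk : 1 ≤ k) : (u + 1) / 2 ^ k = u / 2 ^ k := by
  rw [Nat.succ_div, if_neg]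
  · rfl
  · intro h
    have := (dvd_pow_self 2 (show k ≠ 0 by omega)).trans h
    omega

theorem spec_OKH {f r : ℕ} (h : r < gp f) (j : ℕ) : (spec f r j).OKH (spec f r (j + 1)) := by
  have hmr : (spec f r j).mr = true → r = 0 := fun hm => by simpa [spec] using hm
  have h4 := four_mul_gp f
  have hn := ps_gp_ge f
  have hc := ps_succ_cases j (2 ^ gp f) (by positivity)
  refine ⟨spec_Loc h j, spec_Loc h (j + 1), ?_, rfl, rfl, rfl, fun hp => ?_, fun hm => ?_,
    fun hm => ?_, fun hm => ?_, fun hm => ?_, fun hm hz => ?_⟩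
  · simp only [spec, ne_eq, decide_eq_decide]
    omega
  · have h1 : j % 2 = 0 := by
      have : ¬ j % 2 = 1 := by simpa [spec] using hp
      omega
    have h2 := ps_mod_two j (d := gp f - r) (by omega)
    have h3 := ps_mod_two (j + 1) (d := gp f - r) (by omega)
    have h5 : (j + 1) % 2 ^ (gp f - r) = j % 2 ^ (gp f - r) + 1 := by
      have := ps_succ_cases j (2 ^ (gp f - r)) (by positivity)
      omega
    simp only [spec, h5]
    split_ifs with a b
    · rfl
    · rw [show (j % 2 ^ (gp f - r) + 1) / 2 = j % 2 ^ (gp f - r) / 2 by omega]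
    · rw [ps_succ_div (by omega) (by omega), ps_succ_div (by omega) (by omega)]
  · obtain rfl := hmr hm
    rw [spec_bnd]
    simp [spec]
  · obtain rfl := hmr hm
    rw [spec_bnd]
    simp only [spec, Nat.sub_zero, true_and, decide_eq_decide]
    omega
  · obtain rfl := hmr hm
    simp only [spec_zn_ft, spec_zn_tf]
    simp only [spec, Nat.sub_zero, true_and, decide_eq_decide, ps_two_mul_gp]
    omega
  · obtain rfl := hmr hm
    rw [spec_bnd, spec_bo0]
    rcases hc with ⟨a, b, c⟩ | ⟨a, b, c⟩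
    · rw [if_pos (decide_eq_true a), b, c]
      simp only [spec, Nat.sub_zero, true_and, decide_eq_decide, Nat.mod_mod]
      rw [ps_succ_mod _ _ (by positivity)]
      exact ⟨fun h' => ⟨by omega, h'⟩, fun h' => h'.2⟩
    · rw [if_neg (by simp only [decide_eq_true_eq]; omega)]
      simp only [spec, Nat.sub_zero, c]
  · obtain rfl := hmr hm
    rw [spec_zn_ff] at hz
    simp only [spec_zn_ff, spec_bo0]
    rcases hc with ⟨a, b, c⟩ | ⟨a, b, c⟩
    · omega
    · rw [b, c]
      simp only [spec, Nat.sub_zero, true_and, hz]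
      split_ifs with h1
      · rw [show gp (f + 1) - 1 - j % 2 ^ gp f = gp (f + 1) - (j % 2 ^ gp f + 1) by omega]
        simp [h1]
      · rw [show gp (f + 1) - 1 - j % 2 ^ gp f = 0 by omega]
        simp [Nat.mod_one]

theorem spec_OKV {f r : ℕ} (h : r + 1 < gp f) (j : ℕ) : (spec f r (2 * j)).OKV (spec f (r + 1) j) := by
  obtain ⟨e, he⟩ : ∃ e, gp f - (r + 1) = e + 1 := ⟨gp f - (r + 1) - 1, by omega⟩
  have he' : gp f - r = e + 2 := by omega
  have hu : 2 * j % 2 ^ (e + 2) = 2 * (j % 2 ^ (e + 1)) := by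
    rw [pow_succ' 2 (e + 1), Nat.mul_mod_mul_left]
  have hq : 2 * j / 2 ^ (e + 2) = j / 2 ^ (e + 1) := by
    rw [pow_succ' 2 (e + 1), Nat.mul_div_mul_left _ _ (by norm_num)]
  have hmr : (spec f (r + 1) j).mr = false := by simp [spec]
  refine ⟨?_, ?_, fun h1 => ?_, fun _ => hmr, fun _ h1 => ?_, ?_, ?_, fun _ => ?_⟩
  · rw [hmr, if_neg (by simp)]
    rcases e with _ | e
    · simp only [PSt.zn, spec, he, he', hu]
      simp
    · rw [spec_zn (by omega)]
      simp only [spec, he, he', hu]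
      rw [if_neg (by omega), if_neg (by omega)]
      rw [show e + 1 + 2 - 1 = e + 1 + 1 from rfl, show e + 1 + 2 - 2 = e + 1 from rfl,
        show e + 1 + 1 - 1 = e + 1 from rfl, show e + 1 + 1 - 2 = e from rfl,
        pow_succ' 2 (e + 1), Nat.mul_div_mul_left _ _ (by norm_num : 0 < 2),
        pow_succ' 2 e, Nat.mul_div_mul_left _ _ (by norm_num : 0 < 2)]
  · simp only [spec]
    split_ifs
    · simp only; omega
    · rfl
  · exfalso
    simp only [spec] at h1
    split_ifs at h1 with h0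
    · subst h0
      simp only [gp] at h h1
      omega
    · simp at h1
  · rw [hmr] at h1; exact absurd h1 (by simp)
  · rw [hmr]; simp [spec]
  · rw [hmr, if_neg (by simp)]
    simp only [spec, he, he', hu, decide_eq_decide]
    omega
  · simp only [spec, he, he', hu, hq]
    rw [show 2 * (j % 2 ^ (e + 1)) * 2 ^ r = j % 2 ^ (e + 1) * 2 ^ (r + 1) by ring]

theorem spec_OKV' {f r : ℕ} (h : r + 1 = gp f) (j : ℕ) :
    (spec f r (2 * j)).OKV (spec (f + 1) 0 j) := by
  have he : gp f - r = 1 := by omega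
  have hn := ps_gp_ge f
  have hmr : (spec (f + 1) 0 j).mr = true := by simp [spec]
  have hcd : (spec f r (2 * j)).cd.val = if f = 0 then 1 else 0 := by
    simp only [spec]
    split_ifs with h0
    · subst h0
      simp only [gp] at h
      simp only
      omega
    · rfl
  refine ⟨?_, ?_, fun _ => hmr, fun h1 => ?_, fun h1 _ => ?_, ?_, ?_, fun h1 => ?_⟩
  · rw [hmr]; simp [spec, he]
  · rw [hcd]
    split_ifs <;> simp [spec]
  · rw [hcd] at h1
    split_ifs at h1 <;> omega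
  · rw [hcd] at h1
    have : f ≠ 0 := fun h0 => by simp [h0] at h1
    simp [spec, he, this]
  · rw [hmr]
    simp only [spec]
    rcases Nat.mod_two_eq_zero_or_one f with h1 | h1 <;> simp [h1, Nat.add_mod]
  · rw [hmr, if_pos rfl]
    simp only [spec, he, pow_one, Nat.mul_mod_right, zero_mul, Nat.sub_zero,
      Nat.mul_div_cancel_left _ (by norm_num : 0 < 2), Nat.mod_mod, decide_eq_decide]
    omega
  · rw [hmr] at h1; exact absurd h1 (by simp)

theorem spec_OKB (j : ℕ) : (spec 0 0 j).OKB := by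
  simp [PSt.OKB, spec]

/-- the counter of a block is the predecessor of the counter of the next block -/
theorem spec_chk (f j : ℕ) : (spec f 0 j).b = (spec f 0 (j + 2 ^ gp f)).pb := by
  simp only [PSt.pb, spec, Nat.sub_zero, true_and, Nat.add_mod_right,
    Nat.add_div_right _ (by positivity : 0 < 2 ^ gp f)]
  by_cases hu : j % 2 ^ gp f < gp (f + 1)
  · have hk : gp (f + 1) - 1 - j % 2 ^ gp f < gp (f + 1) := by omega
    simp only [hu, decide_true, Bool.true_and, true_and, Nat.testBit_mod_two_pow, hk,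
      Nat.mod_mod_of_dvd _ (pow_dvd_pow 2 hk.le)]
    exact ps_testBit_pred _ _
  · simp [hu]

theorem spec_IF (f : ℕ) (S : Set ℕ) : IF (2 ^ gp f) S (spec f 0) := by
  refine ⟨fun j _ => by simp [spec], fun j _ => by simp [spec], fun j _ => ?_⟩
  have h4 := four_mul_gp f
  simp only [spec, Nat.sub_zero, true_and, decide_eq_decide, ps_two_mul_gp]
  omega

theorem spec_zn_X (f j : ℕ) : (spec f 0 j).zn = .q true false ↔
    2 * gp (f + 1) ≤ j % 2 ^ gp f ∧ j % 2 ^ gp f < 3 * gp (f + 1) := spec_zn_tf f j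

theorem spec_ce (f j : ℕ) : (spec f 0 j).ce = true ↔ (j / 2 ^ gp f + 1) % 2 ^ gp (f + 1) = 0 := by
  simp only [spec, Nat.sub_zero, true_and, decide_eq_true_eq]
  exact ps_succ_mod _ _ (by positivity)

theorem spec_bo (f t : ℕ) : (spec f 0 (t * 2 ^ gp f)).bo = true ↔ t % 2 ^ gp (f + 1) = 0 := by
  have hn := ps_gp_ge f
  rw [spec_bo0]
  simp only [Nat.mul_mod_left, Nat.sub_zero, Nat.mod_mod, decide_eq_true_eq,
    Nat.mul_div_cancel _ (by positivity : 0 < 2 ^ gp f)]
  omega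

theorem ps_period (j t d n : ℕ) : (j + t * 2 ^ (d + n)) % 2 ^ d = j % 2 ^ d ∧
    (j + t * 2 ^ (d + n)) / 2 ^ d % 2 ^ n = j / 2 ^ d % 2 ^ n := by
  rw [show t * 2 ^ (d + n) = t * 2 ^ n * 2 ^ d by ring]
  exact ⟨Nat.add_mul_mod_self_right _ _ _, by
    rw [Nat.add_mul_div_right _ _ (by positivity), Nat.add_mul_mod_self_right]⟩

/-- periodicity with the container as period -/
theorem spec_period {f r : ℕ} (h : r < gp f) (j t : ℕ) :
    spec f r (j + t * 2 ^ (gp f - r + gp (f + 1))) = spec f r j := by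
  obtain ⟨h1, h2⟩ := ps_period j t (gp f - r) (gp (f + 1))
  have h3 : (j + t * 2 ^ (gp f - r + gp (f + 1))) % 2 = j % 2 := by
    rw [← ps_mod_two _ (d := gp f - r) (by omega), h1, ps_mod_two _ (by omega)]
  simp only [spec, h1, h2, h3]

/-- outside the counter zone all blocks but the last one of a container look the same -/
theorem spec_block {f r : ℕ} (h : r < gp f) {u t : ℕ} (hu : u < 2 ^ (gp f - r))
    (hY : gp (f + 1) ≤ u * 2 ^ r) (ht : (t + 1) % 2 ^ gp (f + 1) ≠ 0) :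
    spec f r (u + t * 2 ^ (gp f - r)) = spec f r u := by
  have hn := ps_gp_ge f
  have h0 : u % 2 ^ (gp f - r) = u := Nat.mod_eq_of_lt hu
  have h1 : (u + t * 2 ^ (gp f - r)) % 2 ^ (gp f - r) = u := by
    rw [Nat.add_mul_mod_self_right, h0]
  have h2 : (u + t * 2 ^ (gp f - r)) / 2 ^ (gp f - r) = t := by
    rw [Nat.add_mul_div_right _ _ (by positivity), Nat.div_eq_of_lt hu, zero_add]
  have h3 : (u + t * 2 ^ (gp f - r)) % 2 = u % 2 := by
    rw [← ps_mod_two _ (d := gp f - r) (by omega), h1]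
  have h4 : ¬ u * 2 ^ r < gp (f + 1) := by omega
  have h5 : ¬ (r = 0 ∧ u < gp (f + 1)) := by
    rintro ⟨rfl, h'⟩
    simp at h4
    omega
  have h6 : ∀ p : Prop, ¬ (r = 0 ∧ u < gp (f + 1) ∧ p) := fun p h' => h5 ⟨h'.1, h'.2.1⟩
  have h7 : ¬ (t % 2 ^ gp (f + 1) + 1 = 2 ^ gp (f + 1)) := fun h' =>
    ht ((ps_succ_mod _ _ (by positivity)).1 h')
  have h8 : ¬ (0 % 2 ^ gp (f + 1) + 1 = 2 ^ gp (f + 1)) := by
    have : 2 ^ 1 ≤ 2 ^ gp (f + 1) := Nat.pow_le_pow_right (by norm_num) (by omega)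
    rw [Nat.zero_mod]
    omega
  simp only [spec, h0, h1, h2, h3, h4, h5, h6, h7, h8, Nat.div_eq_of_lt hu, false_and,
    and_false, decide_false, Bool.false_and]

theorem canonR_period {f r : ℕ} (h : r < gp f) (j t : ℕ) :
    canonR f r (j + t * 2 ^ (gp f - r + gp (f + 1))) = canonR f r j := by
  have hs := spec_period h j t
  unfold canonR
  split_ifs with hr
  · subst hr
    obtain ⟨h1, h2⟩ := ps_period j t (gp f) (gp (f + 1))
    simp only [Nat.sub_zero] at hs ⊢
    have h3 : (j + t * 2 ^ (gp f + gp (f + 1))) % (2 ^ gp f * 2 ^ gp (f + 1)) =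
        j % (2 ^ gp f * 2 ^ gp (f + 1)) := by
      rw [← pow_add, Nat.add_mul_mod_self_right]
    simp only [canon, hs, h1, h2, h3]
  · rw [hs]

/-- on even rows the canonical dynamic part is periodic with the block as period -/
theorem canon_even {f : ℕ} (hf : f % 2 = 0) (j : ℕ) :
    canon f j = { s := spec f 0 j, tok := false, pm := .L, oh := pat 0 .idle (j % 2 ^ gp f),
                  oc := pat 0 () (j % 2 ^ gp f), gh := .L, gc := pat 0 () (j % 2 ^ gp f) } := by
  simp [canon, hf]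

end Crest.Agent.R176
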