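import Crest.Agent.R176.PAg2
import Crest.Agent.R176.PSpec

/-! Row 176: containers, auxiliary lemmas. -/

set_option autoImplicit false

namespace Crest.Agent.R176

open WSys

theorem prow_last {M : ℕ} (hM : 0 < M) (j : ℕ) : j % M + 1 = M ↔ M ∣ j + 1 := by
  have h1 := Nat.mod_lt j hM
  have h2 := Nat.div_add_mod j M
  constructor
  · intro h
    exact ⟨j / M + 1, by rw [mul_add, mul_one]; omega⟩
  · intro h
    rw [← h2, add_assoc, Nat.dvd_add_right (dvd_mul_right _ _)] at h
    exact le_antisymm h1 (Nat.le_of_dvd (by omega) h)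

theorem prow_last2 {m N : ℕ} (hm : 0 < m) (hN : 0 < N) (j : ℕ) :
    j % (m * N) + 1 = m * N ↔ j % m + 1 = m ∧ N ∣ j / m + 1 := by
  rw [prow_last (Nat.mul_pos hm hN), prow_last hm]
  constructor
  · intro h
    have h1 : m ∣ j + 1 := (dvd_mul_right _ _).trans h
    exact ⟨h1, by rwa [← Nat.succ_div_of_dvd h1, Nat.dvd_div_iff_mul_dvd h1]⟩
  · rintro ⟨h1, h2⟩
    rwa [← Nat.succ_div_of_dvd h1, Nat.dvd_div_iff_mul_dvd h1] at h2

theorem prow_div {m t u : ℕ} (h : u < m) : (t * m + u) / m = t := by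
  rw [add_comm, Nat.add_mul_div_right _ _ (by omega), Nat.div_eq_of_lt h, zero_add]

theorem prow_mod {m t u : ℕ} (h : u < m) : (t * m + u) % m = u := by
  rw [add_comm, Nat.add_mul_mod_self_right, Nat.mod_eq_of_lt h]

theorem prow_home_div {m : ℕ} (hm : 4 ≤ m) (t : ℕ) : home m t / m = t := prow_div (by omega)

theorem prow_home_inj {m : ℕ} (hm : 4 ≤ m) {t t' : ℕ} (h : home m t = home m t') : t = t' := by
  rw [← prow_home_div hm t, h, prow_home_div hm]

theorem prow_mem_tape {m : ℕ} (hm : 0 < m) (j : ℕ) : j ∈ tape m (j / m) ∧ j + 1 ∈ tape m (j / m) := by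
  have h1 := Nat.mod_lt j hm
  have h2 := Nat.div_add_mod' j m
  simp only [tape, Set.mem_Icc, add_mul]
  omega

theorem prow_pat_H {Q : Type} {a u : ℕ} {q q' : Q} (h : pat a q u = .H q') : u = a ∧ q = q' := by
  unfold pat at h
  split_ifs at h with h1 h2
  exact ⟨h2, by simpa using h⟩

theorem prow_idle_iff {m t : ℕ} {p : ℕ → Cell} : upd m t AgS.idle p = p ↔
    (∀ j, j / m = t → (p j).oh = pat 0 .idle (j % m) ∧ (p j).oc = pat 0 () (j % m)) ∧
    (∀ j, j / m = t + 1 → (p j).gh = pat 0 .idle (m + j % m) ∧ (p j).gc = pat 0 () (j % m)) := by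
  constructor
  · intro h
    refine ⟨fun j hj => ?_, fun j hj => ?_⟩
    · rw [← congrFun h j]
      simp [upd, hj, AgS.idle]
    · rw [← congrFun h j]
      simp [upd, hj, AgS.idle]
  · rintro ⟨h1, h2⟩
    funext j
    simp only [upd, AgS.idle]
    split_ifs with a1 a2
    · rw [← (h1 j a1).1, ← (h1 j a1).2]
    · rw [← (h2 j a2).1, ← (h2 j a2).2]
    · rfl

theorem prow_idle_congr {m t : ℕ} {p p' : ℕ → Cell} (h : upd m t AgS.idle p = p)
    (h1 : ∀ j, j / m = t → (p' j).oh = (p j).oh ∧ (p' j).oc = (p j).oc)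
    (h2 : ∀ j, j / m = t + 1 → (p' j).gh = (p j).gh ∧ (p' j).gc = (p j).gc) :
    upd m t AgS.idle p' = p' := by
  rw [prow_idle_iff] at h ⊢
  exact ⟨fun j hj => by rw [(h1 j hj).1, (h1 j hj).2]; exact h.1 j hj,
    fun j hj => by rw [(h2 j hj).1, (h2 j hj).2]; exact h.2 j hj⟩

theorem prow_ctx {m t : ℕ} {S : Set ℕ} {p : ℕ → Cell} (hm : 4 ≤ m) (ht : tape m t ⊆ S)
    (h : IF m S (stat p)) : Ctx m t S p :=
  ⟨hm, ht, fun j hj => h.df j (ht hj), fun j hj => h.dl j (ht hj), fun j hj => h.hm j (ht hj)⟩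

/-- normalisation of all agents in an interval of blocks -/
theorem prow_norm {m : ℕ} {S : Set ℕ} {p : ℕ → Cell} (hm : 4 ≤ m) (hfl : IF m S (stat p))
    (h : ¬ RW.Dead S p) (F : Set ℕ) (a b : ℕ) (ht : ∀ t, a ≤ t → t < b → tape m t ⊆ S)
    (hF : ∀ t, a ≤ t → t < b → (p (home m t)).pm = .H true → ∀ j ∈ F, j / m ≠ t ∧ j / m ≠ t + 1) :
    ∃ p', RelF S F p p' ∧ (∀ t, a ≤ t → t < b → upd m t AgS.idle p' = p') ∧
      ∀ t, b ≤ t → (p' (home m t)).pm = (p (home m t)).pm := by
  induction b with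
  | zero => exact ⟨p, RelF.refl _ _ _, fun t _ h => absurd h (Nat.not_lt_zero _), fun _ _ => rfl⟩
  | succ b ih =>
    obtain ⟨p₁, h1, h2, h3⟩ := ih (fun t a1 a2 => ht t a1 (by omega)) fun t a1 a2 => hF t a1 (by omega)
    rcases lt_or_ge b a with hb | hb
    · exact ⟨p₁, h1, fun t a1 a2 => by omega, fun t a1 => h3 t (by omega)⟩
    obtain ⟨p₂, k1, k2, k3, k4, k5, -⟩ := agentNorm
      (prow_ctx hm (ht b hb (by omega)) (stat_eq_of_eqv h1.eqv ▸ hfl)) (h1.eqv.not_dead h) F
      (fun e => hF b hb (by omega) (h3 b le_rfl ▸ e))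
    refine ⟨p₂, h1.trans k1, fun t a1 a2 => ?_, fun t a1 => ?_⟩
    · rcases (Nat.lt_succ_iff.1 a2).eq_or_lt with rfl | a3
      · exact k2
      · exact prow_idle_congr (h2 t a1 a3) (fun j hj => k3 j (by omega)) fun j hj => k4 j (by omega)
    · rw [k5 _ fun e => by have := prow_home_inj hm e; omega, h3 t (by omega)]

/-- the static facts used for the container `c` of an odd row -/
structure Env (m n N c : ℕ) (S : Set ℕ) (σ : ℕ → PSt) : Prop where
  m4 : 4 ≤ m
  hn : 4 * n = m
  Npos : 0 < N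
  tp : ∀ t, t / N = c → tape m t ⊆ S
  fl : IF m S σ
  par : ∀ j ∈ S, (σ j).par = true
  ce : ∀ j ∈ S, (σ j).ce = true ↔ N ∣ j / m + 1
  bo : ∀ t, t * m ∈ S → N ∣ t → (σ (t * m)).bo = true
  zn : ∀ j ∈ S, (σ j).zn = .q true false → 2 * n ≤ j % m ∧ j % m < 3 * n

/-- put the free permit of the container `c` on the cell `a` -/
def setPat (M c a : ℕ) (p : ℕ → Cell) : ℕ → Cell := fun j =>
  if j / M = c then { p j with pm := pat a false (j % M) } else p j

theorem stat_setPat (M c a : ℕ) (p : ℕ → Cell) : stat (setPat M c a p) = stat p := by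
  funext j; simp only [stat, setPat]; split_ifs <;> rfl

theorem setPat_tok (M c a : ℕ) (p : ℕ → Cell) (j : ℕ) : (setPat M c a p j).tok = (p j).tok := by
  simp only [setPat]; split_ifs <;> rfl

theorem setPat_idle {m t : ℕ} (M c a : ℕ) {p : ℕ → Cell} (h : upd m t AgS.idle p = p) :
    upd m t AgS.idle (setPat M c a p) = setPat M c a p :=
  prow_idle_congr h (fun j _ => by simp only [setPat]; split_ifs <;> exact ⟨rfl, rfl⟩)
    fun j _ => by simp only [setPat]; split_ifs <;> exact ⟨rfl, rfl⟩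

theorem permTok_setPat (m : ℕ) (σ : ℕ → ℕ) (M c a : ℕ) (p : ℕ → Cell) :
    permTok m σ (setPat M c a p) = setPat M c a (permTok m σ p) := by
  funext j
  simp only [permTok, setPat_tok]
  simp only [setPat]
  split_ifs <;> rfl

theorem permTok_permTok {m : ℕ} (hm : 0 < m) (σ τ : ℕ → ℕ) (p : ℕ → Cell) :
    permTok m σ (permTok m τ p) = permTok m (τ ∘ σ) p := by
  funext j
  simp only [permTok, prow_div (Nat.mod_lt j hm), prow_mod (Nat.mod_lt j hm), Function.comp]

theorem permTok_of_fix {m : ℕ} {σ : ℕ → ℕ} (p : ℕ → Cell) {j : ℕ} (h : σ (j / m) = j / m) :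
    permTok m σ p j = p j := by
  simp only [permTok, h, Nat.div_add_mod']

/-- all agents of the container are idle, and the permit is free -/
structure Gd (m N c : ℕ) (p : ℕ → Cell) : Prop where
  idle : ∀ t, t / N = c → upd m t AgS.idle p = p
  pm : ∃ a < m * N, setPat (m * N) c a p = p

theorem Gd.permTok {m N c : ℕ} {p : ℕ → Cell} (h : Gd m N c p) (σ : ℕ → ℕ) :
    Gd m N c (permTok m σ p) :=
  ⟨fun t ht => prow_idle_congr (h.idle t ht) (fun _ _ => ⟨rfl, rfl⟩) fun _ _ => ⟨rfl, rfl⟩,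
    h.pm.imp fun a ha => ⟨ha.1, by rw [← permTok_setPat, ha.2]⟩⟩

theorem prow_perm_ind {P : Equiv.Perm ℕ → Prop} (C : Finset ℕ) (h1 : P 1)
    (hm : ∀ σ τ, P σ → P τ → P (σ * τ)) (hs : ∀ a ∈ C, ∀ b ∈ C, P (Equiv.swap a b)) (s : Finset ℕ)
    (hs' : s ⊆ C) (σ : Equiv.Perm ℕ) (hσ : ∀ t ∉ s, σ t = t) : P σ := by
  induction s using Finset.induction_on generalizing σ with
  | empty =>
    obtain rfl : σ = 1 := Equiv.ext fun t => hσ t (by simp)
    exact h1
  | insert a s ha ih =>
    have h2 : σ a ∈ insert a s := by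
      by_contra h
      exact h (by rw [σ.injective (hσ _ h)]; simp)
    rw [← Equiv.swap_mul_self_mul a (σ a) σ]
    refine hm _ _ (hs a (hs' (by simp)) _ (hs' h2)) (ih ((Finset.subset_insert _ _).trans hs') _ ?_)
    intro t ht
    rw [Equiv.Perm.mul_apply]
    by_cases e : t = a
    · rw [e, Equiv.swap_apply_right]
    · have h3 := hσ t (by simp [e, ht])
      rw [h3, Equiv.swap_apply_of_ne_of_ne e]
      exact fun e' => e (σ.injective (h3.trans e'))

namespace Env

variable {m n N c : ℕ} {S : Set ℕ} {p : ℕ → Cell}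

theorem mem {σ : ℕ → PSt} (E : Env m n N c S σ) {j : ℕ} (hj : j / (m * N) = c) :
    j ∈ S ∧ j + 1 ∈ S := by
  have h := prow_mem_tape (m := m) (by have := E.m4; omega) j
  rw [← Nat.div_div_eq_div_mul] at hj
  exact ⟨E.tp _ hj h.1, E.tp _ hj h.2⟩

theorem Mpos {σ : ℕ → PSt} (E : Env m n N c S σ) : 0 < m * N :=
  Nat.mul_pos (by have := E.m4; omega) E.Npos

theorem last {σ : ℕ → PSt} (E : Env m n N c S σ) {j : ℕ} (hj : j ∈ S) :
    ((σ j).dl = true ∧ (σ j).ce = true) ↔ j % (m * N) + 1 = m * N := by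
  rw [prow_last2 (by have := E.m4; omega) E.Npos, E.fl.dl j hj, E.ce j hj, decide_eq_true_eq]

theorem ctx (E : Env m n N c S (stat p)) {t : ℕ} (ht : t / N = c) : Ctx m t S p :=
  prow_ctx E.m4 (E.tp t ht) E.fl

theorem home_div {σ : ℕ → PSt} (E : Env m n N c S σ) {t : ℕ} (ht : t / N = c) :
    home m t / (m * N) = c := by
  rw [← Nat.div_div_eq_div_mul, prow_home_div E.m4, ht]

theorem pm_rep (E : Env m n N c S (stat p)) (h : ¬ RW.Dead S p) :
    ∃ a < m * N, ∃ q, ∀ j, j / (m * N) = c → (p j).pm = pat a q (j % (m * N)) := by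
  have hM := E.Mpos
  have hm := E.m4
  have key : ∀ u < m * N, POK (p (c * (m * N) + u)) (p (c * (m * N) + u + 1)) := fun u hu =>
    pok_of_not_dead h (E.mem (prow_div hu)).1 (E.mem (prow_div hu)).2
  obtain ⟨a, ha, q, hq⟩ := tag_rep (fun u => (p (c * (m * N) + u)).pm) hM
    (fun u hu => by
      have h1 := (E.mem (prow_div (t := c) (show u < m * N by omega))).1
      refine (key u (by omega)).pc (E.par _ h1) fun h2 => ?_
      have h3 := (E.last h1).1 h2
      rw [prow_mod (by omega)] at h3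
      omega)
    (by
      have h1 := (E.mem (prow_div (t := c) hM)).1
      refine (key 0 hM).pf (E.par _ h1) ?_ ?_
      · refine (E.fl.df _ h1).trans ?_
        rw [add_zero, mul_comm m, ← mul_assoc, Nat.mul_mod_left]
        rfl
      · rw [add_zero, mul_comm m, ← mul_assoc] at h1 ⊢
        exact E.bo _ h1 (dvd_mul_left _ _))
    (by
      have h0 : m * N - 1 < m * N := by omega
      have h1 := (E.mem (prow_div (t := c) h0)).1
      have h2 := (E.last h1).2 (by rw [prow_mod h0]; omega)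
      exact (key _ h0).pl (E.par _ h1) h2.1 h2.2)
  refine ⟨a, ha, q, fun j hj => ?_⟩
  rw [← hq _ (Nat.mod_lt j hM), ← hj, Nat.div_add_mod']

theorem move (E : Env m n N c S (stat p)) {a : ℕ} (ha : a < m * N) :
    RW.Eqv S (setPat (m * N) c 0 p) (setPat (m * N) c a p) := by
  induction a with
  | zero => exact Eqv.refl _ _
  | succ a ih =>
    have ha' : a < m * N := by omega
    refine (ih ha').trans ?_
    have d1 : (c * (m * N) + a) / (m * N) = c := prow_div ha'
    have d2 : (c * (m * N) + a + 1) / (m * N) = c := prow_div ha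
    have d3 : (c * (m * N) + a) % (m * N) = a := prow_mod ha'
    have d4 : (c * (m * N) + a + 1) % (m * N) = a + 1 := prow_mod ha
    refine eqv_two (E.mem d1).1 (E.mem d1).2 ?_ fun j h1 h2 => ?_
    · have := PStep.wp (x := setPat (m * N) c a p (c * (m * N) + a))
        (y := setPat (m * N) c a p (c * (m * N) + a + 1))
        (by simpa [setPat, d1, stat] using E.par _ (E.mem d1).1)
        (by
          have h3 := (E.last (E.mem d1).1).not.2 (by omega)
          simpa [setPat, d1, stat] using h3)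
        (by simp [setPat, d1, d3, pat]) (by simp [setPat, d2, d4, pat])
      simpa [setPat, d1, d2, d3, d4, pat, PP, Pay.row] using this
    · simp only [setPat]
      split_ifs with h3
      · have h4 := Nat.div_add_mod' j (m * N)
        rw [h3] at h4
        have : pat (a + 1) false (j % (m * N)) = pat a false (j % (m * N)) := by
          unfold pat
          split_ifs <;> first | rfl | omega
        rw [this]
      · rfl

theorem move' (E : Env m n N c S (stat p)) (G : Gd m N c p) {a : ℕ} (ha : a < m * N) :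
    RW.Eqv S p (setPat (m * N) c a p) := by
  obtain ⟨b, hb, e⟩ := G.pm
  have := (E.move hb).symm.trans (E.move ha)
  rwa [e] at this

theorem gd (E : Env m n N c S (stat p)) (h : ¬ RW.Dead S p)
    (hi : ∀ t, t / N = c → upd m t AgS.idle p = p) : Gd m N c p := by
  obtain ⟨a, ha, q, hq⟩ := E.pm_rep h
  have hm := E.m4
  refine ⟨hi, a, ha, ?_⟩
  cases q with
  | false =>
    funext j
    simp only [setPat]
    split_ifs with hj
    · rw [← hq j hj]
    · rfl
  | true =>
    exfalso
    have d1 : (c * (m * N) + a) / (m * N) = c := prow_div ha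
    have h1 := hq _ d1
    rw [prow_mod ha] at h1
    generalize c * (m * N) + a = j at d1 h1
    have h2 : (p j).pm = .H true := by simpa [pat] using h1
    have h3 := (pok_of_not_dead h (E.mem d1).1 (E.mem d1).2).kl h2
    have h4 : j % m + 1 = m / 2 := by simpa using (E.fl.hm j (E.mem d1).1).symm.trans h3
    have h5 : home m (j / m) = j := by
      have := Nat.div_add_mod' j m
      rw [home]
      omega
    rw [← Nat.div_div_eq_div_mul] at d1
    refine kl_k (E.ctx d1) (a := AgS.idle) ⟨?_, ?_, ?_⟩ (by rwa [hi _ d1]) rfl (by rwa [h5]) <;>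
      simp only [AgS.idle] <;> omega

theorem tok_false (E : Env m n N c S (stat p)) (h : ¬ RW.Dead S p) {j : ℕ} (hj : j / m / N = c)
    (hu : ¬ (2 * n ≤ j % m ∧ j % m < 3 * n)) : (p j).tok = false := by
  rw [Nat.div_div_eq_div_mul] at hj
  by_contra h1
  exact hu (E.zn j (E.mem hj).1 ((pok_of_not_dead h (E.mem hj).1 (E.mem hj).2).tok
    (by simpa using h1)).1)

theorem ready (E : Env m n N c S (stat p)) {t : ℕ} (ht : t / N = c) (ht' : (t + 1) / N = c) :
    (setPat (m * N) c (home m t % (m * N)) p (home m t)).s.par = true ∧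
    (setPat (m * N) c (home m t % (m * N)) p (home m t)).s.ce = false ∧
    (setPat (m * N) c (home m t % (m * N)) p (home m t)).pm = .H false := by
  have d1 := E.home_div ht
  refine ⟨by simpa [setPat, d1, stat] using E.par _ (E.mem d1).1, ?_, by simp [setPat, d1, pat]⟩
  have h1 := (E.ce _ (E.mem d1).1).not.2 (by
    rw [prow_home_div E.m4]
    intro h2
    rw [Nat.succ_div_of_dvd h2] at ht'
    omega)
  simpa [setPat, d1, stat] using h1

theorem swap_adj (E : Env m n N c S (stat p)) (h : ¬ RW.Dead S p) (G : Gd m N c p) {t : ℕ}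
    (ht : t / N = c) (ht' : (t + 1) / N = c) :
    RW.Eqv S p (permTok m (Equiv.swap t (t + 1)) p) := by
  have hm := E.m4
  have hn := E.hn
  have ha := Nat.mod_lt (home m t) E.Mpos
  obtain ⟨r1, r2, r3⟩ := E.ready ht ht'
  have h0 : m - 1 < m := by omega
  have h1 := swap_eqv (Env.ctx (by rwa [stat_setPat]) ht) (setPat_idle _ _ _ (G.idle t ht)) r1 r2 r3
    (by
      rw [setPat_tok, setPat_tok, E.tok_false h (by rwa [prow_div h0]) (by rw [prow_mod h0]; omega),
        E.tok_false h (by rwa [prow_div h0]) (by rw [prow_mod h0]; omega)])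
  rw [permTok_setPat] at h1
  exact ((E.move' G ha).trans h1).trans
    (Env.move' (p := permTok m (Equiv.swap t (t + 1)) p) E (G.permTok _) ha).symm

theorem mem_iff {σ : ℕ → PSt} (E : Env m n N c S σ) {t : ℕ} :
    t ∈ Finset.Ico (c * N) ((c + 1) * N) ↔ t / N = c := by
  rw [Finset.mem_Ico, ← Nat.le_div_iff_mul_le E.Npos, ← Nat.div_lt_iff_lt_mul E.Npos]
  omega

theorem perm (E : Env m n N c S (stat p)) (h : ¬ RW.Dead S p) (G : Gd m N c p) (σ : Equiv.Perm ℕ)
    (hσ : ∀ t, t / N ≠ c → σ t = t) : RW.Eqv S p (permTok m σ p) := by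
  have hm : 0 < m := by have := E.m4; omega
  let P : Equiv.Perm ℕ → Prop := fun σ => ∀ p, Env m n N c S (stat p) → ¬ RW.Dead S p →
    Gd m N c p → RW.Eqv S p (permTok m σ p)
  have h1 : P 1 := fun p _ _ _ => Eqv.of_eq (funext fun j => (permTok_of_fix p rfl).symm)
  have h2 : ∀ σ τ, P σ → P τ → P (σ * τ) := fun σ τ a1 a2 p E h G => by
    have a3 := a1 p E h G
    have a4 := a2 (permTok m σ p) E (a3.not_dead h) (G.permTok σ)
    rw [permTok_permTok hm] at a4
    exact a3.trans a4
  have h3 : ∀ a k, a / N = c → (a + k) / N = c → P (Equiv.swap a (a + k)) := by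
    intro a k ha
    induction k with
    | zero => intro _; rw [add_zero, Equiv.swap_self]; exact h1
    | succ k ih =>
      intro hk
      have hk' : (a + k) / N = c := by
        rw [← E.mem_iff, Finset.mem_Ico] at ha hk ⊢
        omega
      have a1 : P (Equiv.swap (a + k) (a + k + 1)) := fun p E h G => E.swap_adj h G hk' hk
      rcases Nat.eq_zero_or_pos k with rfl | hk0
      · exact a1
      · rw [Equiv.swap_comm, ← add_assoc,
          ← Equiv.swap_mul_swap_mul_swap (y := a + k) (by omega) (by omega)]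
        exact h2 _ _ (h2 _ _ a1 (ih hk')) a1
  refine prow_perm_ind (P := P) _ h1 h2 (fun a ha b hb => ?_) _ (Finset.Subset.refl _) σ
    (fun t ht => hσ t (E.mem_iff.not.1 ht)) p E h G
  rw [E.mem_iff] at ha hb
  rcases le_total a b with hab | hab
  · obtain ⟨k, rfl⟩ := Nat.exists_eq_add_of_le hab
    exact h3 a k ha hb
  · obtain ⟨k, rfl⟩ := Nat.exists_eq_add_of_le hab
    rw [Equiv.swap_comm]
    exact h3 b k hb ha

theorem inj (E : Env m n N c S (stat p)) (h : ¬ RW.Dead S p) (G : Gd m N c p) {t t' : ℕ}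
    (ht : t / N = c) (ht' : t' / N = c)
    (heq : ∀ u < m, (p (t * m + u)).tok = (p (t' * m + u)).tok) : t = t' := by
  wlog hlt : t < t' generalizing t t'
  · rcases (not_lt.1 hlt).eq_or_lt with e | e
    · exact e.symm
    · exact (this ht' ht (fun u hu => (heq u hu).symm) e).symm
  exfalso
  have h1 : (t + 1) / N = c := by
    rw [← E.mem_iff, Finset.mem_Ico] at ht ht' ⊢
    omega
  have h2 := E.perm h G (Equiv.swap (t + 1) t') fun s hs =>
    Equiv.swap_apply_of_ne_of_ne (fun e => hs (e ▸ h1)) fun e => hs (e ▸ ht')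
  have G' := G.permTok (Equiv.swap (t + 1) t')
  have E' : Env m n N c S (stat (permTok m (Equiv.swap (t + 1) t') p)) := E
  obtain ⟨r1, r2, r3⟩ := E'.ready ht h1
  refine h ((h2.trans (E'.move' G' (Nat.mod_lt (home m t) E.Mpos))).dead
    (eq_dead (Env.ctx (by rwa [stat_setPat]) ht) (setPat_idle _ _ _ (G'.idle t ht)) r1 r2 r3
      fun u hu => ?_))
  have hu' : u < m := by omega
  simp only [setPat_tok, permTok, prow_div hu', prow_mod hu', Equiv.swap_apply_left]
  rw [Equiv.swap_apply_of_ne_of_ne (by omega) hlt.ne]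
  exact heq u hu'

/-- sorting the tokens of a container -/
theorem sort (E : Env m n N c S (stat p)) (hN : N = 2 ^ n) (h : ¬ RW.Dead S p)
    (hi : ∀ t, t / N = c → upd m t AgS.idle p = p) :
    ∃ σ : Equiv.Perm ℕ, (∀ t, t / N ≠ c → σ t = t) ∧
      RW.Eqv S p (setPat (m * N) c 0 (permTok m σ p)) ∧ ∀ j, j / m / N = c →
        (permTok m σ p j).tok =
          (decide (2 * n ≤ j % m ∧ j % m < 3 * n) && (j / m % N).testBit (j % m - 2 * n)) := by
  have G := E.gd h hi
  have hm := E.m4
  have hn := E.hn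
  set C := Finset.Ico (c * N) ((c + 1) * N) with hCdef
  have hC : Fintype.card C = Fintype.card (Fin n → Bool) := by
    rw [Fintype.card_coe, hCdef, Nat.card_Ico, Fintype.card_fun, Fintype.card_bool,
      Fintype.card_fin, add_mul, one_mul, Nat.add_sub_cancel_left, hN]
  let φ : C → Fin n → Bool := fun t v => (p (t.1 * m + (2 * n + v))).tok
  let ψ : C → Fin n → Bool := fun t v => (t.1 % N).testBit v
  have hφ : Function.Bijective φ := by
    refine (Fintype.bijective_iff_injective_and_card _).2 ⟨fun t t' e => Subtype.ext ?_, hC⟩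
    have a1 := E.mem_iff.1 t.2
    have a2 := E.mem_iff.1 t'.2
    refine E.inj h G a1 a2 fun u hu => ?_
    by_cases hz : 2 * n ≤ u ∧ u < 3 * n
    · have := congrFun e ⟨u - 2 * n, by omega⟩
      simpa only [φ, Nat.add_sub_cancel' hz.1] using this
    · rw [E.tok_false h (by rwa [prow_div hu]) (by rwa [prow_mod hu]),
        E.tok_false h (by rwa [prow_div hu]) (by rwa [prow_mod hu])]
  have hψ : Function.Bijective ψ := by
    refine (Fintype.bijective_iff_injective_and_card _).2 ⟨fun t t' e => Subtype.ext ?_, hC⟩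
    have a1 := E.mem_iff.1 t.2
    have a2 := E.mem_iff.1 t'.2
    have a3 : t.1 % N = t'.1 % N := by
      refine Nat.eq_of_testBit_eq fun v => ?_
      rcases lt_or_ge v n with hv | hv
      · exact congrFun e ⟨v, hv⟩
      · have b : ∀ s, s % N < 2 ^ v := fun s => (Nat.mod_lt s E.Npos).trans_le
          (hN ▸ Nat.pow_le_pow_right (by norm_num) hv)
        rw [Nat.testBit_eq_false_of_lt (b _), Nat.testBit_eq_false_of_lt (b _)]
    rw [← Nat.div_add_mod' t.1 N, a1, a3, ← a2, Nat.div_add_mod']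
  let τ : Equiv.Perm C := (Equiv.ofBijective ψ hψ).trans (Equiv.ofBijective φ hφ).symm
  have hτ : ∀ t, φ (τ t) = ψ t := fun t => (Equiv.ofBijective φ hφ).apply_symm_apply _
  have hσ : ∀ t, t / N ≠ c → Equiv.Perm.ofSubtype τ t = t := fun t ht =>
    Equiv.Perm.ofSubtype_apply_of_not_mem τ (E.mem_iff.not.2 ht)
  have h1 := E.perm h G _ hσ
  refine ⟨_, hσ, h1.trans (Env.move' (p := permTok m _ p) E (G.permTok _) E.Mpos), fun j hj => ?_⟩
  by_cases hz : 2 * n ≤ j % m ∧ j % m < 3 * n
  · have := congrFun (hτ ⟨j / m, E.mem_iff.2 hj⟩) ⟨j % m - 2 * n, by omega⟩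
    simp only [φ, ψ, Nat.add_sub_cancel' hz.1] at this
    simp only [permTok, Equiv.Perm.ofSubtype_apply_of_mem τ (E.mem_iff.2 hj), this, hz, and_self,
      decide_true, Bool.true_and]
  · rw [Env.tok_false (p := permTok m _ p) E (h1.not_dead h) hj hz, decide_eq_false hz,
      Bool.false_and]

end Env

end Crest.Agent.R176
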