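import Crest.Agent.R176.PAg2
import Crest.Agent.R176.PSpec
import Crest.Agent.R176.PRowA

/-! Row 176: containers: uniqueness of the permit, permutations of tokens, canonical forms. -/

set_option autoImplicit false

namespace Crest.Agent.R176

open WSys

/-- the cells of the container `c` of row `lv f`, with one more block on each side -/
def contS (f c : ℕ) : Set ℕ :=
  Set.Ico ((c * 2 ^ gp (f + 1) - 1) * 2 ^ gp f) (((c + 1) * 2 ^ gp (f + 1) + 1) * 2 ^ gp f + 1)

theorem prow_m4 (f : ℕ) : 4 ≤ 2 ^ gp f :=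
  le_trans (by norm_num) (Nat.pow_le_pow_right (by norm_num) (gp_ge f))

theorem prow_IF {f : ℕ} {S : Set ℕ} {p : ℕ → Cell} (hσ : ∀ j ∈ S, (p j).s = spec f 0 j) :
    IF (2 ^ gp f) S (stat p) :=
  ⟨fun j hj => by rw [stat, hσ j hj]; exact (spec_IF f S).df j hj,
    fun j hj => by rw [stat, hσ j hj]; exact (spec_IF f S).dl j hj,
    fun j hj => by rw [stat, hσ j hj]; exact (spec_IF f S).hm j hj⟩

theorem prow_env {f c : ℕ} (hf : f % 2 = 1) {S : Set ℕ} (hS : contS f c ⊆ S) {p : ℕ → Cell}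
    (hσ : ∀ j ∈ S, (p j).s = spec f 0 j) :
    Env (2 ^ gp f) (gp (f + 1)) (2 ^ gp (f + 1)) c S (stat p) where
  m4 := prow_m4 f
  hn := four_mul_gp f
  Npos := by positivity
  tp t ht := by
    refine Set.Subset.trans (fun j hj => ?_) hS
    have h1 : c * 2 ^ gp (f + 1) ≤ t := by
      rw [← Nat.le_div_iff_mul_le (by positivity), ht]
    have h2 : t < (c + 1) * 2 ^ gp (f + 1) := by
      rw [← Nat.div_lt_iff_lt_mul (by positivity), ht]
      exact c.lt_succ_self
    exact ⟨le_trans (Nat.mul_le_mul_right _ (by omega)) hj.1,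
      Nat.lt_succ_of_le (hj.2.trans (Nat.mul_le_mul_right _ (by omega)))⟩
  fl := prow_IF hσ
  par j hj := by rw [stat, hσ j hj]; simp [spec, hf]
  ce j hj := by rw [stat, hσ j hj, spec_ce, Nat.dvd_iff_mod_eq_zero]
  bo t ht h := by rw [stat, hσ _ ht, spec_bo]; exact Nat.mod_eq_zero_of_dvd h
  zn j hj h := by rw [stat, hσ j hj, spec_zn_X] at h; exact h

/-- At most one block of a container holds the permit (`tag_rep`/`tag_repO` for the layer `pm`: `POK.pc`). -/
theorem held_unique {f c : ℕ} (hf : f % 2 = 1) {S : Set ℕ} (hS : contS f c ⊆ S) {p : ℕ → Cell}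
    (hσ : ∀ j ∈ S, (p j).s = spec f 0 j) (h : ¬ RW.Dead S p) {t t' : ℕ}
    (ht : t / 2 ^ gp (f + 1) = c) (ht' : t' / 2 ^ gp (f + 1) = c)
    (h1 : (p (home (2 ^ gp f) t)).pm = .H true) (h2 : (p (home (2 ^ gp f) t')).pm = .H true) :
    t = t' := by
  have E := prow_env hf hS hσ
  obtain ⟨a, -, q, hq⟩ := E.pm_rep h
  have d1 := E.home_div ht
  have d2 := E.home_div ht'
  have e1 := (prow_pat_H ((hq _ d1).symm.trans h1)).1
  have e2 := (prow_pat_H ((hq _ d2).symm.trans h2)).1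
  refine prow_home_inj E.m4 ?_
  rw [← Nat.div_add_mod' (home _ t) (2 ^ gp f * 2 ^ gp (f + 1)), d1, e1, ← d2, ← e2,
    Nat.div_add_mod']

/-- Free blocks.  With `F` = cells of the blocks in `I`, normalise all agents of the container (`agentNorm`
repeatedly) to get `RelF S F p p₀` with idle agents; in `p₀` the permit is free (`kl_k`, `POK.kl`) and can be moved
to any home (`wp`); adjacent swaps (`swap_eqv`; the last cell of a block has `tok = false` by `POK.tok`) generate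
all permutations of the blocks of the container, `eq_dead` gives injectivity;
`permTok σ p = ovr F T p` and `ovr F T p₀ = permTok σ p₀`. -/
theorem row_perm {f c : ℕ} (hf : f % 2 = 1) (hc : 1 ≤ c) {S : Set ℕ} (hS : contS f c ⊆ S)
    {p : ℕ → Cell} (hσ : ∀ j ∈ S, (p j).s = spec f 0 j) (h : ¬ RW.Dead S p) (I : Set ℕ)
    (hI : ∀ t ∈ I, t / 2 ^ gp (f + 1) = c ∧ (p (home (2 ^ gp f) t)).pm ≠ .H true ∧
      (p (home (2 ^ gp f) (t - 1))).pm ≠ .H true) :
    (∀ t ∈ I, ∀ t' ∈ I, (∀ u < 2 ^ gp f, (p (t * 2 ^ gp f + u)).tok = (p (t' * 2 ^ gp f + u)).tok) →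
      t = t') ∧
    ∀ σ : Equiv.Perm ℕ, (∀ t, t ∉ I → σ t = t) → RW.Eqv S p (permTok (2 ^ gp f) σ p) := by
  have E := prow_env hf hS hσ
  generalize 2 ^ gp f = m at E hI ⊢
  generalize 2 ^ gp (f + 1) = N at E hI
  have hm := E.m4
  have hiff : ∀ t, c * N ≤ t → t < (c + 1) * N → t / N = c := fun t a1 a2 =>
    E.mem_iff.1 (Finset.mem_Ico.2 ⟨a1, a2⟩)
  obtain ⟨p₀, h1, h2, -⟩ := prow_norm hm E.fl h {j | j / m ∈ I} (c * N) ((c + 1) * N)
    (fun t a1 a2 => E.tp t (hiff t a1 a2)) fun t _ _ e j hj =>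
      ⟨fun e' => (hI _ hj).2.1 (by rwa [e']), fun e' => (hI _ hj).2.2 (by rwa [e'])⟩
  have E₀ := stat_eq_of_eqv h1.eqv ▸ E
  have h₀ := h1.eqv.not_dead h
  have G := E₀.gd h₀ fun t ht =>
    h2 t (Finset.mem_Ico.1 (E.mem_iff.2 ht)).1 (Finset.mem_Ico.1 (E.mem_iff.2 ht)).2
  have h3 : ∀ t ∈ I, ∀ u < m, (p₀ (t * m + u)).tok = (p (t * m + u)).tok := fun t ht u hu =>
    h1.2 _ (by rwa [Set.mem_ofPred_eq, prow_div hu])
  refine ⟨fun t ht t' ht' e => E₀.inj h₀ G (hI t ht).1 (hI t' ht').1 fun u hu => ?_,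
    fun σ hσ' => ?_⟩
  · rw [h3 t ht u hu, h3 t' ht' u hu, e u hu]
  have h4 := h1.1 fun j => (p (σ (j / m) * m + j % m)).tok
  have h5 : ∀ q : ℕ → Cell, (∀ t ∈ I, ∀ u < m, (q (t * m + u)).tok = (p (t * m + u)).tok) →
      ovr {j | j / m ∈ I} (fun j => (p (σ (j / m) * m + j % m)).tok) q = permTok m σ q := by
    intro q hq
    funext j
    simp only [ovr, Set.mem_ofPred_eq]
    split_ifs with hj
    · have : σ (j / m) ∈ I := by
        by_contra h6
        exact h6 (by rwa [σ.injective (hσ' _ h6)])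
      rw [← hq _ this _ (Nat.mod_lt j (by omega))]
      rfl
    · exact (permTok_of_fix q (hσ' _ hj)).symm
  rw [h5 p fun _ _ _ _ => rfl, h5 p₀ h3] at h4
  exact (h1.eqv.trans (E₀.perm h₀ G σ fun t ht => hσ' t fun e => ht (hI t e).1)).trans h4.symm

/-- Canonical form of a mark row.  Normalise the agents of all blocks below `[A+1, B-1)` and the one before.
Even rows: `tok = false`, `pm = L` by `POK.tok`, `POK.pmE`.  Odd rows: every container below `[A+1,B-1)` has
`2^n` pairwise different tokens supported on the `n` cells of the zone `q true false`, so they are a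
permutation of all `n`-bit strings and can be sorted (`row_perm` with `I` = all blocks); move the permit to the
first cell. -/
theorem row_canon {f w A B : ℕ} (hw : 2 ^ (gp f + 1) ∣ w) (hw0 : 0 < w)
    (hw' : f % 2 = 1 → 2 ^ (gp f + gp (f + 1)) ∣ w) {p : ℕ → Cell}
    (hσ : ∀ j ∈ Set.Ico (A * w) (B * w), (p j).s = spec f 0 j)
    (h : ¬ RW.Dead (Set.Ico (A * w) (B * w)) p) :
    ∃ p', RW.Eqv (Set.Ico (A * w) (B * w)) p p' ∧
      ∀ j ∈ Set.Ico ((A + 1) * w) ((B - 1) * w), p' j = canon f j := by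
  rcases le_or_gt B (A + 1) with hB | hB
  · refine ⟨p, Eqv.refl _ _, fun j hj => ?_⟩
    have := hj.1.trans_lt hj.2
    have := Nat.lt_of_mul_lt_mul_right this
    omega
  obtain ⟨B, rfl⟩ : ∃ B', B = B' + 1 := ⟨B - 1, by omega⟩
  rw [Nat.add_sub_cancel]
  set S := Set.Ico (A * w) ((B + 1) * w) with hS
  have hm := prow_m4 f
  obtain ⟨k, hk⟩ : ∃ k, w = k * 2 ^ gp f := ⟨w / 2 ^ gp f,
    (Nat.div_mul_cancel ((pow_dvd_pow 2 (Nat.le_succ _)).trans hw)).symm⟩
  have hk2 : 2 ≤ k := by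
    have := Nat.le_of_dvd hw0 hw
    rw [hk, pow_succ, mul_comm] at this
    exact Nat.le_of_mul_le_mul_right this (by omega)
  have hmem : ∀ t j, (A + 1) * k - 1 ≤ t → t * 2 ^ gp f ≤ j → ∀ t', t' ≤ B * k + 1 →
      j ≤ t' * 2 ^ gp f → j ∈ S := by
    intro t j a1 a2 t' a3 a4
    rw [hS, hk, ← mul_assoc, ← mul_assoc]
    refine ⟨le_trans (Nat.mul_le_mul_right _ ?_) a2,
      lt_of_le_of_lt a4 (Nat.mul_lt_mul_of_pos_right ?_ (by omega))⟩
    · rw [add_mul] at a1; omega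
    · rw [add_mul]; omega
  obtain ⟨p₀, h1, h2, -⟩ := prow_norm hm (prow_IF hσ) h ∅ ((A + 1) * k - 1) (B * k)
    (fun t a1 a2 j hj => hmem t j a1 hj.1 (t + 2) (by omega) hj.2) (by simp)
  have h₀ := h1.eqv.not_dead h
  have hσ₀ : ∀ j ∈ S, (p₀ j).s = spec f 0 j := fun j hj =>
    (congrFun (stat_eq_of_eqv h1.eqv) j).trans (hσ j hj)
  have hblk : ∀ j ∈ Set.Ico ((A + 1) * w) (B * w),
      (A + 1) * k ≤ j / 2 ^ gp f ∧ j / 2 ^ gp f < B * k := fun j hj => by
    rw [Nat.le_div_iff_mul_le (by omega), Nat.div_lt_iff_lt_mul (by omega), mul_assoc, mul_assoc,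
      ← hk]
    exact hj
  have hin : ∀ j ∈ Set.Ico ((A + 1) * w) (B * w), j ∈ S ∧ j + 1 ∈ S := fun j hj => by
    have a1 := hj.1
    have a2 := hj.2
    simp only [hS, Set.mem_Ico, add_mul] at a1 ⊢
    omega
  have fin : ∀ q : ℕ → Cell, (∀ j, q j = { p₀ j with tok := (q j).tok, pm := (q j).pm }) →
      ∀ j ∈ Set.Ico ((A + 1) * w) (B * w), (q j).tok = (canon f j).tok →
        (q j).pm = (canon f j).pm → q j = canon f j := by
    intro q hq j hj a1 a2
    obtain ⟨b1, b2⟩ := hblk j hj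
    have b0 : 0 < (A + 1) * k := Nat.mul_pos (by omega) (by omega)
    have c1 := (prow_idle_iff.1 (h2 _ (by omega) b2)).1 j rfl
    have c2 := (prow_idle_iff.1 (h2 (j / 2 ^ gp f - 1) (by omega) (by omega))).2 j (by omega)
    rw [hq j]
    refine Cell.ext (hσ₀ j (hin j hj).1) a1 a2 c1.1 c1.2 (c2.1.trans ?_) c2.2
    have : 2 ^ gp f + j % 2 ^ gp f ≠ 0 := by omega
    simp only [pat, canon, Nat.not_lt_zero, this, if_false]
  rcases Nat.mod_two_eq_zero_or_one f with hf | hf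
  · refine ⟨p₀, h1.eqv, fun j hj => ?_⟩
    have a1 := pok_of_not_dead h₀ (hin j hj).1 (hin j hj).2
    have a2 : (p₀ j).s.par = false := by rw [hσ₀ j (hin j hj).1]; simp [spec, hf]
    refine fin p₀ (fun _ => rfl) j hj ?_ ?_
    · have : (p₀ j).tok = false := by
        by_contra a3
        have := (a1.tok (by simpa using a3)).2
        simp [a2] at this
      simp [this, canon, hf]
    · simp [a1.pmE a2, canon, hf]
  obtain ⟨l, hl⟩ : ∃ l, k = l * 2 ^ gp (f + 1) := by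
    obtain ⟨l, hl⟩ := hw' hf
    refine ⟨l, Nat.eq_of_mul_eq_mul_right (m := 2 ^ gp f) (by omega) ?_⟩
    rw [← hk, hl, pow_add]
    ring
  have key : ∀ c, c ≤ B * l → ∃ q, RW.Eqv S p₀ q ∧
      (∀ j, q j = { p₀ j with tok := (q j).tok, pm := (q j).pm }) ∧
      ∀ j, (A + 1) * l ≤ j / 2 ^ gp f / 2 ^ gp (f + 1) → j / 2 ^ gp f / 2 ^ gp (f + 1) < c →
        (q j).tok = (canon f j).tok ∧ (q j).pm = (canon f j).pm := by
    intro c
    induction c with
    | zero => exact fun _ => ⟨p₀, Eqv.refl _ _, fun _ => rfl, fun j _ h => absurd h (Nat.not_lt_zero _)⟩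
    | succ c ih =>
      intro hc
      obtain ⟨q, a1, a2, a3⟩ := ih (by omega)
      rcases lt_or_ge c ((A + 1) * l) with hc' | hc'
      · exact ⟨q, a1, a2, fun j b1 b2 => by omega⟩
      have b1 : (A + 1) * k ≤ c * 2 ^ gp (f + 1) := by
        rw [hl, ← mul_assoc]
        exact Nat.mul_le_mul_right _ hc'
      have b2 : (c + 1) * 2 ^ gp (f + 1) ≤ B * k := by
        rw [hl, ← mul_assoc]
        exact Nat.mul_le_mul_right _ hc
      have E : Env _ _ _ c S (stat q) := prow_env hf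
        (fun j hj => hmem _ j (by omega) hj.1 _ (by omega) (Nat.lt_succ_iff.1 hj.2))
        fun j hj => (congrFun (stat_eq_of_eqv a1) j).trans (hσ₀ j hj)
      obtain ⟨σ, s1, s2, s3⟩ := E.sort rfl (a1.not_dead h₀) fun t ht => by
        have := Finset.mem_Ico.1 (E.mem_iff.2 ht)
        exact prow_idle_congr (h2 t (by omega) (by omega)) (fun j _ => by rw [a2 j]; exact ⟨rfl, rfl⟩)
          fun j _ => by rw [a2 j]; exact ⟨rfl, rfl⟩
      refine ⟨_, a1.trans s2, fun j => ?_, fun j d1 d2 => ?_⟩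
      · simp only [setPat, permTok]
        rw [a2 j]
        split_ifs <;> rfl
      rcases (Nat.lt_succ_iff.1 d2).eq_or_lt with d3 | d3
      · refine ⟨by rw [setPat_tok, s3 j d3]; simp [canon, hf], ?_⟩
        rw [Nat.div_div_eq_div_mul] at d3
        simp [setPat, d3, canon, hf]
      · have d4 := d3.ne
        rw [setPat, if_neg (by rwa [← Nat.div_div_eq_div_mul]), permTok_of_fix q (s1 _ d4)]
        exact a3 j d1 d3
  obtain ⟨q, a1, a2, a3⟩ := key _ le_rfl
  refine ⟨q, h1.eqv.trans a1, fun j hj => ?_⟩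
  obtain ⟨b1, b2⟩ := hblk j hj
  rw [hl, ← mul_assoc] at b1 b2
  have := a3 j ((Nat.le_div_iff_mul_le (by positivity)).2 b1)
    ((Nat.div_lt_iff_lt_mul (by positivity)).2 b2)
  exact fin q a2 j hj this.1 this.2

end Crest.Agent.R176
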