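import Crest.Agent.R176.MNorm
import Crest.Agent.R176.PRow
import Crest.Agent.R176.PDet

/-! Row 176: slots, normal forms, types and tokens.

`f` is an odd epoch (token row `lv f`, blocks of level `lv (f+1)`), `q` a small number of levels.  Positions inside
block `0` are measured in *units* = nodes of level `lv f + q`; a block has `4 * uq f q` units. -/

set_option autoImplicit false

namespace Crest.Agent.R176

open WSys

/-- the alphabet -/
abbrev Gam := Let Cell

/-- a default letter -/
def dflt0 : Gam := (⟨canon 0 0, .empty, none⟩, ⟨canon 0 0, .empty, none⟩)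

/-! ### rows of clean towers -/

theorem row_not_dead {k l : ℕ} (hl : l < k) {V T : Set ℕ} {x : ℕ → Gam} (hA : Aligned PP k V x)
    (hC : Clean k V x) (hT : spn k V ⊆ T) (h : ¬ (core PP).Dead T x) :
    ¬ RW.Dead (spn (k - l) V) (rowPay x l) := by
  intro hd
  have := row_dead l (hA.down hl.le) (hC.down hl.le) (fun j hj => (hC l hl j hj).1) hd
  rw [spn_spn, show l + (k - l) = k by omega] at this
  exact h (this.mono hT)

theorem row_lift {k l : ℕ} (hl : l < k) {V S : Set ℕ} {x : ℕ → Gam} (hA : Aligned PP k V x)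
    (hC : Clean k V x) (hS : S ⊆ spn (k - l) V) {p' : ℕ → Cell} (h : RW.Eqv S (rowPay x l) p') :
    (core PP).Eqv (spn k V) x (putRow l x p') := by
  have := row_eqv l (hA.down hl.le) (hC.down hl.le) (fun j hj => (hC l hl j hj).1) (h.mono hS)
  rwa [spn_spn, show l + (k - l) = k by omega, putRow_self] at this

theorem ctl_static {S : Set ℕ} {x y : ℕ → Gam} (h : (core PP).Eqv S x y) (l j : ℕ) :
    (ctl y l j).pay.s = (ctl x l j).pay.s :=
  ctl_inv (Θ := PP) (fun c : Cell => c.s) (fun _ _ _ _ h => PStep.static h) h l j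

/-! ### slots -/

/-- admissible parameters -/
structure Par (f q : ℕ) : Prop where
  odd : f % 2 = 1
  q1 : 1 ≤ q
  q4 : q + 4 ≤ gp f

/-- a quarter of a block, in units -/
def uq (f q : ℕ) : ℕ := 2 ^ (gp f - q - 2)

/-- the units of the slot -/
def SU (f q : ℕ) : Set ℕ := Set.Ico (2 * uq f q - 4) (3 * uq f q + 4)

/-- the core of the slot -/
def R2 (f q : ℕ) : Set ℕ := Set.Ico (2 * uq f q - 1) (3 * uq f q + 1)

/-- first physical cell and length of the slot -/
def sA (f q : ℕ) : ℕ := (2 * uq f q - 4) * 2 ^ (lv f + q)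

def sL (f q : ℕ) : ℕ := (uq f q + 8) * 2 ^ (lv f + q)

/-- position bits and static parts of the slot of block `0` are the standard ones -/
structure SlotOK (f q : ℕ) (y : ℕ → Gam) : Prop where
  al : Aligned PP (lv f + q) (SU f q) y
  st : ∀ f' r', r' < gp f' → lv f' + r' < lv f + q → ∀ j ∈ spn (lv f + q - (lv f' + r')) (SU f q),
    (ctl y (lv f' + r') j).pay.s = spec f' r' j

/-- normal forms of the slot of block `0` -/
structure NF (f q : ℕ) (y : ℕ → Gam) : Prop where
  clean : Clean (lv f + q) (R2 f q) y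
  low : ∀ f' r', r' < gp f' → lv f' + r' < lv f + q → lv f' + r' ≠ lv f →
    ∀ j ∈ spn (lv f + q - (lv f' + r')) (R2 f q), (ctl y (lv f' + r') j).pay = canonR f' r' j
  rowS : ∀ j ∈ spn q (R2 f q), (rowPay y (lv f) j).s = spec f 0 j
  rowC : ∀ j ∈ spn q (R2 f q), j + 1 ∈ spn q (R2 f q) →
    (rowPay y (lv f) j).pm.cons (rowPay y (lv f) (j + 1)).pm ∧
    (rowPay y (lv f) j).oh.cons (rowPay y (lv f) (j + 1)).oh ∧
    (rowPay y (lv f) j).oc.cons (rowPay y (lv f) (j + 1)).oc ∧
    (rowPay y (lv f) j).gh.cons (rowPay y (lv f) (j + 1)).gh ∧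
    (rowPay y (lv f) j).gc.cons (rowPay y (lv f) (j + 1)).gc
  rowT : ∀ j ∈ spn q (R2 f q), (rowPay y (lv f) j).tok = true →
    2 * gp (f + 1) ≤ j ∧ j < 3 * gp (f + 1)

/-- physical cells (relative to a block) carrying a token bit in their slot field -/
def XLoc (f v : ℕ) : Prop :=
  (v + 1) % 2 ^ lv f = 2 ^ (lv f - 1) ∧ 2 * gp (f + 1) ≤ v / 2 ^ lv f ∧ v / 2 ^ lv f < 3 * gp (f + 1)

instance (f v : ℕ) : Decidable (XLoc f v) := by unfold XLoc; infer_instance

/-- change the token bit stored in a letter -/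
def setT (a : Gam) (b : Bool) : Gam := (a.1, { a.2 with pay := { a.2.pay with tok := b } })

/-- slot words -/
abbrev SW (f q : ℕ) := Fin (sL f q) → Gam

def nemb (f q : ℕ) (u : SW f q) : ℕ → Gam := fun p =>
  if h : sA f q ≤ p ∧ p < sA f q + sL f q then u ⟨p - sA f q, by omega⟩ else dflt0

def res (f q : ℕ) (y : ℕ → Gam) : SW f q := fun v => y (sA f q + v)

/-- erase the token -/
def erW (f q : ℕ) (u : SW f q) : SW f q := fun v =>
  if XLoc f (sA f q + v) then setT (u v) false else u v

/-- read the token -/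
def tkW (f q : ℕ) (u : SW f q) : Fin (sL f q) → Bool := fun v =>
  if XLoc f (sA f q + v) then (u v).2.pay.tok else false

open Classical in
/-- a chosen normal form -/
noncomputable def nfOf (f q : ℕ) (u : SW f q) : ℕ → Gam :=
  if h : ∃ y, (core PP).Eqv (spn (lv f + q) (SU f q)) (nemb f q u) y ∧ NF f q y then h.choose
  else nemb f q u

noncomputable def tyW (f q : ℕ) (u : SW f q) : SW f q := erW f q (res f q (nfOf f q u))

noncomputable def tokW (f q : ℕ) (u : SW f q) : Fin (sL f q) → Bool := tkW f q (res f q (nfOf f q u))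

theorem ndef_eqns_forced : True := by
  have := @Crest.Agent.R176.R2.eq_1
  have := @Crest.Agent.R176.res.eq_1
  have := @Crest.Agent.R176.sA.eq_1
  have := @Crest.Agent.R176.sL.eq_1
  have := @Crest.Agent.R176.uq.eq_1
  trivial

end Crest.Agent.R176
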