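import Crest.Agent.R176.PSoundB

/-! Row 176: soundness of the payload, backward steps of abstract states. -/

set_option autoImplicit false
set_option linter.unusedSectionVars false
set_option linter.unusedSimpArgs false

namespace Crest.Agent.R176

namespace PS

open Function

variable {e : Env} {σ : AS}

section
variable (he : e.OK) (h : Inv e σ) {t u t₂ u₂ : ℕ} (hN : Nx e.m t u t₂ u₂)
include he h hN

theorem b_wo {q : Hs} (h1 : (cell e σ t u).s.dl = false) (h2 : (cell e σ t₂ u₂).oh = .H q) :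
    Res e σ t u t₂ u₂ { cell e σ t u with oh := .H q } { cell e σ t₂ u₂ with oh := .L } := by
  obtain ⟨hu, rfl, rfl⟩ := hN.of_dl he h1
  rcases hA : σ.A t₂ with ⟨q', pos, c, c'⟩
  have ok := h.ok t₂
  have loc := h.loc t₂
  simp only [cell, pat_H, hA, AgS.ok] at h2 ok loc
  obtain ⟨rfl, rfl⟩ := h2
  refine res_set h hA ⟨q', u, c, c'⟩ ⟨by dsimp only; omega, ok.2⟩ loc rfl ?_ ?_ ?_ ?_
  · win hA
  · win hA
  · offs
  · offs

theorem b_wg {q : Hs} (h1 : (cell e σ t u).s.dl = false) (h2 : (cell e σ t₂ u₂).gh = .H q) :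
    Res e σ t u t₂ u₂ { cell e σ t u with gh := .H q } { cell e σ t₂ u₂ with gh := .L } := by
  obtain ⟨hu, rfl, rfl⟩ := hN.of_dl he h1
  obtain ⟨s, rfl, h2'⟩ := gh_H he h2
  clear h2
  rcases hA : σ.A s with ⟨q', pos, c, c'⟩
  have ok := h.ok s
  have loc := h.loc s
  simp only [hA, AgS.ok] at h2' ok loc
  obtain ⟨rfl, rfl⟩ := h2'
  refine res_set h hA ⟨q', e.m + u, c, c'⟩ ⟨by dsimp only; omega, ok.2⟩ loc rfl ?_ ?_ ?_ ?_
  · win hA
  · win hA
  · offs
  · offs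

theorem b_wc {q : Hs} (h1 : (cell e σ t u).s.dl = true) (h2 : (cell e σ t₂ u₂).gh = .H q) :
    Res e σ t u t₂ u₂ { cell e σ t u with oh := .H q } { cell e σ t₂ u₂ with gh := .L } := by
  obtain ⟨hu, rfl, rfl⟩ := hN.of_dl' he h1
  rcases hA : σ.A t with ⟨q', pos, c, c'⟩
  have ok := h.ok t
  have loc := h.loc t
  simp only [cell, gA_succ, pat_H, hA, AgS.ok] at h2 ok loc
  obtain ⟨rfl, rfl⟩ := h2
  refine res_set h hA ⟨q', u, c, c'⟩ ⟨by dsimp only; omega, ok.2⟩ loc rfl ?_ ?_ ?_ ?_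
  · win hA
  · win hA
  · offs
  · offs

theorem b_wp (h0 : (cell e σ t u).s.par = true)
    (h1 : ¬((cell e σ t u).s.dl = true ∧ (cell e σ t u).s.ce = true))
    (h2 : (cell e σ t₂ u₂).pm = .H false) :
    Res e σ t u t₂ u₂ { cell e σ t u with pm := .H false } { cell e σ t₂ u₂ with pm := .L } := by
  have ho : e.odd = true := (he.par t u).symm.trans h0
  have hc := hN.ct he h1
  simp only [cell, pmf, ho, if_true, pat2_H, hc] at h2
  have := res_mvp h ho hN hc h2.2.2 (Or.inl ⟨rfl, rfl⟩) (Or.inr ⟨h2.1, h2.2.1⟩)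
  rwa [pat2_H.2 ⟨rfl, rfl, rfl⟩, pat2_L.2 (by unfold Nx at hN; omega)] at this

theorem b_t0c (h2 : (cell e σ t u).oh = .H (.s1 .chk)) :
    Res e σ t u t₂ u₂ { cell e σ t u with oh := .H .idle } (cell e σ t₂ u₂) := by
  have hlt := hN.lt
  rcases hA : σ.A t with ⟨q', pos, c, c'⟩
  have ok := h.ok t
  have loc := h.loc t
  simp only [cell, pat_H, hA, AgS.ok] at h2 ok loc
  obtain ⟨rfl, rfl⟩ := h2
  refine res_set h hA ⟨.idle, pos, c, c'⟩ ok loc rfl ?_ ?_ ?_ ?_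
  · win hA
  · ysame hA hN
  · offs
  · offs

theorem b_t0 {μ : Md} (h0 : (cell e σ t u).s.hm = true)
    (h1 : (cell e σ t u).s.par = true) (h1' : (cell e σ t u).s.ce = false)
    (h2 : (cell e σ t u).oh = .H (.s1 μ)) (h3 : (cell e σ t u).pm = .H true) :
    Res e σ t u t₂ u₂ { cell e σ t u with oh := .H .idle, pm := .H false } (cell e σ t₂ u₂) := by
  have hlt := hN.lt
  obtain rfl := (he.hm t u hlt.1).1 h0
  have ho : e.odd = true := (he.par t _).symm.trans h1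
  rcases hA : σ.A t with ⟨q', pos, c, c'⟩
  have loc := h.loc t
  simp only [cell, pat_H, hA, pmf, ho, if_true, pat2_H] at h2 h3 loc
  obtain ⟨rfl, rfl⟩ := h2
  exact res_flag h hA (q' := .idle) loc ho h3.1 h3.2.1 ((he.ce t _ hlt.1).symm.trans h1') rfl rfl hN

theorem b_t1 {μ : Md} (h1 : (cell e σ t u).s.df = true) (h2 : (cell e σ t u).oh = .H (.q0 μ))
    (h3 : (cell e σ t u).oc = .H ()) :
    Res e σ t u t₂ u₂ { cell e σ t u with oh := .H (.s1 μ) } (cell e σ t₂ u₂) := by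
  have hlt := hN.lt
  obtain rfl := (he.df t u hlt.1).1 h1
  rcases hA : σ.A t with ⟨q', pos, c, c'⟩
  have ok := h.ok t
  have loc := h.loc t
  simp only [cell, pat_H, hA, AgS.ok, and_true] at h2 h3 ok loc
  obtain ⟨rfl, rfl⟩ := h2
  subst h3
  obtain ⟨rfl, -⟩ := loc
  refine res_set h hA ⟨.s1 μ, 0, 0, 0⟩ ok ⟨rfl, rfl⟩ rfl ?_ ?_ ?_ ?_
  · win hA
  · cases μ <;> ysame hA hN
  · cases μ <;> offs
  · cases μ <;> offs

theorem b_t2 {μ : Md} {β : Bool} (τ : Bool) (h1 : (cell e σ t u).s.dl = false)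
    (h2 : (cell e σ t u).oh = .H (.q1 μ β)) (h3 : (cell e σ t₂ u₂).oc = .H ())
    (h4 : μ = .swp → τ = β) (h5 : μ ≠ .swp → τ = (cell e σ t u).tok) :
    Res e σ t u t₂ u₂ { cell e σ t u with oh := .H (.q0 μ), oc := .H (), tok := τ }
      { cell e σ t₂ u₂ with oc := .L } := by
  obtain ⟨hu, rfl, rfl⟩ := hN.of_dl he h1
  rcases hA : σ.A t₂ with ⟨q', pos, c, c'⟩
  have ok := h.ok t₂
  have loc := h.loc t₂
  have hp := h.sw_prev he (t := t₂)
  simp only [cell, pat_H, hA, AgS.ok, and_true] at h2 h3 ok loc hp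
  obtain ⟨rfl, rfl⟩ := h2
  subst h3
  obtain ⟨hc, loc⟩ := loc
  obtain rfl : pos = c' := by omega
  refine res_set h hA ⟨.q0 μ, pos, pos, pos⟩ ⟨ok.1, ok.2.2, ok.2.2⟩ ⟨rfl, loc.2.2⟩ rfl ?_ ?_ ?_ ?_
  · cases μ
    · obtain rfl := h5 (by simp)
      win hA
    · obtain rfl := h5 (by simp)
      win hA
    · obtain rfl := h4 rfl
      have hp := hp rfl
      have := loc.2.1 (by simp)
      apply Cell.ext <;> simp [cell, AS.set, tk, tkO, tkG, pmf, hA, pat_H, hp, this]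
  · cases μ <;> win hA
  · cases μ <;> offs
  · cases μ <;> offs

theorem b_t3 {μ : Md} {β' : Bool} (β τ : Bool) (h1 : (cell e σ t u).s.dl = false)
    (h2 : (cell e σ t u).gh = .H (.q2 μ β')) (h3 : (cell e σ t₂ u₂).gc = .H ())
    (h4 : μ = .chk → β = (cell e σ t u).s.pb) (h5 : μ ≠ .chk → β = (cell e σ t u).tok)
    (h6 : μ = .swp → τ = β') (h7 : μ ≠ .swp → τ = (cell e σ t u).tok) :
    Res e σ t u t₂ u₂ { cell e σ t u with gh := .H (.q1 μ β), gc := .H (), tok := τ }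
      { cell e σ t₂ u₂ with gc := .L } := by
  obtain ⟨hu, rfl, rfl⟩ := hN.of_dl he h1
  obtain ⟨s, rfl, h2'⟩ := gh_H he h2
  clear h2
  rcases hA : σ.A s with ⟨q', pos, c, c'⟩
  have ok := h.ok s
  have loc := h.loc s
  have hp := h.sw_next he (t := s)
  simp only [cell, gA_succ, pat_H, hA, AgS.ok, and_true] at h2' h3 ok loc hp
  obtain ⟨rfl, rfl⟩ := h2'
  subst h3
  obtain ⟨rfl, loc⟩ := loc
  refine res_set h hA ⟨.q1 μ β, e.m + u, u + 1, u⟩ ⟨ok.1, hu, by dsimp only; omega⟩ ?_ rfl ?_ ?_ ?_ ?_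
  · refine ⟨rfl, fun hμ => ?_, fun hμ => ?_, fun hμ v hv => loc.2.2.2 hμ v (by dsimp only at hv; omega)⟩
    · rw [h4 hμ, he.chk s u (by omega)]; rfl
    · rw [h5 hμ]
      cases μ
      · exact absurd rfl hμ
      · have hp := hp rfl
        simp [cell, tk, tkO, tkG, hA, hp, loc.2.2.2 rfl u (by omega)]
      · have hp := hp rfl
        simp [cell, tk, tkO, tkG, hA, hp]
  · cases μ
    · obtain rfl := h7 (by simp)
      win hA
    · obtain rfl := h7 (by simp)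
      win hA
    · obtain rfl := h6 rfl
      have hp := hp rfl
      have := loc.2.2.1 rfl
      apply Cell.ext <;> simp [cell, AS.set, tk, tkO, tkG, pmf, hA, pat_H, hp, this]
  · cases μ <;> win hA
  · cases μ <;> offs
  · cases μ <;> offs

theorem b_t4 {μ : Md} (β τ : Bool) (h1 : (cell e σ t u).s.dl = false)
    (h2 : (cell e σ t u).oh = .H (.q0 μ)) (h3 : (cell e σ t₂ u₂).oc = .H ())
    (h4 : μ = .swp → τ = false ∧ β = (cell e σ t u).tok)
    (h5 : μ ≠ .swp → β = false ∧ τ = (cell e σ t u).tok) :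
    Res e σ t u t₂ u₂ { cell e σ t u with oh := .H (.q2 μ β), tok := τ } (cell e σ t₂ u₂) := by
  obtain ⟨hu, rfl, rfl⟩ := hN.of_dl he h1
  rcases hA : σ.A t₂ with ⟨q', pos, c, c'⟩
  have ok := h.ok t₂
  have loc := h.loc t₂
  simp only [cell, pat_H, hA, AgS.ok, and_true] at h2 h3 ok loc
  obtain ⟨rfl, rfl⟩ := h2
  subst h3
  obtain ⟨rfl, loc⟩ := loc
  refine res_set h hA ⟨.q2 μ β, pos, pos + 1, pos + 1⟩ ok ?_ rfl ?_ ?_ ?_ ?_
  · refine ⟨rfl, by simp, fun hμ => (h5 hμ).1, fun hμ => ?_, loc⟩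
    subst hμ
    rw [(h4 rfl).2]
    simp [cell, tk, tkO, hA]
  · cases μ
    · obtain ⟨rfl, rfl⟩ := h5 (by simp)
      win hA
    · obtain ⟨rfl, rfl⟩ := h5 (by simp)
      win hA
    · obtain ⟨rfl, -⟩ := h4 rfl
      win hA
  · cases μ <;> ysame hA hN
  · cases μ <;> offs
  · cases μ <;> offs

theorem b_t5 (h1 : (cell e σ t₂ u₂).s.dl = true) (h2 : (cell e σ t u).oh = .H .e1)
    (h3 : (cell e σ t₂ u₂).oc = .H ()) :
    Res e σ t u t₂ u₂ { cell e σ t u with oh := .H (.q0 .swp) } (cell e σ t₂ u₂) := by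
  obtain ⟨hu, rfl, rfl⟩ := hN.of_dl₂ he h1
  rcases hA : σ.A t₂ with ⟨q', pos, c, c'⟩
  have loc := h.loc t₂
  have hp := h.sw_prev he (t := t₂)
  have hn := h.sw_next he (t := t₂)
  simp only [cell, pat_H, hA, and_true] at h2 h3 loc hp hn
  obtain ⟨rfl, rfl⟩ := h2
  subst h3
  have loc : c' + 1 = e.m := loc
  obtain rfl : c' = pos + 1 := by omega
  refine res_swap he h hA (q' := .q0 .swp) (fun _ => ⟨rfl, by simp⟩) rfl rfl (fun t u' hu' => ?_) hN
  refine (tk_swap (σ := σ.swap t₂ ⟨.q0 .swp, pos, pos + 1, pos + 1⟩) (σ' := σ) (t₀ := t₂)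
    (fun s hs => (update_of_ne hs _ _).symm) (by simp [AS.swap]) (by simpa [AS.swap] using hu)
    (by simpa [AS.swap] using hu) (by rw [hA]) (fun _ => by simp [AS.swap])
    (by simpa [AS.swap] using hn rfl) (by simpa [AS.swap] using hp rfl)
    (fun s => h.last he _) t u' hu').symm

theorem b_t6 (h1 : (cell e σ t₂ u₂).s.dl = true) (h2 : (cell e σ t u).gh = .H .e2)
    (h3 : (cell e σ t₂ u₂).gc = .H ()) :
    Res e σ t u t₂ u₂ { cell e σ t u with gh := .H .e1 } (cell e σ t₂ u₂) := by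
  obtain ⟨hu, rfl, rfl⟩ := hN.of_dl₂ he h1
  obtain ⟨s, rfl, h2'⟩ := gh_H he h2
  clear h2
  rcases hA : σ.A s with ⟨q', pos, c, c'⟩
  have ok := h.ok s
  simp only [cell, gA_succ, pat_H, hA, AgS.ok, and_true] at h2' h3 ok
  obtain ⟨rfl, rfl⟩ := h2'
  subst h3
  refine res_set h hA ⟨.e1, e.m + u, c, u + 1⟩ ok hu rfl ?_ ?_ ?_ ?_
  · win hA
  · ysame hA hN
  · offs
  · offs

theorem b_dro (h1 : (cell e σ t u).s.dl = false) (h2 : (cell e σ t u).oh = .H .e2)
    (h3 : (cell e σ t₂ u₂).oc = .H ()) :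
    Res e σ t u t₂ u₂ { cell e σ t u with oc := .H () } { cell e σ t₂ u₂ with oc := .L } := by
  obtain ⟨hu, rfl, rfl⟩ := hN.of_dl he h1
  rcases hA : σ.A t₂ with ⟨q', pos, c, c'⟩
  have ok := h.ok t₂
  simp only [cell, pat_H, hA, AgS.ok, and_true] at h2 h3 ok
  obtain ⟨rfl, rfl⟩ := h2
  subst h3
  refine res_set h hA ⟨.e2, pos, pos, c'⟩ ⟨ok.1, by dsimp only; omega, ok.2.2⟩ trivial rfl ?_ ?_ ?_ ?_
  · win hA
  · win hA
  · offs
  · offs

theorem b_drg (h1 : (cell e σ t u).s.dl = false) (h2 : (cell e σ t u).gh = .H .e2)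
    (h3 : (cell e σ t₂ u₂).gc = .H ()) :
    Res e σ t u t₂ u₂ { cell e σ t u with gc := .H () } { cell e σ t₂ u₂ with gc := .L } := by
  obtain ⟨hu, rfl, rfl⟩ := hN.of_dl he h1
  obtain ⟨s, rfl, h2'⟩ := gh_H he h2
  clear h2
  rcases hA : σ.A s with ⟨q', pos, c, c'⟩
  have ok := h.ok s
  simp only [cell, gA_succ, pat_H, hA, AgS.ok, and_true] at h2' h3 ok
  obtain ⟨rfl, rfl⟩ := h2'
  subst h3
  refine res_set h hA ⟨.e2, e.m + u, c, u⟩ ⟨ok.1, ok.2.1, by dsimp only; omega⟩ trivial rfl ?_ ?_ ?_ ?_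
  · win hA
  · win hA
  · offs
  · offs

theorem b_t7 (h2 : (cell e σ t u).oh = .H .e3) :
    Res e σ t u t₂ u₂ { cell e σ t u with oh := .H .e2 } (cell e σ t₂ u₂) := by
  have hlt := hN.lt
  rcases hA : σ.A t with ⟨q', pos, c, c'⟩
  have ok := h.ok t
  simp only [cell, pat_H, hA, AgS.ok, and_true] at h2 ok
  obtain ⟨rfl, rfl⟩ := h2
  refine res_set h hA ⟨.e2, pos, c, c'⟩ ok trivial rfl ?_ ?_ ?_ ?_
  · win hA
  · ysame hA hN
  · offs
  · offs

theorem b_t8 (h2 : (cell e σ t u).gh = .H (.s1 .swp)) :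
    Res e σ t u t₂ u₂ { cell e σ t u with gh := .H .e3 } (cell e σ t₂ u₂) := by
  have hlt := hN.lt
  obtain ⟨s, rfl, h2'⟩ := gh_H he h2
  clear h2
  rcases hA : σ.A s with ⟨q', pos, c, c'⟩
  have ok := h.ok s
  have loc := h.loc s
  simp only [cell, gA_succ, pat_H, hA, AgS.ok, and_true] at h2' ok loc
  obtain ⟨rfl, rfl⟩ := h2'
  refine res_set h hA ⟨.e3, e.m + u, c, c'⟩ ok loc.1 rfl ?_ ?_ ?_ ?_
  · win hA
  · ysame hA hN
  · offs
  · offs

theorem bwd {x y : Cell} (hs : PStep x y (cell e σ t u) (cell e σ t₂ u₂)) :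
    Res e σ t u t₂ u₂ x y := by
  generalize hx : cell e σ t u = x' at hs
  generalize hy : cell e σ t₂ u₂ = y' at hs
  rcases x with ⟨xs, xt, xp, xoh, xoc, xgh, xgc⟩
  rcases y with ⟨ys, yt, yp, yoh, yoc, ygh, ygc⟩
  cases hs with
  | wo h1 h2 h3 =>
    dsimp only at h1 h2 h3; subst h2 h3
    have := b_wo he h hN (by rw [hx]; exact h1) (by rw [hy])
    rwa [hx, hy] at this
  | wg h1 h2 h3 =>
    dsimp only at h1 h2 h3; subst h2 h3
    have := b_wg he h hN (by rw [hx]; exact h1) (by rw [hy])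
    rwa [hx, hy] at this
  | wc h1 h2 h3 =>
    dsimp only at h1 h2 h3; subst h2 h3
    have := b_wc he h hN (by rw [hx]; exact h1) (by rw [hy])
    rwa [hx, hy] at this
  | wp h0 h1 h2 h3 =>
    dsimp only at h0 h1 h2 h3; subst h2 h3
    have := b_wp he h hN (by rw [hx]; exact h0) (by rw [hx]; exact h1) (by rw [hy])
    rwa [hx, hy] at this
  | t0c h1 h2 =>
    dsimp only at h1 h2; subst h2
    have := b_t0c he h hN (by rw [hx])
    rwa [hx, hy] at this
  | t0 h0 hμ h1 h1' h2 h3 =>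
    dsimp only at h0 h1 h1' h2 h3; subst h2 h3
    have := b_t0 he h hN (by rw [hx]; exact h0) (by rw [hx]; exact h1) (by rw [hx]; exact h1')
      (by rw [hx]) (by rw [hx])
    rwa [hx, hy] at this
  | t1 h1 h2 h3 =>
    dsimp only at h1 h2 h3; subst h2 h3
    have := b_t1 he h hN (by rw [hx]; exact h1) (by rw [hx]) (by rw [hx])
    rwa [hx, hy] at this
  | @t2 μ h1 h2 h3 h4 =>
    dsimp only at h1 h2 h3 h4; subst h2 h3 h4
    have := b_t2 he h hN xt (by rw [hx]; exact h1) (by rw [hx]) (by rw [hy])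
      (by rintro rfl; rfl) (by rw [hx]; cases μ <;> simp [rdT])
    rwa [hx, hy] at this
  | @t3 μ β h1 h2 h3 h4 h5 =>
    dsimp only at h1 h2 h3 h4; subst h2 h3 h4
    have := b_t3 he h hN β xt (by rw [hx]; exact h1) (by rw [hx]) (by rw [hy])
      (by rintro rfl; rw [hx]; exact h5) (by rw [hx]; cases μ <;> simp_all [exT, exOK])
      (by rintro rfl; rfl) (by rw [hx]; cases μ <;> simp [exT])
    rwa [hx, hy] at this
  | @t4 μ β h1 h2 h3 h4 h5 =>
    dsimp only at h1 h2 h3 h4; subst h2 h3 h4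
    have := b_t4 he h hN β xt (by rw [hx]; exact h1) (by rw [hx]) (by rw [hy])
      (by rintro rfl; rw [hx]; exact ⟨h5, rfl⟩) (by rw [hx]; cases μ <;> simp_all [wrT, wrOK])
    rwa [hx, hy] at this
  | t5 h1 h2 h3 =>
    dsimp only at h1 h2 h3; subst h2 h3
    have := b_t5 he h hN (by rw [hy]; exact h1) (by rw [hx]) (by rw [hy])
    rwa [hx, hy] at this
  | t6 h1 h2 h3 =>
    dsimp only at h1 h2 h3; subst h2 h3
    have := b_t6 he h hN (by rw [hy]; exact h1) (by rw [hx]) (by rw [hy])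
    rwa [hx, hy] at this
  | dro h1 h2 h3 h4 =>
    dsimp only at h1 h2 h3 h4; subst h2 h3 h4
    have := b_dro he h hN (by rw [hx]; exact h1) (by rw [hx]) (by rw [hy])
    rwa [hx, hy] at this
  | drg h1 h2 h3 h4 =>
    dsimp only at h1 h2 h3 h4; subst h2 h3 h4
    have := b_drg he h hN (by rw [hx]; exact h1) (by rw [hx]) (by rw [hy])
    rwa [hx, hy] at this
  | t7 h1 h2 h3 =>
    dsimp only at h1 h2 h3; subst h2 h3
    have := b_t7 he h hN (by rw [hx])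
    rwa [hx, hy] at this
  | t8 h1 h2 h3 =>
    dsimp only at h1 h2 h3; subst h2 h3
    have := b_t8 he h hN (by rw [hx])
    rwa [hx, hy] at this

end

end PS

end Crest.Agent.R176
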