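import Crest.Agent.R176.PSoundB

/-! Row 176: soundness of the payload, legitimate rows have no kill. -/

set_option autoImplicit false

namespace Crest.Agent.R176

namespace PS

open Function

variable {e : Env} {σ : AS}

theorem pat_ne_L {Q : Type} (a : ℕ) (q : Q) : pat a q 0 ≠ .L := by
  rw [Ne, pat_L]; omega

theorem Inv.gok (he : e.OK) (h : Inv e σ) (t : ℕ) : (gA σ.A t).ok e.m := by
  cases t with
  | zero => have := he.m2; exact ⟨by simp; omega, by simp [AgS.idle]; omega, by simp; omega⟩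
  | succ t => exact h.ok t

theorem Inv.tk_true (h : Inv e σ) {t u : ℕ} (ht : tk σ t u = true) : e.odd = true ∧ e.Z u := by
  unfold tk tkO tkG at ht
  split_ifs at ht <;> exact h.zone _ _ ht

theorem pat2_cons {m t u t₂ u₂ b o : ℕ} (hN : Nx m t u t₂ u₂) (ho : o < m) (v : Bool) :
    (pat2 b o v t u).cons (pat2 b o v t₂ u₂) := by
  unfold Nx at hN
  unfold pat2 pat
  split_ifs <;> first | constructor | omega

theorem pok (he : e.OK) (h : Inv e σ) {t u t₂ u₂ : ℕ} (hN : Nx e.m t u t₂ u₂) :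
    POK (cell e σ t u) (cell e σ t₂ u₂) := by
  have hlt := hN.lt
  have ok := h.ok t
  have gok := h.gok he t
  have loc := h.loc t
  have hpar : (cell e σ t u).s.par = e.odd := he.par t u
  refine ⟨he.okh _ _ _ _ hN, fun hm => ?_, fun ht => ?_, fun hp => ?_, fun hd => ?_, fun hd => ?_,
    fun hd => ?_, fun hp hd => ?_, fun hp hd hc => ?_, fun hp hd hb => ?_, fun μ hμ hq => ?_,
    fun μ β hd hq _ hc => ?_, fun μ β hd hq hc => ?_, fun μ β hd hq hc => ?_,
    fun q hd hq hq' => ?_, fun q hd hq hq' => ?_, fun hd hq => ?_, fun β hq hc => ?_,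
    fun hd hq hc => ?_, fun μ hh hq hμ => ?_, fun hh hq hp => ?_, fun hp => ?_⟩
  · exact absurd ((he.mr t u).symm.trans hm) (by simp)
  · exact ⟨he.zn t u (h.tk_true ht).2, hpar.trans (h.tk_true ht).1⟩
  · simp [cell, pmf, hpar.symm.trans hp]
  · obtain ⟨-, rfl, rfl⟩ := hN.of_dl he hd
    exact ⟨pat_cons _ _ _, pat_cons _ _ _, pat_cons _ _ _, pat_cons _ _ _⟩
  · obtain ⟨hu, rfl, rfl⟩ := hN.of_dl' he hd
    refine ⟨?_, ?_, ?_, ?_⟩
    · simp only [cell, gA_succ, ← hu]
      exact pat_cons _ _ _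
    · simp only [cell, Ne, pat_R]; have := gok.1; omega
    · simp only [cell, Ne, pat_R]; have := ok.2.1; omega
    · simp only [cell, Ne, pat_R]; have := gok.2.2; omega
  · obtain rfl := (he.df t u hlt.1).1 hd
    exact ⟨pat_ne_L _ _, pat_ne_L _ _, pat_ne_L _ _⟩
  · simp only [cell, pmf, hpar.symm.trans hp, if_true, hN.ct he hd]
    exact pat2_cons hN (h.po _) _
  · have h1 := (he.dl t u hlt.1).1 hd
    have h2 := he.ct_last t ((he.ce t u hlt.1).symm.trans hc) _ (h.pbc t)
    have h3 := h.po (e.ct t)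
    simp only [cell, pmf, hpar.symm.trans hp, if_true, Ne, pat2_R]
    omega
  · obtain rfl := (he.df t u hlt.1).1 hd
    have h2 := he.bo t hb _ (h.pbc t)
    simp only [cell, pmf, hpar.symm.trans hp, if_true, Ne, pat2_L]
    omega
  · rw [(pat_H.1 hq).2] at loc
    exact absurd (loc.2.2.1 hμ) (by simp)
  · obtain ⟨-, rfl, rfl⟩ := hN.of_dl he hd
    replace hq := (pat_H.1 hq).2
    replace hc := (pat_H.1 hc).1
    have hp := h.sw_prev he (t := t₂)
    rw [hq] at loc hp
    obtain ⟨h1, h2, h3, -⟩ := loc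
    obtain rfl : u = (σ.A t₂).c' := by omega
    cases μ
    · exact h2 rfl
    · simp [unrdOK, cell, tk, tkO, tkG, hq, hp rfl, h3]
    · simp [unrdOK, cell, tk, tkO, hq, hc]
  · obtain rfl := (he.df t u hlt.1).1 hd
    rw [(pat_H.1 hq).2] at loc
    have := (pat_H.1 hc).1
    have := loc.1
    omega
  · obtain rfl := (he.df t u hlt.1).1 hd
    obtain ⟨s, rfl, -, hq⟩ := gh_H he hq
    have loc := h.loc s
    rw [hq] at loc
    have : (σ.A s).c' = 0 := (pat_H.1 hc).1
    exact loc.2.1 (loc.1.trans this)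
  · obtain rfl := (he.df t u hlt.1).1 hd
    rw [(pat_H.1 hq).2] at loc
    refine pat_H.2 ⟨?_, rfl⟩
    rcases hq' with rfl | ⟨μ, rfl⟩ | rfl
    exacts [loc.1, loc.1, loc]
  · obtain rfl := (he.df t u hlt.1).1 hd
    obtain ⟨s, rfl, -, hq⟩ := gh_H he hq
    have loc := h.loc s
    rw [hq] at loc
    refine pat_H.2 ⟨?_, rfl⟩
    rcases hq' with rfl | ⟨μ, rfl⟩
    exacts [loc.2, loc.2]
  · obtain ⟨hu, rfl, rfl⟩ := hN.of_dl₂ he hd
    obtain ⟨s, rfl, -, hq⟩ := gh_H he hq
    have loc := h.loc s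
    rw [hq] at loc
    have loc : (σ.A s).c' + 1 = e.m := loc
    exact pat_H.2 ⟨by rw [gA_succ]; omega, rfl⟩
  · obtain ⟨s, rfl, -, hq⟩ := gh_H he hq
    have loc := h.loc s
    rw [hq] at loc
    obtain rfl : (σ.A s).c' = u := (pat_H.1 hc).1
    exact (loc.2.1 rfl).trans (he.chk _ _ hlt.1)
  · obtain ⟨hu, rfl, rfl⟩ := hN.of_dl₂ he hd
    have hq := (pat_H.1 hq).2
    have hc := (pat_H.1 hc).1
    have ha : act (σ.A t₂).q = true := by rw [hq]; rfl
    rw [hq] at loc
    have h1 := loc.1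
    have h2 := loc.2 rfl
    have h3 : σ.T t₂ = σ.T (t₂ + 1) := by
      funext v
      by_cases hv : v + 1 < e.m
      · exact h2 v (by omega)
      · have : ∀ s, σ.T s v = false := fun s => by
          by_contra hc
          exact hv (he.zm v (h.zone s v (by simpa using hc)).2)
        rw [this, this]
    have := h.inj ((h.act _).1 ha).1 _ _ (he.ct_succ _ (h.actE _ ha)).symm h3
    omega
  · obtain rfl := (he.hm t u hlt.1).1 hh
    have ha : act (σ.A t).q = true := by rw [(pat_H.1 hq).2, act_s1, md_of_ne hμ]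
    obtain ⟨h1, h2, h3⟩ := (h.act t).1 ha
    refine ⟨hpar.trans h1, (he.ce t _ hlt.1).trans (h.actE t ha), ?_⟩
    simp only [cell, pmf, h1, if_true]
    exact pat2_H.2 ⟨h2, h.hvh _ h3, h3⟩
  · by_cases ho : e.odd = true
    · simp only [cell, pmf, ho, if_true, pat2_H] at hp
      have := (h.act t).2 ⟨ho, hp.1, hp.2.2⟩
      rw [(pat_H.1 hq).2] at this
      simp at this
    · simp [cell, pmf, ho] at hp
  · by_cases ho : e.odd = true
    · simp only [cell, pmf, ho, if_true, pat2_H] at hp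
      exact (he.hm t u hlt.1).2 (hp.2.1.symm.trans (h.hvh _ hp.2.2))
    · simp [cell, pmf, ho] at hp

end PS

end Crest.Agent.R176
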