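import Crest.Agent.R176.PAg1
import Crest.Agent.R176.PSpec
import Crest.Agent.R176.MSound
import Crest.Agent.R176.PSoundC
import Crest.Agent.R176.PSoundD

/-! Row 176: soundness of the payload: the canonical rows are not dead. -/

set_option autoImplicit false

namespace Crest.Agent.R176

open WSys

namespace PS

/-- the static data of the mark row `lv f` -/
def envOf (f : ℕ) : Env where
  m := 2 ^ gp f
  h := 2 ^ gp f / 2 - 1
  odd := decide (f % 2 = 1)
  S t u := spec f 0 (t * 2 ^ gp f + u)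
  E t := decide ((t + 1) % 2 ^ gp (f + 1) = 0)
  ct t := t / 2 ^ gp (f + 1)
  Z u := 2 * gp (f + 1) ≤ u ∧ u < 3 * gp (f + 1)

theorem blk_div {m u : ℕ} (t : ℕ) (hu : u < m) : (t * m + u) / m = t := by
  rw [Nat.add_comm, Nat.add_mul_div_right _ _ (by omega), Nat.div_eq_of_lt hu, Nat.zero_add]

theorem blk_mod {m u : ℕ} (t : ℕ) (hu : u < m) : (t * m + u) % m = u := by
  rw [Nat.add_comm, Nat.add_mul_mod_self_right, Nat.mod_eq_of_lt hu]

theorem Nx.eq {m t u t₂ u₂ : ℕ} (h : Nx m t u t₂ u₂) : t₂ * m + u₂ = t * m + u + 1 := by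
  rcases h with ⟨-, rfl, rfl⟩ | ⟨h, rfl, rfl⟩
  · rfl
  · rw [Nat.add_mul]; omega

theorem exists_nx {m : ℕ} (hm : 0 < m) (i : ℕ) :
    ∃ t u t₂ u₂, Nx m t u t₂ u₂ ∧ i = t * m + u ∧ i + 1 = t₂ * m + u₂ := by
  have h1 := Nat.mod_lt i hm
  have h2 : i = i / m * m + i % m := (Nat.div_add_mod' i m).symm
  have : ∃ t₂ u₂, Nx m (i / m) (i % m) t₂ u₂ := by
    by_cases h : i % m + 1 < m
    · exact ⟨_, _, Or.inl ⟨h, rfl, rfl⟩⟩
    · exact ⟨_, _, Or.inr ⟨by omega, rfl, rfl⟩⟩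
  obtain ⟨t₂, u₂, h⟩ := this
  exact ⟨_, _, t₂, u₂, h, h2, by rw [h.eq, ← h2]⟩

theorem blk_inj {m t u t' u' : ℕ} (hu : u < m) (hu' : u' < m) (h : t' * m + u' = t * m + u) :
    t' = t ∧ u' = u :=
  ⟨by rw [← blk_div t' hu', h, blk_div t hu], by rw [← blk_mod t' hu', h, blk_mod t hu]⟩

theorem envOf_ok (f : ℕ) : (envOf f).OK := by
  have h4 := four_mul_gp f
  have h5 := gp_ge (f + 1)
  have hIF := spec_IF f Set.univ
  have hK : 0 < 2 ^ gp (f + 1) := by positivity
  refine ⟨?_, fun t u hu => ?_, fun t u hu => ?_, fun t u hu => ?_, fun t u => rfl, fun t u hu => ?_,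
    fun t ht => ?_, fun t ht s hs => ?_, fun t ht s hs => ?_, fun t u _ => ?_, fun t u => rfl,
    fun t u hu => ?_, fun u hu => ?_, fun t u t₂ u₂ hN => ?_⟩
  all_goals simp only [envOf] at *
  · omega
  · rw [hIF.df _ trivial, blk_mod t hu, decide_eq_true_iff]
  · rw [hIF.dl _ trivial, blk_mod t hu, decide_eq_true_iff]
  · rw [hIF.hm _ trivial, blk_mod t hu, decide_eq_true_iff]; omega
  · rw [Bool.eq_iff_iff, spec_ce, blk_div t hu, decide_eq_true_iff]
  · exact Nat.succ_div_of_not_dvd (by simpa [Nat.dvd_iff_mod_eq_zero] using ht)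
  · have h1 := Nat.succ_div_of_dvd (Nat.dvd_of_mod_eq_zero (by simpa using ht))
    by_contra hc
    have := Nat.div_le_div_right (c := 2 ^ gp (f + 1)) (show t + 1 ≤ s by omega)
    omega
  · rw [Nat.add_zero, spec_bo] at ht
    have h1 := Nat.div_add_mod t (2 ^ gp (f + 1))
    have h2 := Nat.div_add_mod s (2 ^ gp (f + 1))
    rw [hs] at h2
    omega
  · rw [spec_chk, show t * 2 ^ gp f + u + 2 ^ gp f = (t + 1) * 2 ^ gp f + u by ring]
  · rw [spec_zn_X, blk_mod t (by omega)]; exact hu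
  · omega
  · rw [hN.eq]; exact spec_OKH (by have := gp_ge f; omega) _

def Legit (f : ℕ) (p : ℕ → Cell) : Prop :=
  ∃ σ, Inv (envOf f) σ ∧ ∀ t u, u < 2 ^ gp f → p (t * 2 ^ gp f + u) = cell (envOf f) σ t u

theorem Legit.of_res {f : ℕ} {p p' : ℕ → Cell} {σ : AS} {t u t₂ u₂ : ℕ}
    (hN : Nx (2 ^ gp f) t u t₂ u₂)
    (hp : ∀ t u, u < 2 ^ gp f → p (t * 2 ^ gp f + u) = cell (envOf f) σ t u)
    (ho : ∀ j, j ≠ t * 2 ^ gp f + u → j ≠ t₂ * 2 ^ gp f + u₂ → p' j = p j)
    (h : Res (envOf f) σ t u t₂ u₂ (p' (t * 2 ^ gp f + u)) (p' (t₂ * 2 ^ gp f + u₂))) :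
    Legit f p' := by
  obtain ⟨σ', h1, h2, h3, h4⟩ := h
  refine ⟨σ', h1, fun t' u' hu' => ?_⟩
  by_cases e1 : t' = t ∧ u' = u
  · rw [e1.1, e1.2, h2]
  · by_cases e2 : t' = t₂ ∧ u' = u₂
    · rw [e2.1, e2.2, h3]
    · rw [h4 t' u' hu' ⟨e1, e2⟩, ← hp t' u' hu']
      exact ho _ (fun e => e1 (blk_inj hN.lt.1 hu' e)) fun e => e2 (blk_inj hN.lt.2 hu' e)

theorem legit_step (f : ℕ) (p p' : ℕ → Cell) (h : RW.Step Set.univ p p') :
    Legit f p ↔ Legit f p' := by
  rcases step_iff.1 h with ⟨i, -, h, -⟩ | ⟨i, -, -, h, ho⟩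
  · exact h.elim
  obtain ⟨t, u, t₂, u₂, hN, e1, e2⟩ := exists_nx (show 0 < 2 ^ gp f by positivity) i
  replace h : PStep (p i) (p (i + 1)) (p' i) (p' (i + 1)) := h
  rw [e2] at h ho
  rw [e1] at h ho
  constructor
  · rintro ⟨σ, hσ, hp⟩
    refine Legit.of_res hN hp ho (fwd (envOf_ok f) hσ hN ?_)
    rwa [← hp _ _ hN.lt.1, ← hp _ _ hN.lt.2]
  · rintro ⟨σ, hσ, hp⟩
    refine Legit.of_res hN hp (fun j h1 h2 => (ho j h1 h2).symm) (bwd (envOf_ok f) hσ hN ?_)
    rwa [← hp _ _ hN.lt.1, ← hp _ _ hN.lt.2]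

theorem Legit.pok {f : ℕ} {p : ℕ → Cell} (h : Legit f p) (i : ℕ) : POK (p i) (p (i + 1)) := by
  obtain ⟨σ, hσ, hp⟩ := h
  obtain ⟨t, u, t₂, u₂, hN, e1, e2⟩ := exists_nx (show 0 < 2 ^ gp f by positivity) i
  rw [e2, e1, hp _ _ hN.lt.1, hp _ _ hN.lt.2]
  exact PS.pok (envOf_ok f) hσ hN

/-- the abstract state of the canonical row -/
def σ₀ (f : ℕ) : AS where
  A _ := AgS.idle
  T t u := decide (f % 2 = 1 ∧ 2 * gp (f + 1) ≤ u ∧ u < 3 * gp (f + 1)) &&
    (t % 2 ^ gp (f + 1)).testBit (u - 2 * gp (f + 1))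
  pb c := c * 2 ^ gp (f + 1)
  po _ := 0
  hv _ := false

theorem legit_canon (f : ℕ) : Legit f (canon f) := by
  have hm : 0 < 2 ^ gp f := by positivity
  have hK : 0 < 2 ^ gp (f + 1) := by positivity
  refine ⟨σ₀ f, ⟨fun t => ⟨by simpa [σ₀, envOf] using hm, hm, hm⟩, fun t => ⟨rfl, rfl⟩,
    fun t => by simp [σ₀], fun t => by simp [σ₀], fun t => ?_, fun _ => hm, fun c => by simp [σ₀],
    fun t u h => ?_, fun ho t t' hc hT => ?_⟩, fun t u hu => ?_⟩
  · exact Nat.mul_div_cancel _ hK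
  · simp only [σ₀, Bool.and_eq_true, decide_eq_true_iff] at h
    exact ⟨by simp [envOf, h.1.1], h.1.2⟩
  · simp only [envOf, decide_eq_true_iff] at ho hc
    have h1 : t % 2 ^ gp (f + 1) = t' % 2 ^ gp (f + 1) := by
      refine Nat.eq_of_testBit_eq fun i => ?_
      by_cases hi : i < gp (f + 1)
      · have := congrFun hT (2 * gp (f + 1) + i)
        simpa [σ₀, ho, show 2 * gp (f + 1) + i < 3 * gp (f + 1) by omega] using this
      · simp [Nat.testBit_mod_two_pow, hi]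
    rw [← Nat.div_add_mod t (2 ^ gp (f + 1)), ← Nat.div_add_mod t' (2 ^ gp (f + 1)), hc, h1]
  · have hG : gA (σ₀ f).A t = AgS.idle := by cases t <;> rfl
    refine Cell.ext rfl ?_ ?_ ?_ ?_ ?_ ?_
    · simp only [canon, cell, tk, tkO, tkG, hG, blk_div t hu, blk_mod t hu]
      simp [σ₀]
    · simp only [canon, cell, pmf, envOf, σ₀, decide_eq_true_iff]
      split_ifs with ho
      · have h1 := Nat.div_add_mod' t (2 ^ gp (f + 1))
        have h2 := Nat.mod_lt t hK
        have h3 : (t * 2 ^ gp f + u) % (2 ^ gp f * 2 ^ gp (f + 1)) =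
            t % 2 ^ gp (f + 1) * 2 ^ gp f + u := by
          rw [Nat.mod_mul, blk_div t hu, blk_mod t hu]; ring
        rw [h3]
        by_cases h4 : t % 2 ^ gp (f + 1) = 0
        · rw [h4, pat2, if_neg (by omega), if_pos (by omega), Nat.zero_mul, Nat.zero_add]
        · rw [pat2_L.2 (Or.inl (by omega)), pat_L]
          exact Nat.add_pos_left (Nat.mul_pos (by omega) hm) _
      · rfl
    · simp only [canon, cell, blk_mod t hu]; rfl
    · simp only [canon, cell, blk_mod t hu]; rfl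
    · simp only [canon, cell, hG]
      exact (pat_L.2 (Nat.add_pos_left hm _)).symm
    · simp only [canon, cell, hG, blk_mod t hu]; rfl

theorem not_dead_of {G : (ℕ → Cell) → Prop} (h1 : ∀ p p', RW.Step Set.univ p p' → (G p ↔ G p'))
    (h2 : ∀ p, G p → ∀ i, POK (p i) (p (i + 1))) {p : ℕ → Cell} (h : G p) :
    ¬ RW.Dead Set.univ p := by
  rintro ⟨y, i, hy, -, hk | ⟨-, hk⟩⟩
  · exact hk
  · exact hk (h2 y ((hy.closed G h1).1 h) i)

theorem dflt_step {x y x' y' : Cell} (h : PStep x y x' y') :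
    x ≠ Cell.dflt x.s ∧ (x' ≠ Cell.dflt x'.s ∨ y' ≠ Cell.dflt y'.s) := by
  rcases x with ⟨xs, xt, xp, xoh, xoc, xgh, xgc⟩
  rcases y with ⟨ys, yt, yp, yoh, yoc, ygh, ygc⟩
  cases h <;> simp_all [Cell.dflt]

theorem canonR_s (f r j : ℕ) : (canonR f r j).s = spec f r j := by
  unfold canonR
  split_ifs with h
  · subst h; rfl
  · rfl

end PS

/-- The canonical mark row is not dead.  Define `Legit f p` (`m = 2^gp f`, `n = gp (f+1)`): there are agent
states `A : ℕ → AgS`, logical tokens `T₀ : ℕ → ℕ → Bool` (block, offset), permit positions `π c < m 2^n` and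
flags `hv c` such that `stat p = spec f 0`; `(A t).ok m`, `upd m t (A t) p = p` for all `t`; the guest layer of
block `0` is `(L, pat 0 ())`; `pm = L` if `f` is even, `pm (c m 2^n + u) = pat (π c) (hv c) u` if `f` is odd;
call `t` *active* if `(A t).q` is `s1/q0/q1/q2` with mode `eq`/`swp` or `e1/e2/e3`; `t` active ↔ `f` odd and
`pm (home t) = H true`; held permits are at homes; active `t` has `ce = false` (so `t+1` is in the same container
and, the permit being unique, no other block of the container is active); `T₀ t u = true → f` odd and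
`2n ≤ u < 3n`; `T₀` is injective on every container if `f` is odd; invariants: idle, `s1`: `c = c' = 0`; `q0`, `q2`:
`c = c'` (`q2`: `c ≠ 0`), `q1`: `c = c'+1`; `e1`: `c' = m-1`; `e3`: `c = 0`; `q2 μ β` with `μ ≠ swp` has `β = false`;
`q1 chk β`: `β = b (t m + c')`; mode `eq`: `T₀ t u = T₀ (t+1) u` for `u < c'`, and `q1 eq β` has `β = T₀ t c'`;
actual tokens are `T₀` except for an agent `t` in `q0/q1/q2 swp`, where offsets `u < c'` of the block `t+1` hold
`T₀ t u`, offsets `u < c` of the block `t` hold `T₀ (t+1) u` except for the hole at `c-1` (`false`) in `q1`, `q2`,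
`β = T₀ t c'` in `q1`, `β = T₀ (t+1) (c-1)` in `q2`.  At `t5` exchange `T₀ t` and `T₀ (t+1)` (offset `m-1` is
`false` in both).  Show that `Legit` is invariant under `PStep` in both directions and implies `POK`
(`spec_OKH`, `spec_chk` for `kh`, injectivity for `ki`). -/
theorem canon_not_dead (f : ℕ) : ¬ RW.Dead Set.univ (canon f) := by
  exact PS.not_dead_of (PS.legit_step f) (fun _ h => h.pok) (PS.legit_canon f)

/-- non-mark rows have no steps at all -/
theorem canonR_not_dead {f r : ℕ} (h : r < gp f) : ¬ RW.Dead Set.univ (canonR f r) := by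
  by_cases hr : r = 0
  · subst hr
    exact canon_not_dead f
  have hc : canonR f r = fun j => Cell.dflt (spec f r j) := funext fun j => if_neg hr
  refine PS.not_dead_of (G := fun p => p = canonR f r) (fun p p' hs => ?_) ?_ rfl
  · rcases step_iff.1 hs with ⟨i, -, h, -⟩ | ⟨i, -, -, h, -⟩
    · exact h.elim
    · have := PS.dflt_step h
      refine iff_of_false ?_ ?_
      · rintro rfl
        exact this.1 (by rw [hc]; rfl)
      · rintro rfl
        exact this.2.elim (fun h => h (by rw [hc]; rfl)) fun h => h (by rw [hc]; rfl)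
  · rintro p rfl i
    rw [hc]
    have hdl : (spec f r i).dl = false := by simp [spec, hr]
    have hdf : (spec f r i).df = false := by simp [spec, hr]
    refine ⟨spec_OKH h i, fun _ => rfl, ?_, fun _ => rfl, fun _ => ⟨.LL, .LL, .LL, .LL⟩, ?_, ?_,
      fun _ _ => .LL, ?_, ?_, ?_, ?_, ?_, ?_, ?_, ?_, ?_, ?_, ?_, ?_, ?_, ?_⟩ <;>
      simp [Cell.dflt, hdl, hdf]

/-- `sound` with `G k p := ∃ f r, r < gp f ∧ k = lv f + r ∧ RW.Eqv univ (canonR f r) p` -/
theorem pp_sound : ∃ x : ℕ → Let Cell, ¬ (phys PP).Dead Set.univ x := by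
  have hs : ∀ {f r : ℕ} {p : ℕ → Cell}, RW.Eqv Set.univ (canonR f r) p → ∀ j, (p j).s = spec f r j :=
    fun h j => (congrFun (stat_eq_of_eqv h) j).trans (PS.canonR_s _ _ j)
  refine sound (fun k p => ∃ f r, r < gp f ∧ k = lv f + r ∧ RW.Eqv Set.univ (canonR f r) p)
    (fun k => ?_) ?_ (fun k p p' h => ?_) ?_ ?_ ?_
  · obtain ⟨f, r, h1, h2⟩ := exists_level k
    exact ⟨_, f, r, h1, h2, Eqv.refl _ _⟩
  · rintro k p j ⟨f, r, -, -, h⟩
    change (p j).s.pos = _
    rw [hs h]; rfl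
  · exact ⟨fun ⟨f, r, h1, h2, h3⟩ => ⟨f, r, h1, h2, h3.trans h.eqv⟩,
      fun ⟨f, r, h1, h2, h3⟩ => ⟨f, r, h1, h2, h3.trans h.eqv.symm⟩⟩
  · rintro k p j ⟨f, r, h1, -, h⟩ hk
    exact hk (pok_of_not_dead (h.not_dead (canonR_not_dead h1)) trivial trivial)
  · rintro k p q j ⟨f, r, h1, rfl, h⟩ ⟨f', r', h1', e, h'⟩ hk
    refine hk ?_
    rw [hs h, hs h']
    by_cases h2 : r + 1 < gp f
    · obtain ⟨rfl, rfl⟩ := level_unique h2 h1' e
      exact spec_OKV h2 j
    · have h3 : r + 1 = gp f := by omega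
      obtain ⟨rfl, rfl⟩ := level_unique (f := f + 1) (r := 0) (by have := gp_ge (f + 1); omega) h1'
        (by rw [← e, lv]; omega)
      exact spec_OKV' h3 j
  · rintro p j ⟨f, r, h1, e, h⟩ hk
    obtain ⟨rfl, rfl⟩ := level_unique (f := 0) (r := 0) (by decide) h1 e
    refine hk ?_
    rw [hs h]
    exact spec_OKB j

end Crest.Agent.R176
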