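import Crest.Agent.R176.NCore
import Crest.Agent.R176.NAlt
import Crest.Agent.R176.MBridge
import Crest.Agent.R176.PSound
import Crest.Agent.R176.Lin

/-! Row 176: the property KILL and the existence theorem for the rewriting system. -/

set_option autoImplicit false

namespace Crest.Agent.R176

open WSys

open Classical in
/-- the free slots -/
noncomputable def JJ (f q : ℕ) (τ : Fin (2 ^ gp (f + 1)) → SW f q) : Finset (Fin (2 ^ gp (f + 1))) :=
  Finset.univ.filter fun t => 1 ≤ t.val ∧ t.val + 1 < 2 ^ gp (f + 1) ∧ ¬ heldT f q (τ t) ∧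
    ¬ heldT f q (τ ⟨t.val - 1, by omega⟩)

open Classical in
/-- more than `l` free slots of the same type -/
noncomputable def selT (f q l : ℕ) (τ : Fin (2 ^ gp (f + 1)) → SW f q) :
    Finset (Fin (2 ^ gp (f + 1))) :=
  if h : ∃ a, l < ((JJ f q τ).filter fun t => τ t = a).card then
    (JJ f q τ).filter fun t => τ t = h.choose else ∅

theorem selT_sub {f q l : ℕ} {τ : Fin (2 ^ gp (f + 1)) → SW f q} {t : Fin (2 ^ gp (f + 1))}
    (ht : t ∈ selT f q l τ) : t ∈ JJ f q τ := by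
  classical
  unfold selT at ht
  split_ifs at ht
  · exact (Finset.mem_filter.1 ht).1
  · simp at ht

theorem selT_eq {f q l : ℕ} {τ : Fin (2 ^ gp (f + 1)) → SW f q} {t t' : Fin (2 ^ gp (f + 1))}
    (ht : t ∈ selT f q l τ) (ht' : t' ∈ selT f q l τ) : τ t = τ t' := by
  classical
  unfold selT at ht ht'
  split_ifs at ht ht'
  · rw [(Finset.mem_filter.1 ht).2, (Finset.mem_filter.1 ht').2]
  · simp at ht

theorem card_JJ {f q : ℕ} {τ : Fin (2 ^ gp (f + 1)) → SW f q}
    (h : ∀ t t' : Fin (2 ^ gp (f + 1)), t.val + 1 < 2 ^ gp (f + 1) → t'.val + 1 < 2 ^ gp (f + 1) →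
      heldT f q (τ t) → heldT f q (τ t') → t = t') : 2 ^ gp (f + 1) ≤ (JJ f q τ).card + 4 := by
  classical
  obtain ⟨a, ha⟩ : ∃ a : ℕ, ∀ t : Fin (2 ^ gp (f + 1)), t.val + 1 < 2 ^ gp (f + 1) →
      heldT f q (τ t) → t.val = a := by
    by_cases hc : ∃ t : Fin (2 ^ gp (f + 1)), t.val + 1 < 2 ^ gp (f + 1) ∧ heldT f q (τ t)
    · obtain ⟨t, h1, h2⟩ := hc
      exact ⟨t, fun t' h1' h2' => by rw [h t' t h1' h1 h2' h2]⟩
    · exact ⟨0, fun t h1 h2 => absurd ⟨t, h1, h2⟩ hc⟩
  have h1 : Finset.range (2 ^ gp (f + 1)) ⊆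
      (JJ f q τ).map Fin.valEmbedding ∪ {0, 2 ^ gp (f + 1) - 1, a, a + 1} := by
    intro t ht
    rw [Finset.mem_range] at ht
    rw [Finset.mem_union]
    by_cases hc : t ∈ ({0, 2 ^ gp (f + 1) - 1, a, a + 1} : Finset ℕ)
    · exact Or.inr hc
    · left
      simp only [Finset.mem_insert, Finset.mem_singleton, not_or] at hc
      refine Finset.mem_map.2 ⟨⟨t, ht⟩, ?_, rfl⟩
      simp only [JJ, Finset.mem_filter, Finset.mem_univ, true_and]
      refine ⟨by omega, by omega, fun hh => hc.2.2.1 (ha ⟨t, ht⟩ (by simp only; omega) hh), fun hh => ?_⟩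
      have := ha ⟨t - 1, by omega⟩ (by simp only; omega) hh
      simp only at this
      omega
  have h2 := Finset.card_le_card h1
  have h3 := Finset.card_union_le ((JJ f q τ).map Fin.valEmbedding) {0, 2 ^ gp (f + 1) - 1, a, a + 1}
  have h4 : ({0, 2 ^ gp (f + 1) - 1, a, a + 1} : Finset ℕ).card ≤ 4 := Finset.card_le_four
  rw [Finset.card_range] at h2
  rw [Finset.card_map] at h3
  omega

theorem card_selT' {f q l : ℕ} {TS : Finset (SW f q)} {τ : Fin (2 ^ gp (f + 1)) → SW f q}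
    (h1 : ∀ t ∈ JJ f q τ, τ t ∈ TS) (h2 : TS.card * l < (JJ f q τ).card) :
    l < (selT f q l τ).card := by
  classical
  obtain ⟨a, -, ha⟩ := Finset.exists_lt_card_fiber_of_mul_lt_card_of_maps_to h1 h2
  unfold selT
  split_ifs with h
  · convert h.choose_spec
  · exact absurd ⟨a, by convert ha⟩ h

theorem card_selT {f q l : ℕ} (hp : Par f q) {TS : Finset (SW f q)}
    (hTS : ∀ y, NF f q y → erW f q (res f q y) ∈ TS) (hc : TS.card * l + 4 < 2 ^ gp (f + 1))
    {x : ℕ → Gam} (hA : Aligned PP (lv (f + 2) + 1) (Set.Iio 8) x)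
    (h : ¬ (phys PP).Dead (Set.Iio (8 * 2 ^ (lv (f + 2) + 1))) x) :
    l < (selT f q l fun t => tyW f q (bw f q x (8 * 2 ^ gp (f + 1) + t.val))).card := by
  have h1 := card_JJ (τ := fun t => tyW f q (bw f q x (8 * 2 ^ gp (f + 1) + t.val)))
    fun t t' ht ht' h1 h2 => Fin.ext (by
      have := held_le hp hA h (by omega) (by omega) (by omega) (by omega) h1 h2
      omega)
  refine card_selT' (TS := TS) (fun t ht => ?_) (by omega)
  simp only [JJ, Finset.mem_filter] at ht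
  exact hTS _ (nf_block hp hA h (by omega) (by omega))

/-- a word as a configuration -/
def ex {n : ℕ} (w : Fin n → Gam) : ℕ → Gam := fun i => if h : i < n then w ⟨i, h⟩ else dflt0

theorem word_ex {n : ℕ} (w : Fin n → Gam) : word (ex w) n = List.ofFn w := by
  simp [word, ex]

theorem slotOf_eq {n : ℕ} (f q o t : ℕ) (w : Fin n → Gam) :
    slotOf dflt0 (sL f q) (o + t * 2 ^ lv (f + 1) + sA f q) w = bw f q (sh o (ex w)) t := by
  funext v
  simp only [slotOf, bw, res, sh, ex]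
  have e : sA f q + v + t * 2 ^ lv (f + 1) + o = o + t * 2 ^ lv (f + 1) + sA f q + v := by ring
  simp only [e]

open Classical in
/-- the class of a word for computations on `[o, o + M)` -/
noncomputable def cls {n : ℕ} (M o : ℕ) (w₀ : Fin n → Gam) : Finset (Fin n → Gam) :=
  Finset.univ.filter fun w => (∀ i < o, ex w i = ex w₀ i) ∧
    (core PP).Eqv (Set.Iio M) (sh o (ex w₀)) (sh o (ex w))

theorem class_sum {K Y : Type} [CommRing K] [CharP K 2] [Fintype Y] [DecidableEq Y]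
    (B : Gam → Matrix Y Y K) {f q : ℕ} (hp : Par f q) {TS : Finset (SW f q)}
    (hTS : ∀ y, NF f q y → erW f q (res f q y) ∈ TS)
    (hc : TS.card * Fintype.card Y ^ 2 + 4 < 2 ^ gp (f + 1)) {n o : ℕ}
    (ho : o + 8 * 2 ^ (lv (f + 2) + 1) ≤ n) {w₀ : Fin n → Gam}
    (hA : Aligned PP (lv (f + 2) + 1) (Set.Iio 8) (sh o (ex w₀)))
    (h : ¬ (phys PP).Dead (Set.Iio (8 * 2 ^ (lv (f + 2) + 1))) (sh o (ex w₀))) :
    ∑ w ∈ cls (8 * 2 ^ (lv (f + 2) + 1)) o w₀, (List.ofFn fun i => B (w i)).prod = 0 := by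
  classical
  have hle := hp.end_le
  have hC : ∀ w ∈ cls (8 * 2 ^ (lv (f + 2) + 1)) o w₀,
      Aligned PP (lv (f + 2) + 1) (Set.Iio 8) (sh o (ex w)) ∧
      ¬ (phys PP).Dead (Set.Iio (8 * 2 ^ (lv (f + 2) + 1))) (sh o (ex w)) := fun w hw => by
    have := (Finset.mem_filter.1 hw).2.2
    exact ⟨hA.eqv this, (phys_eqv.2 this).not_dead h⟩
  let ι : Fin (2 ^ gp (f + 1)) ↪ ℕ := ⟨fun t => 8 * 2 ^ gp (f + 1) + t.val, fun a b hab => Fin.ext (by
    simp only at hab; omega)⟩
  have hcc := fun w hw => core_closed hp (hC w hw).1 (hC w hw).2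
    (ι '' (selT f q (Fintype.card Y ^ 2)
      fun t => tyW f q (bw f q (sh o (ex w)) (8 * 2 ^ gp (f + 1) + t.val)) : Finset _)) (by
      rintro _ ⟨t, ht, rfl⟩
      have := selT_sub ht
      simp only [JJ, Finset.mem_filter, Finset.mem_univ, true_and] at this
      obtain ⟨h1, h2, h3, h4⟩ := this
      refine ⟨?_, ?_, h3, ?_⟩
      · change _ ≤ 8 * 2 ^ gp (f + 1) + t.val; omega
      · change 8 * 2 ^ gp (f + 1) + t.val + 1 < _; omega
      · change ¬ heldT f q (tyW f q (bw f q _ (8 * 2 ^ gp (f + 1) + t.val - 1)))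
        rwa [Nat.add_sub_assoc h1])
  refine alt_sum B dflt0 (ℓ := sL f q)
    (fun t : Fin (2 ^ gp (f + 1)) => o + (8 * 2 ^ gp (f + 1) + t.val) * 2 ^ lv (f + 1) + sA f q)
    (fun t => ?_) (fun t t' htt => ?_) (tyW f q) (tokW f q) (selT f q (Fintype.card Y ^ 2)) _
    (fun w hw => ?_) (fun w hw t ht t' ht' => ?_) (fun w hw w' σ hσ hw' hty => ?_)
  · rw [top_eq] at ho
    have : (8 * 2 ^ gp (f + 1) + t.val + 1) * 2 ^ lv (f + 1) ≤ 16 * 2 ^ gp (f + 1) * 2 ^ lv (f + 1) :=
      Nat.mul_le_mul_right _ (by have := t.2; omega)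
    rw [add_mul _ 1] at this
    omega
  · have : (8 * 2 ^ gp (f + 1) + t.val + 1) * 2 ^ lv (f + 1) ≤
        (8 * 2 ^ gp (f + 1) + t'.val) * 2 ^ lv (f + 1) :=
      Nat.mul_le_mul_right _ (by have : t.val < t'.val := htt; omega)
    rw [add_mul _ 1] at this
    omega
  · simp only [slotOf_eq]
    exact card_selT hp hTS hc (hC w hw).1 (hC w hw).2
  · simp only [slotOf_eq] at ht ht' ⊢
    exact ⟨selT_eq ht ht', fun he => ι.injective ((hcc w hw).1 _ ⟨t, ht, rfl⟩ _ ⟨t', ht', rfl⟩ he)⟩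
  · simp only [slotOf_eq] at hσ hw' hty
    have hw0 := (Finset.mem_filter.1 hw).2
    refine Finset.mem_filter.2 ⟨Finset.mem_univ _, fun i hi => ?_, hw0.2.trans ?_⟩
    · rw [← hw0.1 i hi]
      simp only [ex]
      split_ifs with hn
      · exact hw' ⟨i, hn⟩ fun t _ hc => by simp only at hc; omega
      · rfl
    · refine (hcc w hw).2 _ (σ.viaEmbedding ι) (fun t ht => ?_) (fun p hp' => ?_) ?_
      · by_cases hr : t ∈ Set.range ι
        · obtain ⟨t, rfl⟩ := hr
          rw [Equiv.Perm.viaEmbedding_apply, hσ t fun hc => ht ⟨t, hc, rfl⟩]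
        · exact Equiv.Perm.viaEmbedding_apply_of_notMem _ _ _ hr
      · simp only [sh, ex]
        split_ifs with hn
        · refine hw' ⟨p + o, hn⟩ fun t ht hc => hp' _ ⟨t, ht, rfl⟩ ?_
          change (8 * 2 ^ gp (f + 1) + t.val) * 2 ^ lv (f + 1) + sA f q ≤ p ∧
            p < (8 * 2 ^ gp (f + 1) + t.val) * 2 ^ lv (f + 1) + sA f q + sL f q
          simp only at hc
          omega
        · rfl
      · rintro _ ⟨t, ht, rfl⟩
        rw [Equiv.Perm.viaEmbedding_apply]
        exact hty t ht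

theorem cls_eqv {n M o : ℕ} (ho : o + M ≤ n) {w w' : Fin n → Gam} (h : w' ∈ cls M o w) :
    (core PP).Eqv (Set.Iio n) (ex w) (ex w') := by
  classical
  obtain ⟨h1, h2⟩ := (Finset.mem_filter.1 h).2
  have := h2.of_sh
  have e : unsh o (ex w) (sh o (ex w')) = ex w' := by
    funext i
    simp only [unsh, sh]
    split_ifs with hi
    · rw [Nat.sub_add_cancel hi]
    · exact (h1 i (by omega)).symm
  rw [e] at this
  refine this.mono ?_
  rintro i ⟨hi, hi'⟩
  rw [Set.mem_Iio] at hi' ⊢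
  omega

theorem aligned_sh_iff {S V : Set ℕ} {x y : ℕ → Gam} (h : (core PP).Eqv S x y) (k o : ℕ) :
    Aligned PP k V (sh o x) ↔ Aligned PP k V (sh o y) := by
  have := ctl_inv_of PP.pos (x := sh o x) (y := sh o y) fun j => eqv_inv PP.pos PP.pos_step h (j + o)
  simp only [Aligned, this]

theorem kill_PP : (sysOf PP).KILL := by
  classical
  intro K _ _ Y _ _ B
  obtain ⟨f, q, hp, hnum⟩ := exists_par (Fintype.card Gam) (Fintype.card Hs + 1) (Fintype.card Y ^ 2)
  obtain ⟨TS, hTS, hcard⟩ := card_types hp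
  have hc : TS.card * Fintype.card Y ^ 2 + 4 < 2 ^ gp (f + 1) :=
    lt_of_le_of_lt (Nat.add_le_add_right (Nat.mul_le_mul_right _ hcard) _) hnum
  obtain ⟨N, hN⟩ := exists_aligned (Θ := PP) (lv (f + 2) + 1) 8
  refine ⟨N + 2, fun n hn g => ?_⟩
  set M := 8 * 2 ^ (lv (f + 2) + 1) with hM
  let good : (Fin n → Gam) → Prop := fun w => ¬ (phys PP).Dead (Set.Iio n) (ex w)
  let Pw : (Fin n → Gam) → ℕ → Prop := fun w o =>
    o + M ≤ n ∧ Aligned PP (lv (f + 2) + 1) (Set.Iio 8) (sh o (ex w))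
  let ofs : (Fin n → Gam) → ℕ := fun w => Classical.epsilon (Pw w)
  have hofs : ∀ w, good w → Pw w (ofs w) := fun w hw => by
    obtain ⟨o, h1, h2⟩ := hN (ex w) fun hd =>
      hw (phys_dead_of_core (hd.mono (Set.Iio_subset_Iio (by omega))))
    exact Classical.epsilon_spec (p := Pw w) ⟨o, by omega, h2⟩
  rw [← Finset.sum_filter_add_sum_filter_not Finset.univ good]
  have hbad : ∑ w ∈ Finset.univ.filter (fun w => ¬ good w),
      g ((List.ofFn fun i => B (w i)).prod) • (sysOf PP).mono (List.ofFn w) = 0 :=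
    Finset.sum_eq_zero fun w hw => by
      have hd : (phys PP).Dead (Set.Iio n) (ex w) := not_not.1 (Finset.mem_filter.1 hw).2
      have := mono_eq_zero_of_dead (skel PP) (by omega) hd
      rw [word_ex] at this
      rw [sysOf, this, smul_zero]
  rw [hbad, add_zero]
  refine sum_eq_zero_of_classes _ (fun w => cls M (ofs w) w) _ (fun w _ => ?_) (fun w hw w' hw' => ?_)
    (fun w hw w' hw' => ?_) (fun w hw => ?_)
  · exact Finset.mem_filter.2 ⟨Finset.mem_univ _, fun _ _ => rfl, Eqv.refl _ _⟩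
  · have hg := (Finset.mem_filter.1 hw).2
    exact Finset.mem_filter.2 ⟨Finset.mem_univ _,
      (phys_eqv.2 (cls_eqv (hofs w hg).1 hw')).not_dead hg⟩
  · have hg := (Finset.mem_filter.1 hw).2
    have he := cls_eqv (hofs w hg).1 hw'
    have hP : Pw w' = Pw w := funext fun o => propext (and_congr Iff.rfl (aligned_sh_iff he _ o).symm)
    have ho : ofs w' = ofs w := by simp only [ofs, hP]
    obtain ⟨h1, h2⟩ := (Finset.mem_filter.1 hw').2
    ext w''
    simp only [cls, ho, Finset.mem_filter, Finset.mem_univ, true_and]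
    exact ⟨fun h => ⟨fun i hi => (h.1 i hi).trans (h1 i hi), h2.trans h.2⟩,
      fun h => ⟨fun i hi => (h.1 i hi).trans (h1 i hi).symm, h2.symm.trans h.2⟩⟩
  · have hg := (Finset.mem_filter.1 hw).2
    obtain ⟨h1, h2⟩ := hofs w hg
    have hm : ∀ w' ∈ cls M (ofs w) w,
        (sysOf PP).mono (List.ofFn w') = (sysOf PP).mono (List.ofFn w) := fun w' hw' => by
      have := mono_eq_of_eqv (skel PP) (by omega) (phys_eqv.2 (cls_eqv h1 hw'))
      rw [word_ex, word_ex] at this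
      exact this.symm
    have hs := class_sum B hp hTS hc h1 h2 fun hd => hg (hd.of_sh.mono (by
      rintro i ⟨hi, hi'⟩
      rw [Set.mem_Iio] at hi' ⊢
      omega))
    rw [Finset.sum_congr rfl fun w' hw' => by rw [hm w' hw'], ← Finset.sum_smul, ← map_sum, hs,
      map_zero, zero_smul]

/-- The rewriting system with all required properties. -/
theorem exists_sys : ∃ (X Sig : Type) (_ : Fintype X) (_ : Fintype Sig) (S : Sys X Sig),
    S.Static ∧ S.NZ ∧ S.AP ∧ S.NIL := by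
  obtain ⟨x, hx⟩ := pp_sound
  exact ⟨Gam, Bool × Bool, inferInstance, inferInstance, sysOf PP, sysOf_static PP,
    nz_of_not_dead _ hx, sysOf_AP PP, Sys.nil_of_kill _ kill_PP⟩

end Crest.Agent.R176
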