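import Crest.Agent.R176.NDef

/-! Row 176: existence of normal forms of slots. -/

set_option autoImplicit false

namespace Crest.Agent.R176

open WSys

/-- `multiNorm (lv f + q)` (with `V = ∅`) makes the units `R1 = [2uq-2, 3uq+2)` clean.  Then for `f' = 0, …, f-1`
replace the row `lv f'` by the row given by `row_canon` (`w = 2^(lv f + q - lv f')`, `A = 2uq-2`, `B = 3uq+2`; an odd
`f' < f` has `f' + 2 ≤ f`), lifted by `row_lift` (`putRow` changes no other control: `ctl_putRow_ne`,
`ctl_putRow_self`; statics are invariant: `ctl_static`, alignment: `Aligned.eqv`).  Finally `row_not_dead` and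
`pok_of_not_dead` give the non-mark rows (`POK.dflt`) and the conditions on the row `lv f` (`POK.co`, `pc`, `tok`,
`spec_IF`, `spec_zn_X`). -/
theorem slot_nf {f q : ℕ} (hp : Par f q) {y : ℕ → Gam} (hy : SlotOK f q y)
    (h : ¬ (core PP).Dead (spn (lv f + q) (SU f q)) y) :
    ∃ y', (core PP).Eqv (spn (lv f + q) (SU f q)) y y' ∧ NF f q y' := by
  have hU : 4 ≤ uq f q := by
    have := hp.q4
    exact Nat.pow_le_pow_right (n := 2) (i := 2) (by norm_num) (by omega)
  have hq := hp.q1
  have hq4 := hp.q4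
  have hodd := hp.odd
  set k := lv f + q with hk
  have s1 : Set.Ico (2 * uq f q - 2) (3 * uq f q + 2) ⊆ SU f q :=
    Set.Ico_subset_Ico (by omega) (by omega)
  have s2 : R2 f q ⊆ Set.Ico (2 * uq f q - 2) (3 * uq f q + 2) :=
    Set.Ico_subset_Ico (by omega) (by omega)
  have main : ∀ n ≤ f, ∃ x, (core PP).Eqv (spn k (SU f q)) y x ∧
      Clean k (Set.Ico (2 * uq f q - 2) (3 * uq f q + 2)) x ∧
      ∀ f' < n, ∀ j ∈ spn (k - lv f') (R2 f q), (ctl x (lv f') j).pay = canon f' j := by
    intro n hn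
    induction n with
    | zero =>
      rw [SU, spn_Ico] at h
      obtain ⟨x, h1, h2⟩ := multiNorm k (V := ∅) le_rfl (by omega) le_rfl (by omega) hy.al
        (fun l _ j hj => hj.elim) h
      rw [show 2 * uq f q - 4 + 2 = 2 * uq f q - 2 by omega] at h2
      exact ⟨x, by rw [SU, spn_Ico]; exact h1.mono Set.sdiff_subset, h2, by simp⟩
    | succ n ih =>
      obtain ⟨x, h1, h2, h3⟩ := ih (by omega)
      have l1 : lv n + gp n ≤ lv f := lv_strictMono.monotone hn
      have hl : lv n < k := by omega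
      have hA := (hy.al.mono s1).eqv h1
      have hd := row_not_dead hl hA h2 (spn_mono _ s1) (h1.not_dead h)
      rw [spn_Ico] at hd
      obtain ⟨p, e1, e2⟩ := row_canon (f := n) (pow_dvd_pow _ (by omega)) (by positivity)
        (fun hn' => pow_dvd_pow _ (by
          have : lv n + gp n + gp (n + 1) ≤ lv f := lv_strictMono.monotone (show n + 2 ≤ f by omega)
          omega))
        (fun j hj => (ctl_static h1 _ _).trans (hy.st n 0 (by linarith [gp_ge n]) hl j
          (spn_mono _ s1 (by rwa [spn_Ico])))) hd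
      refine ⟨_, h1.trans ((row_lift hl hA h2 (spn_Ico _ _ _).ge e1).mono (spn_mono _ s1)),
        fun l hl' j hj => ?_, fun f' hf' j hj => ?_⟩
      · by_cases e : l = lv n
        · subst e
          rw [ctl_putRow_self]
          exact h2 _ hl' j hj
        · rw [ctl_putRow_ne e]
          exact h2 _ hl' j hj
      · by_cases e : f' = n
        · subst e
          rw [ctl_putRow_self]
          rw [R2, spn_Ico] at hj
          exact e2 j (by rwa [show 2 * uq f q - 2 + 1 = 2 * uq f q - 1 by omega])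
        · rw [ctl_putRow_ne (lv_strictMono.injective.ne e)]
          exact h3 f' (by omega) j hj
  obtain ⟨x, h1, h2, h3⟩ := main f le_rfl
  have pok : ∀ l < k, ∀ j ∈ spn (k - l) (R2 f q), POK (rowPay x l j) (rowPay x l (j + 1)) := by
    intro l hl j hj
    refine pok_of_not_dead (row_not_dead hl ((hy.al.mono s1).eqv h1) h2 (spn_mono _ s1)
      (h1.not_dead h)) (spn_mono _ s2 hj) ?_
    have := spn_mono _ s2 hj
    rw [R2, spn_Ico] at hj
    rw [spn_Ico] at this ⊢
    exact ⟨this.1.trans (Nat.le_succ _), lt_of_le_of_lt hj.2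
      (Nat.mul_lt_mul_of_pos_right (by omega) (by positivity))⟩
  have st : ∀ f' r', r' < gp f' → lv f' + r' < k → ∀ j ∈ spn (k - (lv f' + r')) (R2 f q),
      (ctl x (lv f' + r') j).pay.s = spec f' r' j := fun f' r' a b j hj =>
    (ctl_static h1 _ _).trans (hy.st f' r' a b j (spn_mono _ (s2.trans s1) hj))
  have eq : k - lv f = q := by omega
  have rS : ∀ j ∈ spn q (R2 f q), (rowPay x (lv f) j).s = spec f 0 j := fun j hj =>
    st f 0 (by omega) (by omega) j (by rwa [add_zero, eq])
  have lt : ∀ j ∈ spn q (R2 f q), j < 2 ^ gp f := fun j hj => by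
    rw [R2, spn_Ico] at hj
    refine hj.2.trans_le ((Nat.mul_le_mul_right _ (show _ ≤ 2 ^ 2 * uq f q by omega)).trans ?_)
    rw [uq, ← pow_add, ← pow_add]
    exact Nat.pow_le_pow_right (by norm_num) (by omega)
  refine ⟨x, h1, h2.mono s2, fun f' r' a b c j hj => ?_, rS, fun j hj hj' => ?_, fun j hj ht => ?_⟩
  · by_cases e : r' = 0
    · subst e
      have : f' < f + 1 := lv_strictMono.lt_iff_lt.1 (show lv f' < lv f + gp f by omega)
      rw [canonR, if_pos rfl]
      exact h3 f' (lt_of_le_of_ne (by omega) fun e => c (by rw [e, add_zero])) j hj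
    · have e' := st f' r' a b j hj
      rw [canonR, if_neg e, ← e']
      exact (pok _ b j hj).dflt (show (ctl x (lv f' + r') j).pay.s.mr = false by simp [e', spec, e])
  · have a := pok (lv f) (by omega) j (by rwa [eq])
    have d : (rowPay x (lv f) j).s.dl = false := by
      rw [rS j hj, (spec_IF f Set.univ).dl j trivial, Nat.mod_eq_of_lt (lt j hj)]
      simpa using (lt _ hj').ne
    have c := a.co d
    exact ⟨a.pc (by simp [rS j hj, spec, hodd]) (by simp [d]), c.1, c.2.2.1, c.2.1, c.2.2.2⟩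
  · have := ((pok (lv f) (by omega) j (by rwa [eq])).tok ht).1
    rwa [rS j hj, spec_zn_X, Nat.mod_eq_of_lt (lt j hj)] at this

/-- Determination of the static parts from `det`: normalise (`multiNorm (K+1)`, `K = lv (f+2)`), check `Tower` for
`σ k j = (ctl x' k j).pay.s` on the level-`K` nodes `[4, 12)` (`row_not_dead`, `v_dead`, `chk_eq`, the `base` kill of
`phys`), and transport back with `ctl_static`. -/
theorem static_spec {f : ℕ} {x : ℕ → Gam} (hA : Aligned PP (lv (f + 2) + 1) (Set.Iio 8) x)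
    (h : ¬ (phys PP).Dead (Set.Iio (8 * 2 ^ (lv (f + 2) + 1))) x) {f' r : ℕ} (hf : f' ≤ f)
    (hr : r < gp f') : ∀ j ∈ spn (lv (f + 2) - (lv f' + r)) (Set.Ico 5 11),
      (ctl x (lv f' + r) j).pay.s = spec f' r j := by
  set K := lv (f + 2) with hK
  have e0 : ∀ n : ℕ, Set.Iio n = Set.Ico 0 n := fun n => by ext; simp
  rw [e0] at hA h
  have hc : ¬ (core PP).Dead _ x := fun h' => h (phys_dead_of_core h')
  obtain ⟨y, h1, h2⟩ := multiNorm (K + 1) (V := ∅) (by simp) (by simp) le_rfl (by omega) hA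
    (fun l _ j hj => hj.elim) hc
  replace h1 := h1.mono Set.sdiff_subset
  replace h2 : Clean (K + 1) (Set.Ico 2 6) y := h2
  have s1 : Set.Ico 2 6 ⊆ Set.Ico 0 8 := Set.Ico_subset_Ico (by omega) (by omega)
  have hA' := (hA.mono s1).eqv h1
  have hT : spn (K + 1) (Set.Ico 2 6) ⊆ Set.Ico 0 (8 * 2 ^ (K + 1)) :=
    (spn_mono _ s1).trans (by rw [spn_Ico, zero_mul])
  have e : ∀ k ≤ K, spn (K - k) (Set.Ico 4 12) = spn (K + 1 - k) (Set.Ico 2 6) := fun k hk => by
    rw [show K + 1 - k = K - k + 1 by omega, ← spn_spn, spn_Ico 1]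
    rfl
  have nd : ∀ k ≤ K, ¬ RW.Dead (spn (K - k) (Set.Ico 4 12)) (rowPay y k) := fun k hk =>
    e k hk ▸ row_not_dead (by omega) hA' h2 hT (h1.not_dead hc)
  have T : Tower (fun k j => (ctl y k j).pay.s) K 4 12 := by
    refine ⟨fun k hk j hj => hA' k (by omega) j (e k hk ▸ hj),
      fun k hk j hj hj' => (pok_of_not_dead (nd k hk) hj hj').st, fun k hk j hj => ?_,
      fun j hj => ?_, fun k hk m t hm hs hI u hu => chk_eq ⟨hm, hs, hI⟩ (nd k hk) hu⟩
    · by_contra hv
      rw [e _ hk] at hj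
      have := v_dead k hj (hA'.down (by omega)) (h2.down (by omega)) (h2 _ (by omega) j hj).1 hv
      rw [spn_spn, show k + 1 + (K + 1 - (k + 1)) = K + 1 by omega] at this
      exact h1.not_dead hc (this.mono hT)
    · by_contra hb
      have hj' : j ∈ spn (K + 1 - 0) (Set.Ico 2 6) := e 0 (Nat.zero_le _) ▸ hj
      exact h ⟨y, j, phys_eqv.2 h1, hT hj', .inl (.inr ⟨(h2 0 (by omega) j hj').1, hb⟩)⟩
  exact fun j hj => (ctl_static h1 _ _).symm.trans (det T le_rfl (by norm_num) hf hr j hj)

end Crest.Agent.R176
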