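import Crest.Agent.R176.PDef

/-! Row 176: representation of agents, elementary moves and guards. -/

set_option autoImplicit false

namespace Crest.Agent.R176

open WSys

theorem pok_of_not_dead {S : Set ℕ} {p : ℕ → Cell} (h : ¬ RW.Dead S p) {j : ℕ} (hj : j ∈ S)
    (hj' : j + 1 ∈ S) : POK (p j) (p (j + 1)) := by
  by_contra hc
  exact h (dead_of_k2 hj hj' hc)

theorem stat_eq_of_eqv {S : Set ℕ} {p p' : ℕ → Cell} (h : RW.Eqv S p p') : stat p' = stat p :=
  funext fun j => h.invariant (fun x : Cell => x.s) (fun _ _ h => False.elim h)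
    (fun _ _ _ _ h => PStep.static h) j

theorem tag_repO {Q : Type} (f : ℕ → Tag Q) {N : ℕ}
    (hc : ∀ u, u + 1 < N → (f u).cons (f (u + 1))) :
    ∃ a ≤ N, ∃ oq : Option Q, ∀ u < N, f u = patO a oq u := by
  classical
  have hex : ∃ u, f u ≠ .R ∨ u = N := ⟨N, Or.inr rfl⟩
  have h1 : ∀ u < Nat.find hex, f u = .R := fun u hu => by
    have := Nat.find_min hex hu
    push Not at this
    exact this.1
  have h2 : Nat.find hex ≤ N := Nat.find_min' hex (Or.inr rfl)
  have h3 := Nat.find_spec hex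
  generalize Nat.find hex = a at h1 h2 h3
  have h4 : ∀ d, a + d < N → f (a + d) ≠ .R := by
    intro d
    induction d with
    | zero => intro h; exact h3.resolve_right (by omega)
    | succ d ih =>
      intro h e
      have h5 := hc (a + d) (by omega)
      rw [add_assoc, e] at h5
      have h6 := ih (by omega)
      generalize f (a + d) = z at h5 h6
      cases h5
      exact h6 rfl
  refine ⟨a, h2, (match f a with | .H q => some q | _ => none), fun u hu => ?_⟩
  unfold patO
  split_ifs with e1 e2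
  · exact h1 u e1
  · subst e2
    have := h4 0 hu
    rw [add_zero] at this
    rcases e : f u with _ | q | _
    · exact (this e).elim
    · rfl
    · rfl
  · obtain ⟨d, rfl⟩ : ∃ d, u = a + d + 1 := ⟨u - a - 1, by omega⟩
    have h5 := hc (a + d) hu
    have h6 := h4 d (by omega)
    generalize f (a + d) = z at h5 h6
    generalize f (a + d + 1) = z' at h5
    cases h5 <;> first | rfl | exact (h6 rfl).elim

theorem tag_rep {Q : Type} (f : ℕ → Tag Q) {N : ℕ} (hN : 0 < N)
    (hc : ∀ u, u + 1 < N → (f u).cons (f (u + 1))) (h0 : f 0 ≠ .L) (hl : f (N - 1) ≠ .R) :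
    ∃ a < N, ∃ q, ∀ u < N, f u = pat a q u := by
  obtain ⟨a, ha, oq, h⟩ := tag_repO f hc
  have ha' : a < N := by
    by_contra hh
    exact hl (by rw [h _ (by omega)]; exact if_pos (by omega))
  cases oq with
  | some q => exact ⟨a, ha', q, h⟩
  | none =>
    exfalso
    have e : f a = .L := by rw [h _ ha']; simp [patO]
    cases a with
    | zero => exact h0 e
    | succ a =>
      have h5 := hc a ha'
      rw [e, h a (by omega), show patO (a + 1) (none : Option Q) a = .R from if_pos (by omega)] at h5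
      cases h5

theorem RelF.refl (S F : Set ℕ) (p : ℕ → Cell) : RelF S F p p :=
  ⟨fun _ => Eqv.refl _ _, fun _ _ => rfl⟩

theorem RelF.symm {S F : Set ℕ} {p p' : ℕ → Cell} (h : RelF S F p p') : RelF S F p' p :=
  ⟨fun T => (h.1 T).symm, fun j hj => (h.2 j hj).symm⟩

theorem RelF.trans {S F : Set ℕ} {p p' p'' : ℕ → Cell} (h : RelF S F p p') (h' : RelF S F p' p'') :
    RelF S F p p'' :=
  ⟨fun T => (h.1 T).trans (h'.1 T), fun j hj => (h'.2 j hj).trans (h.2 j hj)⟩

theorem ovr_self {F : Set ℕ} {T : ℕ → Bool} {p : ℕ → Cell} (h : ∀ j ∈ F, (p j).tok = T j) :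
    ovr F T p = p := by
  funext j
  simp only [ovr]
  split_ifs with hj
  · rw [← h j hj]
  · rfl

theorem RelF.eqv {S F : Set ℕ} {p p' : ℕ → Cell} (h : RelF S F p p') : RW.Eqv S p p' := by
  have := h.1 fun j => (p j).tok
  rwa [ovr_self fun _ _ => rfl, ovr_self h.2] at this

theorem relF_empty {S : Set ℕ} {p p' : ℕ → Cell} (h : RW.Eqv S p p') : RelF S ∅ p p' :=
  ⟨fun T => by rwa [ovr_self (by simp), ovr_self (by simp)], by simp⟩

theorem stat_ovr (F : Set ℕ) (T : ℕ → Bool) (p : ℕ → Cell) : stat (ovr F T p) = stat p := by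
  funext j; simp only [stat, ovr]; split_ifs <;> rfl

theorem upd_upd (m t : ℕ) (a a' : AgS) (p : ℕ → Cell) :
    upd m t a (upd m t a' p) = upd m t a p := by
  funext j; simp only [upd]; split_ifs <;> rfl

@[simp] theorem upd_s (m t : ℕ) (a : AgS) (p : ℕ → Cell) (j : ℕ) : (upd m t a p j).s = (p j).s := by
  simp only [upd]; split_ifs <;> rfl

@[simp] theorem upd_tok (m t : ℕ) (a : AgS) (p : ℕ → Cell) (j : ℕ) :
    (upd m t a p j).tok = (p j).tok := by
  simp only [upd]; split_ifs <;> rfl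

@[simp] theorem upd_pm (m t : ℕ) (a : AgS) (p : ℕ → Cell) (j : ℕ) : (upd m t a p j).pm = (p j).pm := by
  simp only [upd]; split_ifs <;> rfl

theorem stat_upd (m t : ℕ) (a : AgS) (p : ℕ → Cell) : stat (upd m t a p) = stat p :=
  funext fun j => upd_s m t a p j

theorem ovr_upd (F : Set ℕ) (T : ℕ → Bool) (m t : ℕ) (a : AgS) (p : ℕ → Cell) :
    ovr F T (upd m t a p) = upd m t a (ovr F T p) := by
  funext j; simp only [upd, ovr]; split_ifs <;> rfl

/-- the standing assumptions for the agent `t` -/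
structure Ctx (m t : ℕ) (S : Set ℕ) (p : ℕ → Cell) : Prop where
  m4 : 4 ≤ m
  sub : tape m t ⊆ S
  flags : IF m (tape m t) (stat p)

section
variable {m t : ℕ} {S : Set ℕ} {p : ℕ → Cell}

theorem div_own {u : ℕ} (t : ℕ) (hu : u < m) : (t * m + u) / m = t := by
  rw [add_comm, Nat.add_mul_div_right _ _ (by omega), Nat.div_eq_of_lt hu, zero_add]

theorem mod_own {u : ℕ} (t : ℕ) (hu : u < m) : (t * m + u) % m = u := by
  rw [add_comm, Nat.add_mul_mod_self_right, Nat.mod_eq_of_lt hu]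

theorem upd_own (a : AgS) (p : ℕ → Cell) {u : ℕ} (hu : u < m) :
    upd m t a p (t * m + u) = { p (t * m + u) with oh := pat a.pos a.q u, oc := pat a.c () u } := by
  simp only [upd, div_own t hu, mod_own t hu, if_true]

theorem upd_guest (a : AgS) (p : ℕ → Cell) {u : ℕ} (hu : u < m) :
    upd m t a p ((t + 1) * m + u) =
      { p ((t + 1) * m + u) with gh := pat a.pos a.q (m + u), gc := pat a.c' () u } := by
  simp only [upd, div_own (t + 1) hu, mod_own (t + 1) hu, if_true, Nat.succ_ne_self, if_false]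

theorem Ctx.mem (hc : Ctx m t S p) {j : ℕ} (h1 : t * m ≤ j) (h2 : j ≤ t * m + 2 * m) : j ∈ S :=
  hc.sub ⟨h1, by rw [add_mul]; exact h2⟩

theorem Ctx.fl_own (hc : Ctx m t S p) {u : ℕ} (hu : u < m) :
    (p (t * m + u)).s.df = decide (u = 0) ∧ (p (t * m + u)).s.dl = decide (u + 1 = m) ∧
      (p (t * m + u)).s.hm = decide (u + 1 = m / 2) := by
  have hj : t * m + u ∈ tape m t := ⟨by omega, by rw [add_mul]; omega⟩
  have h1 := hc.flags.df _ hj
  have h2 := hc.flags.dl _ hj
  have h3 := hc.flags.hm _ hj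
  rw [mod_own t hu] at h1 h2 h3
  exact ⟨h1, h2, h3⟩

theorem Ctx.fl_guest (hc : Ctx m t S p) {u : ℕ} (hu : u < m) :
    (p ((t + 1) * m + u)).s.df = decide (u = 0) ∧ (p ((t + 1) * m + u)).s.dl = decide (u + 1 = m) ∧
      (p ((t + 1) * m + u)).s.hm = decide (u + 1 = m / 2) := by
  have hj : (t + 1) * m + u ∈ tape m t := ⟨by rw [add_mul]; omega, by rw [add_mul, add_mul]; omega⟩
  have h1 := hc.flags.df _ hj
  have h2 := hc.flags.dl _ hj
  have h3 := hc.flags.hm _ hj
  rw [mod_own (t + 1) hu] at h1 h2 h3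
  exact ⟨h1, h2, h3⟩

theorem Ctx.of_stat (hc : Ctx m t S p) {p' : ℕ → Cell} (h : stat p' = stat p) : Ctx m t S p' :=
  ⟨hc.m4, hc.sub, h ▸ hc.flags⟩

theorem stat_setTok (p : ℕ → Cell) (j : ℕ) (v : Bool) : stat (setTok p j v) = stat p := by
  funext i
  by_cases h : i = j
  · subst h; simp [stat, setTok]
  · simp [stat, setTok, h]

theorem stat_setPm (p : ℕ → Cell) (j : ℕ) (v : Tag Bool) : stat (setPm p j v) = stat p := by
  funext i
  by_cases h : i = j
  · subst h; simp [stat, setPm]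
  · simp [stat, setPm, h]

theorem upd_frame {a a' : AgS} {p p' : ℕ → Cell} {j : ℕ} (hm : 0 < m) (hp : p' j = p j)
    (h1 : ∀ v < m, j = t * m + v →
      pat a'.pos a'.q v = pat a.pos a.q v ∧ pat a'.c () v = pat a.c () v)
    (h2 : ∀ v < m, j = (t + 1) * m + v →
      pat a'.pos a'.q (m + v) = pat a.pos a.q (m + v) ∧ pat a'.c' () v = pat a.c' () v) :
    upd m t a' p' j = upd m t a p j := by
  have e := Nat.div_add_mod' j m
  have hl := Nat.mod_lt j hm
  simp only [upd, hp]
  split_ifs with e1 e2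
  · rw [(h1 _ hl (e1 ▸ e.symm)).1, (h1 _ hl (e1 ▸ e.symm)).2]
  · rw [(h2 _ hl (e2 ▸ e.symm)).1, (h2 _ hl (e2 ▸ e.symm)).2]
  · rfl

theorem own_step (hc : Ctx m t S p) {a a' : AgS} {p' : ℕ → Cell} {u : ℕ} (hu : u + 1 < m)
    (hs : PStep { p (t * m + u) with oh := pat a.pos a.q u, oc := pat a.c () u }
      { p (t * m + (u + 1)) with oh := pat a.pos a.q (u + 1), oc := pat a.c () (u + 1) }
      { p' (t * m + u) with oh := pat a'.pos a'.q u, oc := pat a'.c () u }
      { p' (t * m + (u + 1)) with oh := pat a'.pos a'.q (u + 1), oc := pat a'.c () (u + 1) })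
    (hp : ∀ j, j ≠ t * m + u → p' j = p j)
    (h1 : ∀ v, v ≠ u → v ≠ u + 1 →
      pat a'.pos a'.q v = pat a.pos a.q v ∧ pat a'.c () v = pat a.c () v) (h2 : a'.c' = a.c') :
    RW.Eqv S (upd m t a p) (upd m t a' p') := by
  refine eqv_two (i := t * m + u) (hc.mem (by omega) (by omega)) (hc.mem (by omega) (by omega)) ?_
    fun j hj hj' => upd_frame (by omega) (hp j hj) (fun v _ e => h1 v (by omega) (by omega))
      fun v _ _ => ⟨(h1 _ (by omega) (by omega)).1, by rw [h2]⟩
  rw [add_assoc, upd_own _ _ hu, upd_own _ _ hu, upd_own _ _ (show u < m by omega),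
    upd_own _ _ (show u < m by omega)]
  exact hs

theorem guest_step (hc : Ctx m t S p) {a a' : AgS} {p' : ℕ → Cell} {u : ℕ} (hu : u + 1 < m)
    (hs : PStep { p ((t + 1) * m + u) with gh := pat a.pos a.q (m + u), gc := pat a.c' () u }
      { p ((t + 1) * m + (u + 1)) with gh := pat a.pos a.q (m + (u + 1)), gc := pat a.c' () (u + 1) }
      { p' ((t + 1) * m + u) with gh := pat a'.pos a'.q (m + u), gc := pat a'.c' () u }
      { p' ((t + 1) * m + (u + 1)) with
        gh := pat a'.pos a'.q (m + (u + 1)), gc := pat a'.c' () (u + 1) })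
    (hp : ∀ j, j ≠ (t + 1) * m + u → p' j = p j)
    (h1 : ∀ v, v ≠ m + u → v ≠ m + u + 1 → pat a'.pos a'.q v = pat a.pos a.q v)
    (h1' : ∀ v, v ≠ u → v ≠ u + 1 → pat a'.c' () v = pat a.c' () v) (h2 : a'.c = a.c) :
    RW.Eqv S (upd m t a p) (upd m t a' p') := by
  have e : (t + 1) * m = t * m + m := by ring
  refine eqv_two (i := (t + 1) * m + u) (hc.mem (by omega) (by omega))
    (hc.mem (by omega) (by omega)) ?_
    fun j hj hj' => upd_frame (by omega) (hp j hj)
      (fun v _ _ => ⟨h1 _ (by omega) (by omega), by rw [h2]⟩)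
      fun v _ e => ⟨h1 _ (by omega) (by omega), h1' v (by omega) (by omega)⟩
  rw [add_assoc ((t + 1) * m), upd_guest _ _ hu, upd_guest _ _ hu,
    upd_guest _ _ (show u < m by omega), upd_guest _ _ (show u < m by omega)]
  exact hs

theorem pat_self {Q : Type} (a : ℕ) (q : Q) : pat a q a = .H q := by simp [pat]

theorem pat_lt {Q : Type} {a u : ℕ} (q : Q) (h : u < a) : pat a q u = .R := by simp [pat, h]

theorem pat_gt {Q : Type} {a u : ℕ} (q : Q) (h : a < u) : pat a q u = .L := by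
  simp [pat, h.ne', h.not_gt]

theorem pat_succ {Q : Type} (a : ℕ) (q : Q) : pat a q (a + 1) = .L := pat_gt q (by omega)

theorem pat_pred {Q : Type} (a : ℕ) (q : Q) : pat (a + 1) q a = .R := pat_lt q (by omega)

theorem pat_ne {Q : Type} {a v : ℕ} (q q' : Q) (h : v ≠ a) : pat a q' v = pat a q v := by
  simp [pat, h]

theorem pat_move {Q : Type} {a v : ℕ} (q q' : Q) (h : v ≠ a) (h' : v ≠ a + 1) :
    pat (a + 1) q' v = pat a q v := by
  rcases lt_or_gt_of_ne h with h | h
  · rw [pat_lt _ h, pat_lt _ (by omega)]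
  · rw [pat_gt _ h, pat_gt _ (by omega)]

theorem pat_eq_H {Q : Type} {a u : ℕ} {q q' : Q} (h : pat a q u = .H q') : a = u := by
  unfold pat at h
  split_ifs at h with h1 h2
  exact h2.symm

theorem walk1 (hc : Ctx m t S p) (q : Hs) {pos : ℕ} (c c' : ℕ) (h : pos + 1 < 2 * m) :
    RW.Eqv S (upd m t ⟨q, pos, c, c'⟩ p) (upd m t ⟨q, pos + 1, c, c'⟩ p) := by
  have hm := hc.m4
  rcases lt_trichotomy (pos + 1) m with h1 | h1 | h1
  · refine own_step hc h1 ?_ (fun _ _ => rfl) (fun v hv hv' => ⟨pat_move _ _ hv hv', rfl⟩) rfl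
    simp only [pat_self, pat_succ, pat_pred]
    exact PStep.wo (by simp [(hc.fl_own (show pos < m by omega)).2.1, h1.ne]) rfl rfl
  · have e : (t + 1) * m = t * m + m := by ring
    refine eqv_two (i := t * m + pos) (hc.mem (by omega) (by omega))
      (hc.mem (by omega) (by omega)) ?_ fun j hj hj' => upd_frame (by omega) rfl
        (fun v _ _ => ⟨pat_move _ _ (by omega) (by omega), rfl⟩)
        fun v _ _ => ⟨pat_move _ _ (by omega) (by omega), rfl⟩
    rw [show t * m + pos + 1 = (t + 1) * m + 0 by omega, upd_guest _ _ (show 0 < m by omega),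
      upd_guest _ _ (show 0 < m by omega), upd_own _ _ (show pos < m by omega),
      upd_own _ _ (show pos < m by omega), show m + 0 = pos + 1 by omega]
    simp only [pat_self, pat_succ, pat_pred]
    exact PStep.wc (by simp [(hc.fl_own (show pos < m by omega)).2.1, h1]) rfl rfl
  · obtain ⟨u, rfl⟩ : ∃ u, pos = m + u := ⟨pos - m, by omega⟩
    refine guest_step hc (u := u) (by omega) ?_ (fun _ _ => rfl)
      (fun v hv hv' => pat_move _ _ hv hv') (fun _ _ _ => rfl) rfl
    simp only [← add_assoc, pat_self, pat_succ, pat_pred]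
    exact PStep.wg (by simp [(hc.fl_guest (show u < m by omega)).2.1]; omega) rfl rfl

/-- In a non-dead row every agent is in some state (`tag_rep` for the head on the tape of `2m` cells and for
the two cursors; `POK.co, cb, cf`). -/
theorem pa_rep (hc : Ctx m t S p) (h : ¬ RW.Dead S p) : ∃ a : AgS, a.ok m ∧ upd m t a p = p := by
  have hm := hc.m4
  have e : (t + 1) * m = t * m + m := by ring
  have hk : ∀ u < 2 * m, POK (p (t * m + u)) (p (t * m + (u + 1))) := fun u hu =>
    pok_of_not_dead h (hc.mem (by omega) (by omega)) (hc.mem (by omega) (by omega))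
  have hdl : ∀ u < 2 * m, (p (t * m + u)).s.dl = decide (u + 1 = m ∨ u + 1 = 2 * m) := by
    intro u hu
    by_cases h1 : u < m
    · rw [(hc.fl_own h1).2.1]; congr 1; apply propext; omega
    · rw [show t * m + u = (t + 1) * m + (u - m) by omega, (hc.fl_guest (by omega)).2.1]
      congr 1; apply propext; omega
  have hf0 := (hk 0 (by omega)).cf (hc.fl_own (show 0 < m by omega)).1
  have hf1 := (hk m (by omega)).cf (by
    rw [show t * m + m = (t + 1) * m + 0 by omega, (hc.fl_guest (by omega)).1]; rfl)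
  have hl0 := (hk (m - 1) (by omega)).cb (by rw [hdl _ (by omega)]; simp; omega)
  have hl1 := (hk (2 * m - 1) (by omega)).cb (by rw [hdl _ (by omega)]; simp; omega)
  obtain ⟨a, ha, q, h1⟩ := tag_rep (N := 2 * m)
    (fun u => if u < m then (p (t * m + u)).oh else (p (t * m + u)).gh) (by omega)
    (fun u hu => by
      rcases lt_trichotomy (u + 1) m with h1 | h1 | h1
      · simp only [if_pos h1, if_pos (show u < m by omega)]
        exact ((hk u (by omega)).co (by rw [hdl _ (by omega)]; simp; omega)).1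
      · simp only [if_neg (show ¬ u + 1 < m by omega), if_pos (show u < m by omega)]
        exact ((hk u (by omega)).cb (by rw [hdl _ (by omega)]; simp; omega)).1
      · simp only [if_neg (show ¬ u + 1 < m by omega), if_neg (show ¬ u < m by omega)]
        exact ((hk u (by omega)).co (by rw [hdl _ (by omega)]; simp; omega)).2.1)
    (by simp only [if_pos (show 0 < m by omega)]; exact hf0.1)
    (by simp only [if_neg (show ¬ 2 * m - 1 < m by omega)]; exact hl1.2.1)
  obtain ⟨c, hc1, ⟨⟩, h2⟩ := tag_rep (N := m) (fun u => (p (t * m + u)).oc) (by omega)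
    (fun u hu => ((hk u (by omega)).co (by rw [hdl _ (by omega)]; simp; omega)).2.2.1)
    hf0.2.1 hl0.2.2.1
  obtain ⟨c', hc2, ⟨⟩, h3⟩ := tag_rep (N := m) (fun u => (p (t * m + (m + u))).gc) (by omega)
    (fun u hu => ((hk (m + u) (by omega)).co (by rw [hdl _ (by omega)]; simp; omega)).2.2.2)
    hf1.2.2 (by rw [show m + (m - 1) = 2 * m - 1 by omega]; exact hl1.2.2.2)
  refine ⟨⟨q, a, c, c'⟩, ⟨ha, hc1, hc2⟩, funext fun j => ?_⟩
  have ej := Nat.div_add_mod' j m
  have hl := Nat.mod_lt j (show 0 < m by omega)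
  simp only [upd]
  split_ifs with e1 e2
  · rw [e1] at ej
    have h4 := h1 (j % m) (by omega)
    have h5 := h2 (j % m) hl
    simp only [if_pos hl, ej] at h4 h5
    rw [← h4, ← h5]
  · rw [e2] at ej
    have h4 := h1 (m + j % m) (by omega)
    have h5 := h3 (j % m) hl
    simp only [if_neg (show ¬ m + j % m < m by omega),
      show t * m + (m + j % m) = j by omega] at h4 h5
    rw [← h4, ← h5]
  · rfl

/-- free walking (`wo`, `wc`, `wg`) -/
theorem walk (hc : Ctx m t S p) (q : Hs) {pos pos' : ℕ} (c c' : ℕ) (h : pos < 2 * m)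
    (h' : pos' < 2 * m) : RW.Eqv S (upd m t ⟨q, pos, c, c'⟩ p) (upd m t ⟨q, pos', c, c'⟩ p) := by
  have key : ∀ pos < 2 * m, RW.Eqv S (upd m t ⟨q, 0, c, c'⟩ p) (upd m t ⟨q, pos, c, c'⟩ p) := by
    intro pos
    induction pos with
    | zero => exact fun _ => Eqv.refl _ _
    | succ pos ih => exact fun h => (ih (by omega)).trans (walk1 hc q c c' h)
  exact (key pos h).symm.trans (key pos' h')

/-! The actions.  In each case: walk to the cell where the action takes place, apply `eqv_two`, walk on. -/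

theorem mv_t0c (hc : Ctx m t S p) {pos pos' : ℕ} (c c' : ℕ) (h : pos < 2 * m) (h' : pos' < 2 * m) :
    RW.Eqv S (upd m t ⟨.idle, pos, c, c'⟩ p) (upd m t ⟨.s1 .chk, pos', c, c'⟩ p) := by
  have hm := hc.m4
  refine (walk hc _ _ _ h (pos' := m / 2 - 1) (by omega)).trans
    (Eqv.trans ?_ (walk hc _ _ _ (pos := m / 2 - 1) (by omega) h'))
  refine own_step hc (u := m / 2 - 1) (by omega) ?_ (fun _ _ => rfl)
    (fun v hv _ => ⟨pat_ne _ _ hv, rfl⟩) rfl
  simp only [pat_self, pat_succ]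
  exact PStep.t0c (by simp [(hc.fl_own (show m / 2 - 1 < m by omega)).2.2]; omega) rfl

theorem mv_t0 (hc : Ctx m t S p) {μ : Md} (hμ : μ ≠ .chk) {pos pos' : ℕ} (c c' : ℕ) (h : pos < 2 * m)
    (h' : pos' < 2 * m) (hp : (p (home m t)).s.par = true) (he : (p (home m t)).s.ce = false)
    (hf : (p (home m t)).pm = .H false) :
    RW.Eqv S (upd m t ⟨.idle, pos, c, c'⟩ p)
      (upd m t ⟨.s1 μ, pos', c, c'⟩ (setPm p (home m t) (.H true))) := by
  have hm := hc.m4
  refine (walk hc _ _ _ h (pos' := m / 2 - 1) (by omega)).trans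
    (Eqv.trans ?_ (walk (hc.of_stat (stat_setPm _ _ _)) _ _ _ (pos := m / 2 - 1) (by omega) h'))
  refine own_step hc (u := m / 2 - 1) (by omega) ?_ (fun j hj => by simp [setPm, home, hj])
    (fun v hv _ => ⟨pat_ne _ _ hv, rfl⟩) rfl
  simp only [pat_self, pat_succ, setPm, home, Function.update_self,
    Function.update_of_ne (show t * m + (m / 2 - 1 + 1) ≠ t * m + (m / 2 - 1) by omega)]
  exact PStep.t0 (by simp [(hc.fl_own (show m / 2 - 1 < m by omega)).2.2]; omega) hμ hp he rfl hf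

theorem mv_t1 (hc : Ctx m t S p) (μ : Md) {pos pos' : ℕ} (c' : ℕ) (h : pos < 2 * m) (h' : pos' < 2 * m) :
    RW.Eqv S (upd m t ⟨.s1 μ, pos, 0, c'⟩ p) (upd m t ⟨.q0 μ, pos', 0, c'⟩ p) := by
  have hm := hc.m4
  refine (walk hc _ _ _ h (pos' := 0) (by omega)).trans
    (Eqv.trans ?_ (walk hc _ _ _ (pos := 0) (by omega) h'))
  refine own_step hc (u := 0) (by omega) ?_ (fun _ _ => rfl)
    (fun v hv _ => ⟨pat_ne _ _ hv, rfl⟩) rfl
  simp only [pat_self, pat_succ]
  exact PStep.t1 (hc.fl_own (show 0 < m by omega)).1 rfl rfl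

theorem mv_t2 (hc : Ctx m t S p) (μ : Md) {pos pos' c : ℕ} (c' : ℕ) (h : pos < 2 * m) (h' : pos' < 2 * m)
    (hcm : c + 1 < m) :
    RW.Eqv S (upd m t ⟨.q0 μ, pos, c, c'⟩ p)
      (upd m t ⟨.q1 μ (rdB μ (p (t * m + c))), pos', c + 1, c'⟩
        (setTok p (t * m + c) (rdT μ (p (t * m + c))))) := by
  refine (walk hc _ _ _ h (pos' := c) (by omega)).trans
    (Eqv.trans ?_ (walk (hc.of_stat (stat_setTok _ _ _)) _ _ _ (pos := c) (by omega) h'))
  refine own_step hc (u := c) hcm ?_ (fun j hj => by simp [setTok, hj])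
    (fun v hv hv' => ⟨pat_ne _ _ hv, pat_move _ _ hv hv'⟩) rfl
  simp only [pat_self, pat_succ, pat_pred, setTok, Function.update_self,
    Function.update_of_ne (show t * m + (c + 1) ≠ t * m + c by omega)]
  have := PStep.t2 (x := { p (t * m + c) with oh := .H (.q0 μ), oc := .H () })
    (y := { p (t * m + (c + 1)) with oh := .L, oc := .L }) (μ := μ)
    (by simp [(hc.fl_own (show c < m by omega)).2.1]; omega) rfl rfl rfl
  cases μ <;> exact this

theorem mv_t3 (hc : Ctx m t S p) (μ : Md) (β : Bool) {pos pos' c' : ℕ} (c : ℕ) (h : pos < 2 * m)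
    (h' : pos' < 2 * m) (hcm : c' + 1 < m) (hx : exOK μ β (p ((t + 1) * m + c'))) :
    RW.Eqv S (upd m t ⟨.q1 μ β, pos, c, c'⟩ p)
      (upd m t ⟨.q2 μ (exB μ (p ((t + 1) * m + c'))), pos', c, c' + 1⟩
        (setTok p ((t + 1) * m + c') (exT μ β (p ((t + 1) * m + c'))))) := by
  refine (walk hc _ _ _ h (pos' := m + c') (by omega)).trans
    (Eqv.trans ?_ (walk (hc.of_stat (stat_setTok _ _ _)) _ _ _ (pos := m + c') (by omega) h'))
  refine guest_step hc (u := c') hcm ?_ (fun j hj => by simp [setTok, hj])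
    (fun v hv _ => pat_ne _ _ hv) (fun v hv hv' => pat_move _ _ hv hv') rfl
  simp only [← add_assoc m, pat_self, pat_succ, pat_pred, setTok, Function.update_self,
    Function.update_of_ne (show (t + 1) * m + (c' + 1) ≠ (t + 1) * m + c' by omega)]
  have := PStep.t3 (x := { p ((t + 1) * m + c') with gh := .H (.q1 μ β), gc := .H () })
    (y := { p ((t + 1) * m + (c' + 1)) with gh := .L, gc := .L }) (μ := μ) (β := β)
    (by simp [(hc.fl_guest (show c' < m by omega)).2.1]; omega) rfl rfl rfl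
    (by cases μ <;> exact hx)
  cases μ <;> exact this

theorem mv_t4 (hc : Ctx m t S p) (μ : Md) (β : Bool) {pos pos' c : ℕ} (c' : ℕ) (h : pos < 2 * m)
    (h' : pos' < 2 * m) (hcm : c + 1 < m) (hx : wrOK μ β (p (t * m + c))) :
    RW.Eqv S (upd m t ⟨.q2 μ β, pos, c + 1, c'⟩ p)
      (upd m t ⟨.q0 μ, pos', c + 1, c'⟩ (setTok p (t * m + c) (wrT μ β (p (t * m + c))))) := by
  refine (walk hc _ _ _ h (pos' := c) (by omega)).trans
    (Eqv.trans ?_ (walk (hc.of_stat (stat_setTok _ _ _)) _ _ _ (pos := c) (by omega) h'))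
  refine own_step hc (u := c) hcm ?_ (fun j hj => by simp [setTok, hj])
    (fun v hv hv' => ⟨pat_ne _ _ hv, rfl⟩) rfl
  simp only [pat_self, pat_succ, pat_pred, setTok, Function.update_self,
    Function.update_of_ne (show t * m + (c + 1) ≠ t * m + c by omega)]
  have := PStep.t4 (x := { p (t * m + c) with oh := .H (.q2 μ β), oc := .R })
    (y := { p (t * m + (c + 1)) with oh := .L, oc := .H () }) (μ := μ) (β := β)
    (by simp [(hc.fl_own (show c < m by omega)).2.1]; omega) rfl rfl rfl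
    (by cases μ <;> exact hx)
  cases μ <;> exact this

theorem mv_t5 (hc : Ctx m t S p) {pos pos' : ℕ} (c' : ℕ) (h : pos < 2 * m) (h' : pos' < 2 * m) :
    RW.Eqv S (upd m t ⟨.q0 .swp, pos, m - 1, c'⟩ p) (upd m t ⟨.e1, pos', m - 1, c'⟩ p) := by
  have hm := hc.m4
  obtain ⟨u, hu⟩ : ∃ u, m - 1 = u + 1 := ⟨m - 2, by omega⟩
  rw [hu]
  refine (walk hc _ _ _ h (pos' := u) (by omega)).trans
    (Eqv.trans ?_ (walk hc _ _ _ (pos := u) (by omega) h'))
  refine own_step hc (u := u) (by omega) ?_ (fun _ _ => rfl)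
    (fun v hv _ => ⟨pat_ne _ _ hv, rfl⟩) rfl
  simp only [pat_self, pat_succ]
  exact PStep.t5 (by simp [(hc.fl_own (show u + 1 < m by omega)).2.1]; omega) rfl rfl

theorem mv_t6 (hc : Ctx m t S p) {pos pos' : ℕ} (c : ℕ) (h : pos < 2 * m) (h' : pos' < 2 * m) :
    RW.Eqv S (upd m t ⟨.e1, pos, c, m - 1⟩ p) (upd m t ⟨.e2, pos', c, m - 1⟩ p) := by
  have hm := hc.m4
  obtain ⟨u, hu⟩ : ∃ u, m - 1 = u + 1 := ⟨m - 2, by omega⟩
  rw [hu]
  refine (walk hc _ _ _ h (pos' := m + u) (by omega)).trans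
    (Eqv.trans ?_ (walk hc _ _ _ (pos := m + u) (by omega) h'))
  refine guest_step hc (u := u) (by omega) ?_ (fun _ _ => rfl)
    (fun v hv _ => pat_ne _ _ hv) (fun _ _ _ => rfl) rfl
  simp only [← add_assoc m, pat_self, pat_succ]
  exact PStep.t6 (by simp [(hc.fl_guest (show u + 1 < m by omega)).2.1]; omega) rfl rfl

theorem mv_drag (hc : Ctx m t S p) {pos pos' c c' d d' : ℕ} (h : pos < 2 * m) (h' : pos' < 2 * m)
    (h1 : c < m) (h2 : c' < m) (h3 : d < m) (h4 : d' < m) :
    RW.Eqv S (upd m t ⟨.e2, pos, c, c'⟩ p) (upd m t ⟨.e2, pos', d, d'⟩ p) := by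
  have k1 : ∀ c' c, c < m → RW.Eqv S (upd m t ⟨.e2, 0, 0, c'⟩ p) (upd m t ⟨.e2, 0, c, c'⟩ p) := by
    intro c' c
    induction c with
    | zero => exact fun _ => Eqv.refl _ _
    | succ c ih =>
      intro hcm
      refine (ih (by omega)).trans ((walk hc _ _ _ (by omega) (pos' := c) (by omega)).trans
        (Eqv.trans ?_ (walk hc _ _ _ (pos := c) (by omega) (by omega))))
      refine own_step hc (u := c) hcm ?_ (fun _ _ => rfl)
        (fun v hv hv' => ⟨rfl, pat_move _ _ hv hv'⟩) rfl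
      simp only [pat_self, pat_succ, pat_pred]
      exact PStep.dro (by simp [(hc.fl_own (show c < m by omega)).2.1]; omega) rfl rfl rfl
  have k2 : ∀ c, c < m → RW.Eqv S (upd m t ⟨.e2, 0, 0, 0⟩ p) (upd m t ⟨.e2, 0, 0, c⟩ p) := by
    intro c
    induction c with
    | zero => exact fun _ => Eqv.refl _ _
    | succ c ih =>
      intro hcm
      refine (ih (by omega)).trans ((walk hc _ _ _ (by omega) (pos' := m + c) (by omega)).trans
        (Eqv.trans ?_ (walk hc _ _ _ (pos := m + c) (by omega) (by omega))))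
      refine guest_step hc (u := c) hcm ?_ (fun _ _ => rfl) (fun _ _ _ => rfl)
        (fun v hv hv' => pat_move _ _ hv hv') rfl
      simp only [← add_assoc m, pat_self, pat_succ, pat_pred]
      exact PStep.drg (by simp [(hc.fl_guest (show c < m by omega)).2.1]; omega) rfl rfl rfl
  exact ((walk hc _ _ _ h (pos' := 0) (by omega)).trans ((k2 _ h2).trans (k1 _ _ h1)).symm).trans
    (((k2 _ h4).trans (k1 _ _ h3)).trans (walk hc _ _ _ (by omega) h'))

theorem mv_t7 (hc : Ctx m t S p) {pos pos' : ℕ} (c' : ℕ) (h : pos < 2 * m) (h' : pos' < 2 * m) :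
    RW.Eqv S (upd m t ⟨.e2, pos, 0, c'⟩ p) (upd m t ⟨.e3, pos', 0, c'⟩ p) := by
  have hm := hc.m4
  refine (walk hc _ _ _ h (pos' := 0) (by omega)).trans
    (Eqv.trans ?_ (walk hc _ _ _ (pos := 0) (by omega) h'))
  refine own_step hc (u := 0) (by omega) ?_ (fun _ _ => rfl)
    (fun v hv _ => ⟨pat_ne _ _ hv, rfl⟩) rfl
  simp only [pat_self, pat_succ]
  exact PStep.t7 (hc.fl_own (show 0 < m by omega)).1 rfl rfl

theorem mv_t8 (hc : Ctx m t S p) {pos pos' : ℕ} (c : ℕ) (h : pos < 2 * m) (h' : pos' < 2 * m) :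
    RW.Eqv S (upd m t ⟨.e3, pos, c, 0⟩ p) (upd m t ⟨.s1 .swp, pos', c, 0⟩ p) := by
  have hm := hc.m4
  refine (walk hc _ _ _ h (pos' := m + 0) (by omega)).trans
    (Eqv.trans ?_ (walk hc _ _ _ (pos := m + 0) (by omega) h'))
  refine guest_step hc (u := 0) (by omega) ?_ (fun _ _ => rfl)
    (fun v hv _ => pat_ne _ _ hv) (fun _ _ _ => rfl) rfl
  simp only [← add_assoc m, pat_self, pat_succ]
  exact PStep.t8 (hc.fl_guest (show 0 < m by omega)).1 rfl rfl

/-! The guards: walk to the relevant cell and use `pok_of_not_dead`. -/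

theorem pok_own (hc : Ctx m t S p) {a : AgS} (ha : a.ok m) (h : ¬ RW.Dead S (upd m t a p)) {u : ℕ}
    (hu : u < m) : POK { p (t * m + u) with oh := .H a.q, oc := pat a.c () u }
      (upd m t ⟨a.q, u, a.c, a.c'⟩ p (t * m + (u + 1))) := by
  have := pok_of_not_dead ((walk hc a.q a.c a.c' ha.1 (pos' := u) (by omega)).not_dead h)
    (j := t * m + u) (hc.mem (by omega) (by omega)) (hc.mem (by omega) (by omega))
  rwa [upd_own _ _ hu, pat_self] at this

theorem pok_guest (hc : Ctx m t S p) {a : AgS} (ha : a.ok m) (h : ¬ RW.Dead S (upd m t a p)) {u : ℕ}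
    (hu : u < m) : POK { p ((t + 1) * m + u) with gh := .H a.q, gc := pat a.c' () u }
      (upd m t ⟨a.q, m + u, a.c, a.c'⟩ p ((t + 1) * m + (u + 1))) := by
  have e : (t + 1) * m = t * m + m := by ring
  have := pok_of_not_dead ((walk hc a.q a.c a.c' ha.1 (pos' := m + u) (by omega)).not_dead h)
    (j := (t + 1) * m + u) (hc.mem (by omega) (by omega)) (hc.mem (by omega) (by omega))
  rwa [upd_guest _ _ hu, pat_self] at this

theorem kl_a (hc : Ctx m t S p) {a : AgS} (ha : a.ok m) (h : ¬ RW.Dead S (upd m t a p)) {μ : Md}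
    (hq : a.q = .q2 μ true) : μ = .swp := by
  have hm := hc.m4
  by_contra hμ
  exact (pok_own hc ha h (u := 0) (by omega)).ka μ hμ (by rw [hq])

theorem kl_b (hc : Ctx m t S p) {a : AgS} (ha : a.ok m) (h : ¬ RW.Dead S (upd m t a p)) {μ : Md}
    {β : Bool} (hq : a.q = .q1 μ β) : ∃ c₀, a.c = c₀ + 1 ∧ unrdOK μ β (p (t * m + c₀)) := by
  have hm := hc.m4
  have hcm := ha.2.1
  rcases e : a.c with _ | c₀
  · exact ((pok_own hc ha h (u := 0) (by omega)).kc μ β
      (hc.fl_own (show 0 < m by omega)).1 (by rw [hq]) (by rw [e]; rfl)).elim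
  · have := (pok_own hc ha h (u := c₀) (by omega)).kb μ β
      (by simp [(hc.fl_own (show c₀ < m by omega)).2.1]; omega) (by rw [hq])
      (by rw [e]; exact pat_pred _ _) (by rw [upd_own _ _ (by omega), e]; exact pat_self _ _)
    exact ⟨c₀, rfl, by cases μ <;> exact this⟩

theorem kl_d (hc : Ctx m t S p) {a : AgS} (ha : a.ok m) (h : ¬ RW.Dead S (upd m t a p)) {μ : Md}
    {β : Bool} (hq : a.q = .q2 μ β) : a.c' ≠ 0 := by
  have hm := hc.m4
  intro e
  exact (pok_guest hc ha h (u := 0) (by omega)).kd μ β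
    (hc.fl_guest (show 0 < m by omega)).1 (by rw [hq]) (by rw [e]; rfl)

theorem kl_e (hc : Ctx m t S p) {a : AgS} (ha : a.ok m) (h : ¬ RW.Dead S (upd m t a p))
    (hq : a.q = .idle ∨ (∃ μ, a.q = .s1 μ) ∨ a.q = .e3) : a.c = 0 := by
  have hm := hc.m4
  exact pat_eq_H ((pok_own hc ha h (u := 0) (by omega)).ke a.q
    (hc.fl_own (show 0 < m by omega)).1 rfl hq)

theorem kl_f (hc : Ctx m t S p) {a : AgS} (ha : a.ok m) (h : ¬ RW.Dead S (upd m t a p))
    (hq : a.q = .idle ∨ ∃ μ, a.q = .s1 μ) : a.c' = 0 := by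
  have hm := hc.m4
  exact pat_eq_H ((pok_guest hc ha h (u := 0) (by omega)).kf a.q
    (hc.fl_guest (show 0 < m by omega)).1 rfl hq)

theorem kl_g (hc : Ctx m t S p) {a : AgS} (ha : a.ok m) (h : ¬ RW.Dead S (upd m t a p))
    (hq : a.q = .e1) : a.c' = m - 1 := by
  have hm := hc.m4
  have := (pok_guest hc ha h (u := m - 2) (by omega)).kg
    (by simp [(hc.fl_guest (show m - 2 + 1 < m by omega)).2.1]; omega) (by rw [hq])
  rw [upd_guest _ _ (by omega)] at this
  have := pat_eq_H this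
  simp only at this
  omega

theorem kl_h (hc : Ctx m t S p) {a : AgS} (ha : a.ok m) (h : ¬ RW.Dead S (upd m t a p)) {β : Bool}
    (hq : a.q = .q1 .chk β) : β = (p ((t + 1) * m + a.c')).s.pb := by
  exact (pok_guest hc ha h ha.2.2).kh β (by rw [hq]) (pat_self _ _)

theorem kl_i (hc : Ctx m t S p) {a : AgS} (ha : a.ok m) (h : ¬ RW.Dead S (upd m t a p))
    (hq : a.q = .q0 .eq) : a.c ≠ m - 1 := by
  have hm := hc.m4
  intro e
  refine (pok_own hc ha h (u := m - 2) (by omega)).ki
    (by simp [(hc.fl_own (show m - 2 + 1 < m by omega)).2.1]; omega) (by rw [hq]) ?_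
  rw [upd_own _ _ (by omega), e, show m - 2 + 1 = m - 1 by omega]
  exact pat_self _ _

theorem kl_j (hc : Ctx m t S p) {a : AgS} (ha : a.ok m) (h : ¬ RW.Dead S (upd m t a p)) {μ : Md}
    (hq : a.q = .s1 μ) (hμ : μ ≠ .chk) :
    (p (home m t)).s.par = true ∧ (p (home m t)).s.ce = false ∧ (p (home m t)).pm = .H true := by
  have hm := hc.m4
  exact (pok_own hc ha h (u := m / 2 - 1) (by omega)).kj μ
    (by simp [(hc.fl_own (show m / 2 - 1 < m by omega)).2.2]; omega) (by rw [hq]) hμ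

theorem kl_k (hc : Ctx m t S p) {a : AgS} (ha : a.ok m) (h : ¬ RW.Dead S (upd m t a p))
    (hq : a.q = .idle) : (p (home m t)).pm ≠ .H true := by
  have hm := hc.m4
  exact (pok_own hc ha h (u := m / 2 - 1) (by omega)).kk
    (by simp [(hc.fl_own (show m / 2 - 1 < m by omega)).2.2]; omega) (by rw [hq])

end

end Crest.Agent.R176
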