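import Crest.Agent.R176.PAg1

/-! Row 176: normalisation of one agent, and the three operations of an idle agent. -/

set_option autoImplicit false

namespace Crest.Agent.R176

open WSys

variable {m t : ℕ} {S : Set ℕ} {p : ℕ → Cell}

/-! ### token updates -/

theorem ag_setTok_self (p : ℕ → Cell) (j : ℕ) : setTok p j (p j).tok = p :=
  Function.update_eq_self j p

theorem ag_setTok_at (p : ℕ → Cell) (j : ℕ) (v : Bool) : setTok p j v j = { p j with tok := v } :=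
  Function.update_self _ _ _

theorem ag_setTok_ne (p : ℕ → Cell) {j i : ℕ} (v : Bool) (h : i ≠ j) : setTok p j v i = p i :=
  Function.update_of_ne h _ _

theorem ag_setTok_twice (p : ℕ → Cell) (j : ℕ) (v w : Bool) :
    setTok (setTok p j v) j w = setTok p j w := by
  funext i
  by_cases h : i = j
  · subst h; simp only [ag_setTok_at]
  · simp only [ag_setTok_ne _ _ h]

theorem ag_setPm_at (p : ℕ → Cell) (j : ℕ) (v : Tag Bool) : setPm p j v j = { p j with pm := v } :=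
  Function.update_self _ _ _

theorem ag_setPm_ne (p : ℕ → Cell) {j i : ℕ} (v : Tag Bool) (h : i ≠ j) : setPm p j v i = p i :=
  Function.update_of_ne h _ _

theorem ag_setPm_back {p : ℕ → Cell} {j : ℕ} {v : Tag Bool} (w : Tag Bool) (h : (p j).pm = v) :
    setPm (setPm p j w) j v = p := by
  funext i
  by_cases hi : i = j
  · subst hi; simp only [ag_setPm_at, ← h]
  · simp only [ag_setPm_ne _ _ hi]

theorem ag_stat_setTok (p : ℕ → Cell) (j : ℕ) (v : Bool) : stat (setTok p j v) = stat p := by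
  funext i
  by_cases h : i = j
  · subst h; simp only [stat, ag_setTok_at]
  · simp only [stat, ag_setTok_ne _ _ h]

theorem ag_stat_setPm (p : ℕ → Cell) (j : ℕ) (v : Tag Bool) : stat (setPm p j v) = stat p := by
  funext i
  by_cases h : i = j
  · subst h; simp only [stat, ag_setPm_at]
  · simp only [stat, ag_setPm_ne _ _ h]

theorem ag_setPm_tok (p : ℕ → Cell) (j : ℕ) (v : Tag Bool) (i : ℕ) :
    (setPm p j v i).tok = (p i).tok := by
  by_cases h : i = j
  · subst h; simp only [ag_setPm_at]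
  · simp only [ag_setPm_ne _ _ h]

theorem ag_ovr_not {F : Set ℕ} (T : ℕ → Bool) (p : ℕ → Cell) {j : ℕ} (h : j ∉ F) :
    ovr F T p j = p j := by
  simp only [ovr, if_neg h]

theorem ag_ovr_s (F : Set ℕ) (T : ℕ → Bool) (p : ℕ → Cell) (j : ℕ) :
    (ovr F T p j).s = (p j).s := congrFun (stat_ovr F T p) j

theorem ag_ovr_setTok {F : Set ℕ} (T : ℕ → Bool) (p : ℕ → Cell) {j : ℕ} (h : j ∉ F) (v : Bool) :
    ovr F T (setTok p j v) = setTok (ovr F T p) j v := by
  funext i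
  by_cases hi : i = j
  · subst hi; simp only [ag_ovr_not _ _ h, ag_setTok_at]
  · simp only [ovr, ag_setTok_ne _ _ hi]

theorem ag_ovr_setPm (F : Set ℕ) (T : ℕ → Bool) (p : ℕ → Cell) (j : ℕ) (v : Tag Bool) :
    ovr F T (setPm p j v) = setPm (ovr F T p) j v := by
  funext i
  by_cases hi : i = j
  · subst hi
    simp only [ovr, ag_setPm_at]
    split_ifs <;> rfl
  · simp only [ovr, ag_setPm_ne _ _ hi]

theorem ag_ovr_pm (F : Set ℕ) (T : ℕ → Bool) (p : ℕ → Cell) (j : ℕ) :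
    (ovr F T p j).pm = (p j).pm := by
  simp only [ovr]; split_ifs <;> rfl

theorem Ctx.ag_ovr (hc : Ctx m t S p) (F : Set ℕ) (T : ℕ → Bool) : Ctx m t S (ovr F T p) :=
  hc.of_stat (stat_ovr F T p)

theorem Ctx.ag_setTok (hc : Ctx m t S p) (j : ℕ) (v : Bool) : Ctx m t S (setTok p j v) :=
  hc.of_stat (ag_stat_setTok p j v)

theorem Ctx.ag_setPm (hc : Ctx m t S p) (j : ℕ) (v : Tag Bool) : Ctx m t S (setPm p j v) :=
  hc.of_stat (ag_stat_setPm p j v)

theorem Ctx.ag_pos (hc : Ctx m t S p) : 0 < 2 * m := by have := hc.m4; omega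

theorem ag_div {m u : ℕ} (t : ℕ) (hu : u < m) : (t * m + u) / m = t := by
  rw [Nat.add_comm, Nat.add_mul_div_right _ _ (by omega), Nat.div_eq_of_lt hu, Nat.zero_add]

theorem ag_mod {m u : ℕ} (t : ℕ) (hu : u < m) : (t * m + u) % m = u := by
  rw [Nat.add_comm, Nat.add_mul_mod_self_right, Nat.mod_eq_of_lt hu]

/-! ### rewinding -/

/-- a replayable computation which changes only the state of the agent and tokens of its two blocks -/
structure Rw (m t : ℕ) (S F : Set ℕ) (a : AgS) (p : ℕ → Cell) (a' : AgS) (p' : ℕ → Cell) : Prop where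
  eqv : ∀ T, RW.Eqv S (upd m t a (ovr F T p)) (upd m t a' (ovr F T p'))
  same : ∀ j, p' j = { p j with tok := (p' j).tok }
  tokF : ∀ j ∈ F, (p' j).tok = (p j).tok
  tok : ∀ j, j / m ≠ t → j / m ≠ t + 1 → (p' j).tok = (p j).tok

variable {F : Set ℕ}

theorem Rw.trans {a a' a'' : AgS} {p' p'' : ℕ → Cell} (h : Rw m t S F a p a' p')
    (h' : Rw m t S F a' p' a'' p'') : Rw m t S F a p a'' p'' :=
  ⟨fun T => (h.eqv T).trans (h'.eqv T), fun j => by rw [h'.same j, h.same j],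
    fun j hj => (h'.tokF j hj).trans (h.tokF j hj),
    fun j h1 h2 => (h'.tok j h1 h2).trans (h.tok j h1 h2)⟩

theorem Rw.rel {a a' : AgS} {p' : ℕ → Cell} (h : Rw m t S F a p a' p') :
    RelF S F (upd m t a p) (upd m t a' p') :=
  ⟨fun T => by rw [ovr_upd, ovr_upd]; exact h.eqv T, fun j hj => by
    rw [upd_tok, upd_tok, h.tokF j hj]⟩

theorem Rw.nd {a a' : AgS} {p' : ℕ → Cell} (h : Rw m t S F a p a' p')
    (hd : ¬ RW.Dead S (upd m t a p)) : ¬ RW.Dead S (upd m t a' p') :=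
  h.rel.eqv.not_dead hd

theorem Rw.ctx {a a' : AgS} {p' : ℕ → Cell} (h : Rw m t S F a p a' p') (hc : Ctx m t S p) :
    Ctx m t S p' :=
  hc.of_stat (funext fun j => by simp only [stat]; rw [h.same j])

theorem Rw.of_eqv {a a' : AgS}
    (h : ∀ T, RW.Eqv S (upd m t a (ovr F T p)) (upd m t a' (ovr F T p))) : Rw m t S F a p a' p :=
  ⟨h, fun _ => rfl, fun _ _ => rfl, fun _ _ _ => rfl⟩

theorem Rw.of_setTok {a a' : AgS} {j : ℕ} {v : Bool} (hj : j / m = t ∨ j / m = t + 1) (hF : j ∉ F)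
    (h : ∀ T, RW.Eqv S (upd m t a (ovr F T p)) (upd m t a' (setTok (ovr F T p) j v))) :
    Rw m t S F a p a' (setTok p j v) := by
  refine ⟨fun T => ?_, fun i => ?_, fun i hi => ?_, fun i h1 h2 => ?_⟩
  · rw [ag_ovr_setTok T p hF]; exact h T
  · by_cases hi : i = j
    · subst hi; simp only [ag_setTok_at]
    · simp only [ag_setTok_ne _ _ hi]
  · rw [ag_setTok_ne _ _ (by rintro rfl; exact hF hi)]
  · rw [ag_setTok_ne _ _ (by rintro rfl; tauto)]

/-- the tokens on `F` may be overridden in mode `μ` -/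
def Free (m t : ℕ) (F : Set ℕ) (μ : Md) : Prop := μ = .chk ∨ ∀ j ∈ F, j / m ≠ t ∧ j / m ≠ t + 1

theorem Free.own {μ : Md} (h : Free m t F μ) (hμ : μ ≠ .chk) {u : ℕ} (hu : u < m) :
    t * m + u ∉ F := fun hj => ((h.resolve_left hμ) _ hj).1 (ag_div t hu)

theorem Free.guest {μ : Md} (h : Free m t F μ) (hμ : μ ≠ .chk) {u : ℕ} (hu : u < m) :
    (t + 1) * m + u ∉ F := fun hj => ((h.resolve_left hμ) _ hj).2 (ag_div (t + 1) hu)

theorem ag_back4 (hc : Ctx m t S p) {μ : Md} (hF : Free m t F μ) {pos c : ℕ} (c' : ℕ)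
    (hp : pos < 2 * m) (h1 : c + 1 < m) :
    ∃ β p', Rw m t S F ⟨.q0 μ, pos, c + 1, c'⟩ p ⟨.q2 μ β, 0, c + 1, c'⟩ p' := by
  cases μ with
  | chk =>
    refine ⟨false, p, Rw.of_eqv fun T => ?_⟩
    have := mv_t4 (hc.ag_ovr F T) .chk false c' hc.ag_pos hp h1 rfl
    simp only [wrT, ag_setTok_self] at this
    exact this.symm
  | eq =>
    refine ⟨false, p, Rw.of_eqv fun T => ?_⟩
    have := mv_t4 (hc.ag_ovr F T) .eq false c' hc.ag_pos hp h1 rfl
    simp only [wrT, ag_setTok_self] at this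
    exact this.symm
  | swp =>
    have hj := hF.own (by simp) (Nat.lt_of_succ_lt h1)
    refine ⟨(p (t * m + c)).tok, _,
      Rw.of_setTok (v := false) (Or.inl (ag_div t (Nat.lt_of_succ_lt h1))) hj fun T => ?_⟩
    have := mv_t4 ((hc.ag_ovr F T).ag_setTok (t * m + c) false) .swp (p (t * m + c)).tok c'
      hc.ag_pos hp h1 (by simp only [wrOK, ag_setTok_at])
    simp only [wrT, ag_setTok_twice] at this
    rw [← ag_ovr_not T p hj, ag_setTok_self, ag_ovr_not T p hj] at this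
    exact this.symm

theorem ag_back3 (hc : Ctx m t S p) {μ : Md} (hF : Free m t F μ) {β : Bool} {pos c c' : ℕ}
    (hp : pos < 2 * m) (h1 : c < m) (h2 : c' < m)
    (hd : ¬ RW.Dead S (upd m t ⟨.q2 μ β, pos, c, c'⟩ p)) :
    ∃ β' d p', c' = d + 1 ∧ Rw m t S F ⟨.q2 μ β, pos, c, c'⟩ p ⟨.q1 μ β', 0, c, d⟩ p' := by
  obtain ⟨d, rfl⟩ := Nat.exists_eq_succ_of_ne_zero (kl_d hc ⟨hp, h1, h2⟩ hd rfl)
  have hβ : μ ≠ .swp → β = false := fun hμ => by
    cases β with
    | false => rfl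
    | true => exact absurd (kl_a hc ⟨hp, h1, h2⟩ hd rfl) hμ
  cases μ with
  | chk =>
    obtain rfl := hβ (by simp)
    refine ⟨(p ((t + 1) * m + d)).s.pb, d, p, rfl, Rw.of_eqv fun T => ?_⟩
    have := mv_t3 (hc.ag_ovr F T) .chk (p ((t + 1) * m + d)).s.pb c hc.ag_pos hp h2
      (by simp only [exOK, ag_ovr_s])
    simp only [exB, exT, ag_setTok_self] at this
    exact this.symm
  | eq =>
    obtain rfl := hβ (by simp)
    have hj := hF.guest (by simp) (Nat.lt_of_succ_lt h2)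
    refine ⟨(p ((t + 1) * m + d)).tok, d, p, rfl, Rw.of_eqv fun T => ?_⟩
    have := mv_t3 (hc.ag_ovr F T) .eq (p ((t + 1) * m + d)).tok c hc.ag_pos hp h2
      (by simp only [exOK, ag_ovr_not T p hj])
    simp only [exB, exT, ag_setTok_self] at this
    exact this.symm
  | swp =>
    have hj := hF.guest (by simp) (Nat.lt_of_succ_lt h2)
    refine ⟨(p ((t + 1) * m + d)).tok, d, _, rfl,
      Rw.of_setTok (v := β) (Or.inr (ag_div (t + 1) (Nat.lt_of_succ_lt h2))) hj fun T => ?_⟩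
    have := mv_t3 ((hc.ag_ovr F T).ag_setTok ((t + 1) * m + d) β) .swp (p ((t + 1) * m + d)).tok c
      hc.ag_pos hp h2 trivial
    simp only [exB, exT, ag_setTok_twice, ag_setTok_at] at this
    rw [← ag_ovr_not T p hj, ag_setTok_self, ag_ovr_not T p hj] at this
    exact this.symm

theorem ag_back2 (hc : Ctx m t S p) {μ : Md} (hF : Free m t F μ) {β : Bool} {pos c c' : ℕ}
    (hp : pos < 2 * m) (h1 : c < m) (h2 : c' < m)
    (hd : ¬ RW.Dead S (upd m t ⟨.q1 μ β, pos, c, c'⟩ p)) :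
    ∃ d p', c = d + 1 ∧ Rw m t S F ⟨.q1 μ β, pos, c, c'⟩ p ⟨.q0 μ, 0, d, c'⟩ p' := by
  obtain ⟨d, hcd, hu⟩ := kl_b hc ⟨hp, h1, h2⟩ hd rfl
  obtain rfl : c = d + 1 := hcd
  cases μ with
  | chk =>
    obtain rfl : β = _ := hu
    refine ⟨d, p, rfl, Rw.of_eqv fun T => ?_⟩
    have := mv_t2 (hc.ag_ovr F T) .chk c' hc.ag_pos hp h1
    simp only [rdB, rdT, ag_setTok_self, ag_ovr_s] at this
    exact this.symm
  | eq =>
    obtain rfl : β = _ := hu
    have hj := hF.own (by simp) (Nat.lt_of_succ_lt h1)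
    refine ⟨d, p, rfl, Rw.of_eqv fun T => ?_⟩
    have := mv_t2 (hc.ag_ovr F T) .eq c' hc.ag_pos hp h1
    simp only [rdB, rdT, ag_setTok_self] at this
    rw [ag_ovr_not T p hj] at this
    exact this.symm
  | swp =>
    have hj := hF.own (by simp) (Nat.lt_of_succ_lt h1)
    refine ⟨d, _, rfl,
      Rw.of_setTok (v := β) (Or.inl (ag_div t (Nat.lt_of_succ_lt h1))) hj fun T => ?_⟩
    have := mv_t2 ((hc.ag_ovr F T).ag_setTok (t * m + d) β) .swp c' hc.ag_pos hp h1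
    simp only [rdB, rdT, ag_setTok_twice, ag_setTok_at] at this
    have e : (ovr F T p (t * m + d)).tok = false := by rw [ag_ovr_not T p hj]; exact hu
    rw [← e, ag_setTok_self] at this
    exact this.symm

/-- the agent can be rewound to the state `s1 μ` -/
def Back (m t : ℕ) (S F : Set ℕ) (μ : Md) (a : AgS) (p : ℕ → Cell) : Prop :=
  ∃ p', Rw m t S F a p ⟨.s1 μ, 0, 0, 0⟩ p'

theorem Rw.back {μ : Md} {a a' : AgS} {p' : ℕ → Cell} (h : Rw m t S F a p a' p')
    (h' : Back m t S F μ a' p') : Back m t S F μ a p := by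
  obtain ⟨p'', h'⟩ := h'
  exact ⟨p'', h.trans h'⟩

theorem ag_back_s1 (hc : Ctx m t S p) {μ : Md} {pos c c' : ℕ}
    (hp : pos < 2 * m) (h1 : c < m) (h2 : c' < m)
    (hd : ¬ RW.Dead S (upd m t ⟨.s1 μ, pos, c, c'⟩ p)) : Back m t S F μ ⟨.s1 μ, pos, c, c'⟩ p := by
  obtain rfl : c = 0 := kl_e hc ⟨hp, h1, h2⟩ hd (Or.inr (Or.inl ⟨μ, rfl⟩))
  obtain rfl : c' = 0 := kl_f hc ⟨hp, h1, h2⟩ hd (Or.inr ⟨μ, rfl⟩)
  exact ⟨p, Rw.of_eqv fun T => walk (hc.ag_ovr F T) _ 0 0 hp hc.ag_pos⟩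

theorem ag_back_q0 {μ : Md} (hF : Free m t F μ) (c : ℕ) : ∀ {p : ℕ → Cell} {pos c' : ℕ},
    Ctx m t S p → pos < 2 * m → c < m → c' < m → ¬ RW.Dead S (upd m t ⟨.q0 μ, pos, c, c'⟩ p) →
    Back m t S F μ ⟨.q0 μ, pos, c, c'⟩ p := by
  induction c with
  | zero =>
    intro p pos c' hc hp h1 h2 hd
    have r : Rw m t S F ⟨.q0 μ, pos, 0, c'⟩ p ⟨.s1 μ, 0, 0, c'⟩ p :=
      Rw.of_eqv fun T => (mv_t1 (hc.ag_ovr F T) μ c' hc.ag_pos hp).symm
    exact r.back (ag_back_s1 hc hc.ag_pos h1 h2 (r.nd hd))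
  | succ c ih =>
    intro p pos c' hc hp h1 h2 hd
    obtain ⟨β, p₁, r₁⟩ := ag_back4 hc hF c' hp h1
    obtain ⟨β', d, p₂, rfl, r₂⟩ := ag_back3 (r₁.ctx hc) hF hc.ag_pos h1 h2 (r₁.nd hd)
    have r₁₂ := r₁.trans r₂
    obtain ⟨e, p₃, he, r₃⟩ :=
      ag_back2 (r₁₂.ctx hc) hF hc.ag_pos h1 (Nat.lt_of_succ_lt h2) (r₁₂.nd hd)
    obtain rfl : c = e := by omega
    have r := r₁₂.trans r₃
    exact r.back (ih (r.ctx hc) hc.ag_pos (Nat.lt_of_succ_lt h1) (Nat.lt_of_succ_lt h2) (r.nd hd))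

theorem ag_back_q1 (hc : Ctx m t S p) {μ : Md} (hF : Free m t F μ) {β : Bool} {pos c c' : ℕ}
    (hp : pos < 2 * m) (h1 : c < m) (h2 : c' < m)
    (hd : ¬ RW.Dead S (upd m t ⟨.q1 μ β, pos, c, c'⟩ p)) :
    Back m t S F μ ⟨.q1 μ β, pos, c, c'⟩ p := by
  obtain ⟨d, p', rfl, r⟩ := ag_back2 hc hF hp h1 h2 hd
  exact r.back (ag_back_q0 hF d (r.ctx hc) hc.ag_pos (Nat.lt_of_succ_lt h1) h2 (r.nd hd))

theorem ag_back_q2 (hc : Ctx m t S p) {μ : Md} (hF : Free m t F μ) {β : Bool} {pos c c' : ℕ}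
    (hp : pos < 2 * m) (h1 : c < m) (h2 : c' < m)
    (hd : ¬ RW.Dead S (upd m t ⟨.q2 μ β, pos, c, c'⟩ p)) :
    Back m t S F μ ⟨.q2 μ β, pos, c, c'⟩ p := by
  obtain ⟨β', d, p', rfl, r⟩ := ag_back3 hc hF hp h1 h2 hd
  exact r.back (ag_back_q1 (r.ctx hc) hF hc.ag_pos h1 (Nat.lt_of_succ_lt h2) (r.nd hd))

theorem ag_back_e2 (hc : Ctx m t S p) {pos c c' : ℕ} (hp : pos < 2 * m) (h1 : c < m) (h2 : c' < m) :
    Back m t S F .swp ⟨.e2, pos, c, c'⟩ p := by
  have h0 : 0 < m := by omega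
  exact ⟨p, Rw.of_eqv fun T =>
    ((mv_drag (hc.ag_ovr F T) hp hc.ag_pos h1 h2 h0 h0).trans
      (mv_t7 (hc.ag_ovr F T) 0 hc.ag_pos hc.ag_pos)).trans
      (mv_t8 (hc.ag_ovr F T) 0 hc.ag_pos hc.ag_pos)⟩

/-- the mode of a busy head -/
def Hs.mode : Hs → Md
  | .s1 μ => μ
  | .q0 μ => μ
  | .q1 μ _ => μ
  | .q2 μ _ => μ
  | _ => .swp

theorem ag_back (hc : Ctx m t S p) {a : AgS} (ha : a.ok m) (hq : a.q ≠ .idle)
    (hF : Free m t F a.q.mode) (hd : ¬ RW.Dead S (upd m t a p)) : Back m t S F a.q.mode a p := by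
  obtain ⟨q, pos, c, c'⟩ := a
  obtain ⟨hp, h1, h2⟩ := ha
  cases q with
  | idle => exact absurd rfl hq
  | s1 μ => exact ag_back_s1 hc hp h1 h2 hd
  | q0 μ => exact ag_back_q0 hF c hc hp h1 h2 hd
  | q1 μ β => exact ag_back_q1 hc hF hp h1 h2 hd
  | q2 μ β => exact ag_back_q2 hc hF hp h1 h2 hd
  | e1 =>
    obtain rfl : c' = m - 1 := kl_g hc ⟨hp, h1, h2⟩ hd rfl
    exact (Rw.of_eqv fun T => mv_t6 (hc.ag_ovr F T) c hp hc.ag_pos).back
      (ag_back_e2 hc hc.ag_pos h1 h2)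
  | e2 => exact ag_back_e2 hc hp h1 h2
  | e3 =>
    obtain rfl : c = 0 := kl_e hc ⟨hp, h1, h2⟩ hd (Or.inr (Or.inr rfl))
    exact (Rw.of_eqv fun T => (mv_t7 (hc.ag_ovr F T) c' hc.ag_pos hp).symm).back
      (ag_back_e2 hc hc.ag_pos h1 h2)

theorem ag_upd_own (a : AgS) (p : ℕ → Cell) {j : ℕ} (hj : j / m ≠ t) :
    (upd m t a p j).oh = (p j).oh ∧ (upd m t a p j).oc = (p j).oc := by
  simp only [upd, if_neg hj]
  split_ifs <;> exact ⟨rfl, rfl⟩

theorem ag_upd_guest (a : AgS) (p : ℕ → Cell) {j : ℕ} (hj : j / m ≠ t + 1) :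
    (upd m t a p j).gh = (p j).gh ∧ (upd m t a p j).gc = (p j).gc := by
  simp only [upd, if_neg hj]
  split_ifs <;> exact ⟨rfl, rfl⟩

/-- packaging of the conclusion of `agentNorm` -/
theorem ag_pack {p₁ : ℕ → Cell} (hr : RelF S F p (upd m t AgS.idle p₁))
    (hs : ∀ j, p₁ j = { p j with tok := (p₁ j).tok, pm := (p₁ j).pm })
    (hpm : ∀ j, j ≠ home m t → (p₁ j).pm = (p j).pm)
    (htok : ∀ j, j / m ≠ t → j / m ≠ t + 1 → (p₁ j).tok = (p j).tok) :
    ∃ p', RelF S F p p' ∧ upd m t AgS.idle p' = p' ∧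
      (∀ j, j / m ≠ t → (p' j).oh = (p j).oh ∧ (p' j).oc = (p j).oc) ∧
      (∀ j, j / m ≠ t + 1 → (p' j).gh = (p j).gh ∧ (p' j).gc = (p j).gc) ∧
      (∀ j, j ≠ home m t → (p' j).pm = (p j).pm) ∧
      (∀ j, j / m ≠ t → j / m ≠ t + 1 → (p' j).tok = (p j).tok) := by
  refine ⟨_, hr, upd_upd _ _ _ _ _, fun j hj => ?_, fun j hj => ?_, fun j hj => ?_,
    fun j h1 h2 => ?_⟩
  · rw [(ag_upd_own _ _ hj).1, (ag_upd_own _ _ hj).2, hs j]; exact ⟨rfl, rfl⟩
  · rw [(ag_upd_guest _ _ hj).1, (ag_upd_guest _ _ hj).2, hs j]; exact ⟨rfl, rfl⟩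
  · rw [upd_pm, hpm j hj]
  · rw [upd_tok, htok j h1 h2]

/-! ### the forward loops -/

theorem ag_round_chk (hc : Ctx m t S p) {u : ℕ} (hu : u + 1 < m)
    (hd : ¬ RW.Dead S (upd m t ⟨.q0 .chk, 0, u, u⟩ p)) :
    (p (t * m + u)).s.b = (p ((t + 1) * m + u)).s.pb ∧
      RW.Eqv S (upd m t ⟨.q0 .chk, 0, u, u⟩ p) (upd m t ⟨.q0 .chk, 0, u + 1, u + 1⟩ p) := by
  have e2 := mv_t2 hc .chk u hc.ag_pos hc.ag_pos hu
  simp only [rdB, rdT, ag_setTok_self] at e2
  have hb : (p (t * m + u)).s.b = (p ((t + 1) * m + u)).s.pb :=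
    kl_h hc ⟨hc.ag_pos, hu, Nat.lt_of_succ_lt hu⟩ (e2.not_dead hd) rfl
  have e3 := mv_t3 hc .chk _ (u + 1) hc.ag_pos hc.ag_pos hu hb
  simp only [exB, exT, ag_setTok_self] at e3
  have e4 := mv_t4 hc .chk false (u + 1) hc.ag_pos hc.ag_pos hu rfl
  simp only [wrT, ag_setTok_self] at e4
  exact ⟨hb, (e2.trans e3).trans e4⟩

theorem ag_round_eq (hc : Ctx m t S p) {u : ℕ} (hu : u + 1 < m)
    (hb : (p (t * m + u)).tok = (p ((t + 1) * m + u)).tok) :
    RW.Eqv S (upd m t ⟨.q0 .eq, 0, u, u⟩ p) (upd m t ⟨.q0 .eq, 0, u + 1, u + 1⟩ p) := by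
  have e2 := mv_t2 hc .eq u hc.ag_pos hc.ag_pos hu
  simp only [rdB, rdT, ag_setTok_self] at e2
  have e3 := mv_t3 hc .eq _ (u + 1) hc.ag_pos hc.ag_pos hu hb
  simp only [exB, exT, ag_setTok_self] at e3
  have e4 := mv_t4 hc .eq false (u + 1) hc.ag_pos hc.ag_pos hu rfl
  simp only [wrT, ag_setTok_self] at e4
  exact (e2.trans e3).trans e4

/-- the first `u` token bits of the blocks `t` and `t + 1` are exchanged -/
def swU (m t u : ℕ) (p : ℕ → Cell) : ℕ → Cell := fun j =>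
  { p j with
    tok := if j % m < u then (p (Equiv.swap t (t + 1) (j / m) * m + j % m)).tok else (p j).tok }

theorem ag_swU_zero (p : ℕ → Cell) : swU m t 0 p = p := by
  funext j; simp only [swU, Nat.not_lt_zero, if_false]

theorem ag_stat_swU (u : ℕ) (p : ℕ → Cell) : stat (swU m t u p) = stat p := rfl

theorem ag_round_swp (hc : Ctx m t S p) {u : ℕ} (hu : u + 1 < m) :
    RW.Eqv S (upd m t ⟨.q0 .swp, 0, u, u⟩ (swU m t u p))
      (upd m t ⟨.q0 .swp, 0, u + 1, u + 1⟩ (swU m t (u + 1) p)) := by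
  have hu' : u < m := Nat.lt_of_succ_lt hu
  have hne : t * m + u ≠ (t + 1) * m + u := by rw [Nat.add_mul]; omega
  have hc₀ : Ctx m t S (swU m t u p) := hc.of_stat (ag_stat_swU u p)
  have k1 : swU m t u p (t * m + u) = p (t * m + u) := by
    simp only [swU, ag_mod t hu', Nat.lt_irrefl, if_false]
  have k2 : swU m t u p ((t + 1) * m + u) = p ((t + 1) * m + u) := by
    simp only [swU, ag_mod (t + 1) hu', Nat.lt_irrefl, if_false]
  have e2 := mv_t2 hc₀ .swp u hc.ag_pos hc.ag_pos hu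
  simp only [rdB, rdT, k1] at e2
  have hc₁ := hc₀.ag_setTok (t * m + u) false
  have e3 := mv_t3 hc₁ .swp (p (t * m + u)).tok (u + 1) hc.ag_pos hc.ag_pos hu trivial
  simp only [exB, exT, ag_setTok_ne _ _ hne.symm, k2] at e3
  have hc₂ := hc₁.ag_setTok ((t + 1) * m + u) (p (t * m + u)).tok
  have e4 := mv_t4 hc₂ .swp (p ((t + 1) * m + u)).tok (u + 1) hc.ag_pos hc.ag_pos hu
    (by simp only [wrOK, ag_setTok_ne _ _ hne, ag_setTok_at])
  simp only [wrT] at e4
  refine ((e2.trans e3).trans e4).trans (Eqv.of_eq ?_)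
  congr 1
  funext j
  by_cases h1 : j = t * m + u
  · subst h1
    simp only [ag_setTok_at, ag_setTok_ne _ _ hne, swU, ag_mod t hu', ag_div t hu',
      Nat.lt_succ_self, if_true, Equiv.swap_apply_left]
  · by_cases h2 : j = (t + 1) * m + u
    · subst h2
      simp only [ag_setTok_at, ag_setTok_ne _ _ hne.symm, swU, ag_mod (t + 1) hu',
        ag_div (t + 1) hu', Nat.lt_succ_self, if_true, Equiv.swap_apply_right]
    · rw [ag_setTok_ne _ _ h1, ag_setTok_ne _ _ h2, ag_setTok_ne _ _ h1]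
      simp only [swU]
      by_cases h3 : j % m = u
      · have h4 : j / m * m + j % m = j := Nat.div_add_mod' j m
        rw [if_neg (by omega), if_pos (by omega), Equiv.swap_apply_of_ne_of_ne, h4]
        · rintro h5; rw [h5, h3] at h4; exact h1 h4.symm
        · rintro h5; rw [h5, h3] at h4; exact h2 h4.symm
      · by_cases h5 : j % m < u
        · rw [if_pos h5, if_pos (by omega)]
        · rw [if_neg h5, if_neg (by omega)]

/-- Every agent of a non-dead row can be brought to the idle state.  Take `a` from `pa_rep`.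
Rewind: from `q0 μ` with `c = c₀+1` go back through `mv_t4` (always possible), `mv_t3` (guards `kl_d`, `kl_a`),
`mv_t2` (guard `kl_b`), induction on `c`; with `c = 0` use `mv_t1`; `e3 → e2` (`kl_e`, `mv_t7`), `e1 → e2`
(`kl_g`, `mv_t6`), `e2 → e3 → s1 swp` (`mv_drag`, `mv_t7`, `mv_t8`); `s1 μ → idle` (`mv_t0c`, or `kl_j` and
`mv_t0`), `kl_e`, `kl_f`.  All moves are stated for arbitrary `p`, so they can be replayed on `ovr F T p`
(`ovr_upd`) if the touched token cells are outside `F`; in mode `chk` tokens are neither read nor written.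
If the mode is not `chk`/idle, first run the argument with `F = ∅` to see (`kl_j`) that the permit is held at
`home`, so that `hF` applies. -/
theorem agentNorm (hc : Ctx m t S p) (h : ¬ RW.Dead S p) (F : Set ℕ)
    (hF : (p (home m t)).pm = .H true → ∀ j ∈ F, j / m ≠ t ∧ j / m ≠ t + 1) :
    ∃ p', RelF S F p p' ∧ upd m t AgS.idle p' = p' ∧
      (∀ j, j / m ≠ t → (p' j).oh = (p j).oh ∧ (p' j).oc = (p j).oc) ∧
      (∀ j, j / m ≠ t + 1 → (p' j).gh = (p j).gh ∧ (p' j).gc = (p j).gc) ∧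
      (∀ j, j ≠ home m t → (p' j).pm = (p j).pm) ∧
      (∀ j, j / m ≠ t → j / m ≠ t + 1 → (p' j).tok = (p j).tok) := by
  obtain ⟨a, ha, hap⟩ := pa_rep hc h
  have hd : ¬ RW.Dead S (upd m t a p) := by rwa [hap]
  by_cases hq : a.q = .idle
  · obtain ⟨q, pos, c, c'⟩ := a
    obtain rfl : q = .idle := hq
    obtain rfl : c = 0 := kl_e hc ha hd (Or.inl rfl)
    obtain rfl : c' = 0 := kl_f hc ha hd (Or.inl rfl)
    have r : Rw m t S F ⟨.idle, pos, 0, 0⟩ p AgS.idle p :=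
      Rw.of_eqv fun T => walk (hc.ag_ovr F T) _ 0 0 ha.1 hc.ag_pos
    have r' := r.rel
    rw [hap] at r'
    exact ag_pack r' (fun _ => rfl) (fun _ _ => rfl) fun _ _ _ => rfl
  have h0 : AgS.ok m ⟨.s1 a.q.mode, 0, 0, 0⟩ := by
    have := hc.m4
    exact ⟨hc.ag_pos, by show 0 < m; omega, by show 0 < m; omega⟩
  by_cases hμ : a.q.mode = .chk
  · obtain ⟨p₁, r₁⟩ := ag_back (F := F) hc ha hq (Or.inl hμ) hd
    rw [hμ] at r₁
    have r := r₁.trans (Rw.of_eqv (a' := AgS.idle) fun T =>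
      (mv_t0c ((r₁.ctx hc).ag_ovr F T) 0 0 hc.ag_pos hc.ag_pos).symm)
    have r' := r.rel
    rw [hap] at r'
    exact ag_pack r' (fun j => by rw [r.same j]) (fun j _ => by rw [r.same j]) r.tok
  · obtain ⟨p₀, r₀⟩ := ag_back (F := ∅) hc ha hq (Or.inr (by simp)) hd
    have hpm := (kl_j (r₀.ctx hc) h0 (r₀.nd hd) rfl hμ).2.2
    rw [r₀.same] at hpm
    obtain ⟨p₁, r₁⟩ := ag_back (F := F) hc ha hq (Or.inr (hF hpm)) hd
    obtain ⟨k1, k2, k3⟩ := kl_j (r₁.ctx hc) h0 (r₁.nd hd) rfl hμ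
    have r₂ : RelF S F (upd m t ⟨.s1 a.q.mode, 0, 0, 0⟩ p₁)
        (upd m t AgS.idle (setPm p₁ (home m t) (.H false))) := by
      refine ⟨fun T => ?_, fun j _ => by rw [upd_tok, upd_tok, ag_setPm_tok]⟩
      have := mv_t0 (((r₁.ctx hc).ag_ovr F T).ag_setPm (home m t) (.H false)) hμ 0 0 hc.ag_pos
        hc.ag_pos (by simp only [ag_setPm_at, ag_ovr_s, k1]) (by simp only [ag_setPm_at, ag_ovr_s, k2])
        (by simp only [ag_setPm_at])
      rw [ag_setPm_back _ ((ag_ovr_pm F T p₁ _).trans k3)] at this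
      rw [ovr_upd, ovr_upd, ag_ovr_setPm]
      exact this.symm
    have r' := r₁.rel.trans r₂
    rw [hap] at r'
    refine ag_pack r' (fun j => ?_) (fun j hj => ?_) fun j h1 h2 => ?_
    · by_cases hj : j = home m t
      · subst hj; rw [ag_setPm_at, r₁.same]
      · rw [ag_setPm_ne _ _ hj, r₁.same]
    · rw [ag_setPm_ne _ _ hj, r₁.same]
    · rw [ag_setPm_tok, r₁.tok j h1 h2]

/-- The counter check: normalise the agent (`F = ∅`, `stat_eq_of_eqv`), start mode `chk` and run the loop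
`mv_t2, mv_t3, mv_t4` up to the first mismatch (`kl_h`). -/
theorem chk_eq (hc : Ctx m t S p) (h : ¬ RW.Dead S p) {u : ℕ} (hu : u + 1 < m) :
    (p (t * m + u)).s.b = (p ((t + 1) * m + u)).s.pb := by
  obtain ⟨p', hr, hi, -⟩ := agentNorm hc h ∅ (by simp)
  have hs := stat_eq_of_eqv hr.eqv
  have hc' := hc.of_stat hs
  have e0 : RW.Eqv S p (upd m t ⟨.q0 .chk, 0, 0, 0⟩ p') :=
    hr.eqv.trans ((Eqv.of_eq hi.symm).trans ((mv_t0c hc' 0 0 hc.ag_pos hc.ag_pos).trans
      (mv_t1 hc' .chk 0 hc.ag_pos hc.ag_pos)))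
  have loop : ∀ v, v < m → RW.Eqv S p (upd m t ⟨.q0 .chk, 0, v, v⟩ p') := by
    intro v hv
    induction v with
    | zero => exact e0
    | succ v ih =>
      have e := ih (Nat.lt_of_succ_lt hv)
      exact e.trans (ag_round_chk hc' hv (e.not_dead h)).2
  have := (ag_round_chk hc' hu ((loop u (Nat.lt_of_succ_lt hu)).not_dead h)).1
  rwa [show (p' (t * m + u)).s = (p (t * m + u)).s from congrFun hs _,
    show (p' ((t + 1) * m + u)).s = (p ((t + 1) * m + u)).s from congrFun hs _] at this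

/-- equal tokens are killed (`kl_i` after `m - 1` rounds of mode `eq`) -/
theorem eq_dead (hc : Ctx m t S p) (hi : upd m t AgS.idle p = p)
    (hp : (p (home m t)).s.par = true) (he : (p (home m t)).s.ce = false)
    (hf : (p (home m t)).pm = .H false)
    (heq : ∀ u, u + 1 < m → (p (t * m + u)).tok = (p ((t + 1) * m + u)).tok) : RW.Dead S p := by
  by_contra h
  have hm := hc.m4
  have hc' := hc.ag_setPm (home m t) (.H true)
  have loop : ∀ v, v < m →
      RW.Eqv S p (upd m t ⟨.q0 .eq, 0, v, v⟩ (setPm p (home m t) (.H true))) := by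
    intro v hv
    induction v with
    | zero =>
      exact (Eqv.of_eq hi.symm).trans ((mv_t0 hc (by simp) 0 0 hc.ag_pos hc.ag_pos hp he hf).trans
        (mv_t1 hc' .eq 0 hc.ag_pos hc.ag_pos))
    | succ v ih =>
      exact (ih (Nat.lt_of_succ_lt hv)).trans
        (ag_round_eq hc' hv (by rw [ag_setPm_tok, ag_setPm_tok, heq v hv]))
  have h1 : m - 1 < m := by omega
  exact kl_i hc' ⟨hc.ag_pos, h1, h1⟩ ((loop _ h1).not_dead h) rfl rfl

/-- the swap: `m - 1` rounds of mode `swp`, then `mv_t5, mv_t6, mv_drag, mv_t7, mv_t8`, release -/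
theorem swap_eqv (hc : Ctx m t S p) (hi : upd m t AgS.idle p = p)
    (hp : (p (home m t)).s.par = true) (he : (p (home m t)).s.ce = false)
    (hf : (p (home m t)).pm = .H false)
    (hl : (p (t * m + (m - 1))).tok = (p ((t + 1) * m + (m - 1))).tok) :
    RW.Eqv S p (permTok m (Equiv.swap t (t + 1)) p) := by
  have hm := hc.m4
  have hc' := hc.ag_setPm (home m t) (.H true)
  have loop : ∀ v, v < m →
      RW.Eqv S p (upd m t ⟨.q0 .swp, 0, v, v⟩ (swU m t v (setPm p (home m t) (.H true)))) := by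
    intro v hv
    induction v with
    | zero =>
      rw [ag_swU_zero]
      exact (Eqv.of_eq hi.symm).trans ((mv_t0 hc (by simp) 0 0 hc.ag_pos hc.ag_pos hp he hf).trans
        (mv_t1 hc' .swp 0 hc.ag_pos hc.ag_pos))
    | succ v ih => exact (ih (Nat.lt_of_succ_lt hv)).trans (ag_round_swp hc' hv)
  have h0 : 0 < m := by omega
  have h1 : m - 1 < m := by omega
  have e : swU m t (m - 1) (setPm p (home m t) (.H true)) =
      setPm (permTok m (Equiv.swap t (t + 1)) p) (home m t) (.H true) := by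
    have k : ∀ j, (if j % m < m - 1 then (p (Equiv.swap t (t + 1) (j / m) * m + j % m)).tok
        else (p j).tok) = (p (Equiv.swap t (t + 1) (j / m) * m + j % m)).tok := by
      intro j
      split_ifs with h2
      · rfl
      · have h3 : j % m = m - 1 := by have := Nat.mod_lt j h0; omega
        have h4 : j / m * m + j % m = j := Nat.div_add_mod' j m
        by_cases h5 : j / m = t
        · rw [h5, h3] at h4
          rw [h5, h3, Equiv.swap_apply_left, ← hl, h4]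
        · by_cases h6 : j / m = t + 1
          · rw [h6, h3] at h4
            rw [h6, h3, Equiv.swap_apply_right, hl, h4]
          · rw [Equiv.swap_apply_of_ne_of_ne h5 h6, h4]
    funext j
    simp only [swU, ag_setPm_tok, k]
    by_cases hj : j = home m t
    · subst hj; simp only [ag_setPm_at, permTok]
    · simp only [ag_setPm_ne _ _ hj, permTok]
  have hc₁ : Ctx m t S (permTok m (Equiv.swap t (t + 1)) p) := hc.of_stat rfl
  have hc₂ := hc₁.ag_setPm (home m t) (.H true)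
  have e1 := loop _ h1
  rw [e] at e1
  have e2 := (mv_t0 hc₁ (μ := .swp) (by simp) 0 0 hc.ag_pos hc.ag_pos hp he hf).symm
  have e3 : upd m t AgS.idle (permTok m (Equiv.swap t (t + 1)) p) =
      permTok m (Equiv.swap t (t + 1)) p := by
    funext j
    have := congrFun hi j
    simp only [upd, permTok] at this ⊢
    split_ifs at this ⊢
    · rw [← this]
    · rw [← this]
    · rfl
  exact e1.trans ((mv_t5 hc₂ _ hc.ag_pos hc.ag_pos).trans ((mv_t6 hc₂ _ hc.ag_pos hc.ag_pos).trans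
    ((mv_drag hc₂ hc.ag_pos hc.ag_pos h1 h1 h0 h0).trans ((mv_t7 hc₂ _ hc.ag_pos hc.ag_pos).trans
      ((mv_t8 hc₂ _ hc.ag_pos hc.ag_pos).trans (e2.trans (Eqv.of_eq e3)))))))

end Crest.Agent.R176
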