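import Crest.Agent.R176.MDef

/-! Row 176: the payload.

Mark levels `lv f` (`lv 0 = 0`, `lv (f+1) = lv f + gp f`, `gp 0 = 5`, `gp (f+1) = 2^(gp f - 2)`).
The row of level `lv f` is cut into blocks of `m = 2^(gp f)` cells (nodes of level `lv (f+1)`), which are
grouped into containers of `2^n` blocks, `n = gp (f+1) = m/4` (nodes of level `lv (f+2)`).  The first quarter
(zone `q false false`) of a block holds a static `n`-bit counter (the number of the block in its
container), the third quarter (zone `q true false`) holds a dynamic `n`-bit token if `f` is odd.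
Every block owns a head working on the block (own layer) and on the next block (guest layer). -/

set_option autoImplicit false

namespace Crest.Agent.R176

/-! ### static part -/

inductive Zn | t (p : Bool) | q (p p' : Bool)
  deriving DecidableEq, Fintype

@[ext] structure PSt where
  pos : Bool
  mr : Bool
  par : Bool
  cd : Fin 6
  up : Option Zn
  b : Bool
  bi : Bool
  zc : Bool
  z : Bool
  ce : Bool
  df : Bool
  dl : Bool
  hm : Bool
  deriving DecidableEq

instance : Finite PSt :=
  Finite.of_injective (fun s : PSt => (![s.pos, s.mr, s.par, s.b, s.bi, s.zc, s.z, s.ce, s.df, s.dl, s.hm],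
    s.cd, s.up)) (by
      rintro ⟨⟩ ⟨⟩ h
      simp only [Prod.mk.injEq, Matrix.vecCons_inj] at h
      simp only [PSt.mk.injEq]
      tauto)

noncomputable instance : Fintype PSt := Fintype.ofFinite _

namespace PSt

def zn (s : PSt) : Zn :=
  match s.up with
  | none => .t s.pos
  | some (.t p) => .q p s.pos
  | some (.q p p') => .q p p'

/-- borrow out -/
def bo (s : PSt) : Bool := s.bi && !s.b

/-- bit of the predecessor of the counter -/
def pb (s : PSt) : Bool := xor s.b s.bi

structure Loc (x : PSt) : Prop where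
  y : ¬ (x.mr = true ∧ x.zn = .q false false) → x.b = false ∧ x.bi = false
  nm : x.mr = false → x.ce = false ∧ x.df = false ∧ x.dl = false ∧ x.hm = false
  zc : x.mr = true → x.zc = x.bo
  z : x.pos = true → x.z = false

/-- block boundary -/
def bnd (x y : PSt) : Bool := decide (x.zn = .q true true ∧ y.zn = .q false false)

structure OKH (x y : PSt) : Prop where
  locx : x.Loc
  locy : y.Loc
  pos : x.pos ≠ y.pos
  mr : y.mr = x.mr
  par : y.par = x.par
  cd : y.cd = x.cd
  up : x.pos = false → y.up = x.up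
  dl : x.mr = true → x.dl = bnd x y
  df : x.mr = true → y.df = bnd x y
  hm : x.mr = true → x.hm = decide (x.zn = .q false true ∧ y.zn = .q true false)
  ce : x.mr = true → x.ce = if bnd x y = true then y.bo else y.ce
  bi : x.mr = true → x.zn = .q false false → x.bi = if y.zn = .q false false then y.bo else true

/-- `x`: child `0`, `y`: parent -/
structure OKV (x y : PSt) : Prop where
  up : x.up = if y.mr = true then none else some y.zn
  cd : y.cd.val = x.cd.val - 1
  cd1 : x.cd.val = 1 → y.mr = true
  cd2 : 2 ≤ x.cd.val → y.mr = false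
  cd0 : x.cd.val = 0 → y.mr = true → x.z = true
  par : y.par = xor x.par y.mr
  z : y.z = if y.mr = true then x.zc else x.z
  zc : y.mr = false → y.zc = x.zc

def OKB (x : PSt) : Prop := x.mr = true ∧ x.par = false ∧ x.cd.val = 5 ∧ x.z = false

end PSt

def gp : ℕ → ℕ
  | 0 => 5
  | f + 1 => 2 ^ (gp f - 2)

def lv : ℕ → ℕ
  | 0 => 0
  | f + 1 => lv f + gp f

/-- The static part of the node `j` of level `lv f + r` (`r < gp f`). -/
def spec (f r j : ℕ) : PSt :=
  let d := gp f - r
  let u := j % 2 ^ d
  let n := gp (f + 1)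
  let ID := j / 2 ^ d % 2 ^ n
  { pos := decide (j % 2 = 1)
    mr := decide (r = 0)
    par := decide (f % 2 = 1)
    cd := if f = 0 then ⟨5 - r, by omega⟩ else 0
    up := if d = 1 then none else if d = 2 then some (.t (decide (u / 2 = 1)))
      else some (.q (decide (u / 2 ^ (d - 1) = 1)) (decide (u / 2 ^ (d - 2) % 2 = 1)))
    b := decide (r = 0 ∧ u < n) && ID.testBit (n - 1 - u)
    bi := decide (r = 0 ∧ u < n ∧ ID % 2 ^ (n - 1 - u) = 0)
    zc := decide (u * 2 ^ r < n ∧ ID % 2 ^ (n - u * 2 ^ r) = 0)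
    z := decide (f ≠ 0 ∧ u = 0)
    ce := decide (r = 0 ∧ ID + 1 = 2 ^ n)
    df := decide (r = 0 ∧ u = 0)
    dl := decide (r = 0 ∧ u + 1 = 2 ^ d)
    hm := decide (r = 0 ∧ u + 1 = 2 ^ (d - 1)) }

/-! ### dynamic part -/

/-- `R`: the particle is to the right, `H q`: here, `L`: to the left -/
inductive Tag (Q : Type) | R | H (q : Q) | L
  deriving DecidableEq

instance {Q : Type} [Fintype Q] : Fintype (Tag Q) := derive_fintype% _

/-- admissible neighbouring tags -/
inductive Tag.cons {Q : Type} : Tag Q → Tag Q → Prop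
  | RR : cons .R .R
  | RH (q : Q) : cons .R (.H q)
  | HL (q : Q) : cons (.H q) .L
  | LL : cons .L .L

/-- the tag pattern of a particle in state `q` at position `a` -/
def pat {Q : Type} (a : ℕ) (q : Q) (u : ℕ) : Tag Q :=
  if u < a then .R else if u = a then .H q else .L

inductive Md | chk | eq | swp
  deriving DecidableEq, Fintype

inductive Hs | idle | s1 (μ : Md) | q0 (μ : Md) | q1 (μ : Md) (β : Bool) | q2 (μ : Md) (β : Bool)
  | e1 | e2 | e3
  deriving DecidableEq, Fintype

@[ext] structure Cell where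
  s : PSt
  tok : Bool
  pm : Tag Bool
  oh : Tag Hs
  oc : Tag Unit
  gh : Tag Hs
  gc : Tag Unit
  deriving DecidableEq

instance : Finite Cell :=
  Finite.of_injective (fun x : Cell => (x.s, x.tok, x.pm, x.oh, x.oc, x.gh, x.gc)) (by
      rintro ⟨⟩ ⟨⟩ h
      simp only [Prod.mk.injEq] at h
      simp only [Cell.mk.injEq]
      tauto)

noncomputable instance : Fintype Cell := Fintype.ofFinite _

def rdB : Md → Cell → Bool
  | .chk, x => x.s.b
  | _, x => x.tok

def rdT : Md → Cell → Bool
  | .swp, _ => false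
  | _, x => x.tok

def unrdOK : Md → Bool → Cell → Prop
  | .chk, β, x => β = x.s.b
  | .eq, β, x => β = x.tok
  | .swp, _, x => x.tok = false

def exOK : Md → Bool → Cell → Prop
  | .chk, β, x => β = x.s.pb
  | .eq, β, x => β = x.tok
  | .swp, _, _ => True

def exB : Md → Cell → Bool
  | .swp, x => x.tok
  | _, _ => false

def exT : Md → Bool → Cell → Bool
  | .swp, β, _ => β
  | _, _, x => x.tok

def wrOK : Md → Bool → Cell → Prop
  | .swp, _, x => x.tok = false
  | _, β, _ => β = false

def wrT : Md → Bool → Cell → Bool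
  | .swp, β, _ => β
  | _, _, x => x.tok

inductive PStep : Cell → Cell → Cell → Cell → Prop
  | wo {x y q} : x.s.dl = false → x.oh = .H q → y.oh = .L →
      PStep x y { x with oh := .R } { y with oh := .H q }
  | wg {x y q} : x.s.dl = false → x.gh = .H q → y.gh = .L →
      PStep x y { x with gh := .R } { y with gh := .H q }
  | wc {x y q} : x.s.dl = true → x.oh = .H q → y.gh = .L →
      PStep x y { x with oh := .R } { y with gh := .H q }
  | wp {x y} : x.s.par = true → ¬ (x.s.dl = true ∧ x.s.ce = true) → x.pm = .H false → y.pm = .L →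
      PStep x y { x with pm := .R } { y with pm := .H false }
  | t0c {x y} : x.s.hm = true → x.oh = .H .idle → PStep x y { x with oh := .H (.s1 .chk) } y
  | t0 {x y μ} : x.s.hm = true → μ ≠ .chk → x.s.par = true → x.s.ce = false → x.oh = .H .idle →
      x.pm = .H false → PStep x y { x with oh := .H (.s1 μ), pm := .H true } y
  | t1 {x y μ} : x.s.df = true → x.oh = .H (.s1 μ) → x.oc = .H () →
      PStep x y { x with oh := .H (.q0 μ) } y
  | t2 {x y μ} : x.s.dl = false → x.oh = .H (.q0 μ) → x.oc = .H () → y.oc = .L →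
      PStep x y { x with oh := .H (.q1 μ (rdB μ x)), oc := .R, tok := rdT μ x } { y with oc := .H () }
  | t3 {x y μ β} : x.s.dl = false → x.gh = .H (.q1 μ β) → x.gc = .H () → y.gc = .L → exOK μ β x →
      PStep x y { x with gh := .H (.q2 μ (exB μ x)), gc := .R, tok := exT μ β x }
        { y with gc := .H () }
  | t4 {x y μ β} : x.s.dl = false → x.oh = .H (.q2 μ β) → x.oc = .R → y.oc = .H () → wrOK μ β x →
      PStep x y { x with oh := .H (.q0 μ), tok := wrT μ β x } y
  | t5 {x y} : y.s.dl = true → x.oh = .H (.q0 .swp) → y.oc = .H () → PStep x y { x with oh := .H .e1 } y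
  | t6 {x y} : y.s.dl = true → x.gh = .H .e1 → y.gc = .H () → PStep x y { x with gh := .H .e2 } y
  | dro {x y} : x.s.dl = false → x.oh = .H .e2 → x.oc = .H () → y.oc = .L →
      PStep x y { x with oc := .R } { y with oc := .H () }
  | drg {x y} : x.s.dl = false → x.gh = .H .e2 → x.gc = .H () → y.gc = .L →
      PStep x y { x with gc := .R } { y with gc := .H () }
  | t7 {x y} : x.s.df = true → x.oh = .H .e2 → x.oc = .H () → PStep x y { x with oh := .H .e3 } y
  | t8 {x y} : x.s.df = true → x.gh = .H .e3 → x.gc = .H () →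
      PStep x y { x with gh := .H (.s1 .swp) } y

/-- the cell with static part `s` and default dynamic part -/
def Cell.dflt (s : PSt) : Cell := ⟨s, false, .L, .L, .L, .L, .L⟩

/-- admissible windows; all other windows are killed -/
structure POK (x y : Cell) : Prop where
  st : x.s.OKH y.s
  dflt : x.s.mr = false → x = Cell.dflt x.s
  tok : x.tok = true → x.s.zn = .q true false ∧ x.s.par = true
  pmE : x.s.par = false → x.pm = .L
  co : x.s.dl = false → x.oh.cons y.oh ∧ x.gh.cons y.gh ∧ x.oc.cons y.oc ∧ x.gc.cons y.gc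
  cb : x.s.dl = true → x.oh.cons y.gh ∧ x.gh ≠ .R ∧ x.oc ≠ .R ∧ x.gc ≠ .R
  cf : x.s.df = true → x.oh ≠ .L ∧ x.oc ≠ .L ∧ x.gc ≠ .L
  pc : x.s.par = true → ¬ (x.s.dl = true ∧ x.s.ce = true) → x.pm.cons y.pm
  pl : x.s.par = true → x.s.dl = true → x.s.ce = true → x.pm ≠ .R
  pf : x.s.par = true → x.s.df = true → x.s.bo = true → x.pm ≠ .L
  ka : ∀ μ, μ ≠ .swp → x.oh ≠ .H (.q2 μ true)
  kb : ∀ μ β, x.s.dl = false → x.oh = .H (.q1 μ β) → x.oc = .R → y.oc = .H () → unrdOK μ β x
  kc : ∀ μ β, x.s.df = true → x.oh = .H (.q1 μ β) → x.oc ≠ .H ()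
  kd : ∀ μ β, x.s.df = true → x.gh = .H (.q2 μ β) → x.gc ≠ .H ()
  ke : ∀ q, x.s.df = true → x.oh = .H q → (q = .idle ∨ (∃ μ, q = .s1 μ) ∨ q = .e3) → x.oc = .H ()
  kf : ∀ q, x.s.df = true → x.gh = .H q → (q = .idle ∨ ∃ μ, q = .s1 μ) → x.gc = .H ()
  kg : y.s.dl = true → x.gh = .H .e1 → y.gc = .H ()
  kh : ∀ β, x.gh = .H (.q1 .chk β) → x.gc = .H () → β = x.s.pb
  ki : y.s.dl = true → x.oh = .H (.q0 .eq) → y.oc ≠ .H ()
  kj : ∀ μ, x.s.hm = true → x.oh = .H (.s1 μ) → μ ≠ .chk →
    x.s.par = true ∧ x.s.ce = false ∧ x.pm = .H true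
  kk : x.s.hm = true → x.oh = .H .idle → x.pm ≠ .H true
  kl : x.pm = .H true → x.s.hm = true

theorem PStep.static {x y x' y' : Cell} (h : PStep x y x' y') : x'.s = x.s ∧ y'.s = y.s := by
  cases h <;> exact ⟨rfl, rfl⟩

/-- the payload system -/
def PP : Pay Cell where
  pos x := x.s.pos
  stepH := PStep
  killH x y := ¬ POK x y
  killV x y := ¬ x.s.OKV y.s
  base x := ¬ x.s.OKB
  pos_step x y x' y' h := by rw [h.static.1, h.static.2]; exact ⟨rfl, rfl⟩
  kill_pos x y h h' := h'.st.pos h

/-- the window system of a payload row -/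
abbrev RW : WSys Cell := PP.row

/-! ### agents -/

/-- state of an agent: head state, head position (on the tape of `2m` cells), own cursor, guest cursor -/
structure AgS where
  q : Hs
  pos : ℕ
  c : ℕ
  c' : ℕ

def AgS.ok (m : ℕ) (a : AgS) : Prop := a.pos < 2 * m ∧ a.c < m ∧ a.c' < m

def AgS.idle : AgS := ⟨.idle, 0, 0, 0⟩

/-- put the agent of block `t` (block length `m`) into the state `a` -/
def upd (m t : ℕ) (a : AgS) (p : ℕ → Cell) : ℕ → Cell := fun j =>
  if j / m = t then { p j with oh := pat a.pos a.q (j % m), oc := pat a.c () (j % m) }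
  else if j / m = t + 1 then { p j with gh := pat a.pos a.q (m + j % m), gc := pat a.c' () (j % m) }
  else p j

def setTok (p : ℕ → Cell) (j : ℕ) (v : Bool) : ℕ → Cell := Function.update p j { p j with tok := v }

def setPm (p : ℕ → Cell) (j : ℕ) (v : Tag Bool) : ℕ → Cell := Function.update p j { p j with pm := v }

open Classical in
/-- override the token bits on `F` -/
noncomputable def ovr (F : Set ℕ) (T : ℕ → Bool) (p : ℕ → Cell) : ℕ → Cell := fun j =>
  if j ∈ F then { p j with tok := T j } else p j

/-- equivalence that can be replayed with arbitrary token bits on `F` -/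
def RelF (S F : Set ℕ) (p p' : ℕ → Cell) : Prop :=
  (∀ T, RW.Eqv S (ovr F T p) (ovr F T p')) ∧ ∀ j ∈ F, (p' j).tok = (p j).tok

/-- the cells used by the agent `t` -/
def tape (m t : ℕ) : Set ℕ := Set.Icc (t * m) ((t + 2) * m)

/-- the static flags used by the agents -/
structure IF (m : ℕ) (S : Set ℕ) (σ : ℕ → PSt) : Prop where
  df : ∀ j ∈ S, (σ j).df = decide (j % m = 0)
  dl : ∀ j ∈ S, (σ j).dl = decide (j % m + 1 = m)
  hm : ∀ j ∈ S, (σ j).hm = decide (j % m + 1 = m / 2)

/-- the static part of a row -/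
def stat (p : ℕ → Cell) : ℕ → PSt := fun j => (p j).s

/-- the home cell of the block `t` -/
def home (m t : ℕ) : ℕ := t * m + (m / 2 - 1)

/-- permute the tokens of the blocks -/
def permTok (m : ℕ) (σ : ℕ → ℕ) (p : ℕ → Cell) : ℕ → Cell := fun j =>
  { p j with tok := (p (σ (j / m) * m + j % m)).tok }

/-- tag patterns on an interval that need not contain the particle -/
def patO {Q : Type} (a : ℕ) (oq : Option Q) (u : ℕ) : Tag Q :=
  if u < a then .R else if u = a then (match oq with | some q => .H q | none => .L) else .L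

/-- The canonical cell `j` of the mark row `lv f`: idle heads and cursors on the first cell of every
block; on odd rows the free permit on the first cell of every container and the token of a block equal to
its number. -/
def canon (f j : ℕ) : Cell :=
  let m := 2 ^ gp f
  let n := gp (f + 1)
  let u := j % m
  { s := spec f 0 j
    tok := decide (f % 2 = 1 ∧ 2 * n ≤ u ∧ u < 3 * n) && (j / m % 2 ^ n).testBit (u - 2 * n)
    pm := if f % 2 = 1 then pat 0 false (j % (m * 2 ^ n)) else .L
    oh := pat 0 .idle u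
    oc := pat 0 () u
    gh := .L
    gc := pat 0 () u }

/-- the canonical payload of the node `j` of level `lv f + r` -/
def canonR (f r j : ℕ) : Cell := if r = 0 then canon f j else Cell.dflt (spec f r j)

theorem pdef_eqns_forced : True := by
  have := @Crest.Agent.R176.AgS.idle.eq_1
  have := @Crest.Agent.R176.exB.eq_1
  have := @Crest.Agent.R176.exB.eq_2
  have := @Crest.Agent.R176.exOK.eq_1
  have := @Crest.Agent.R176.exOK.eq_2
  have := @Crest.Agent.R176.exOK.eq_3
  have := @Crest.Agent.R176.exT.eq_1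
  have := @Crest.Agent.R176.exT.eq_2
  have := @Crest.Agent.R176.rdB._sparseCasesOn_1.else_eq.{1}
  have := @Crest.Agent.R176.rdB.eq_1
  have := @Crest.Agent.R176.rdB.eq_2
  have := @Crest.Agent.R176.rdT._sparseCasesOn_1.else_eq.{1}
  have := @Crest.Agent.R176.rdT.eq_1
  have := @Crest.Agent.R176.rdT.eq_2
  have := @Crest.Agent.R176.tape.eq_1
  have := @Crest.Agent.R176.wrOK.eq_1
  have := @Crest.Agent.R176.wrOK.eq_2
  have := @Crest.Agent.R176.wrT.eq_1
  have := @Crest.Agent.R176.wrT.eq_2
  trivial

end Crest.Agent.R176
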