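import Crest.Agent.R176.PDef

/-! Row 176: soundness of the payload, abstract states of a mark row. -/

set_option autoImplicit false

namespace Crest.Agent.R176

namespace PS

open Function

theorem pat_H {Q : Type} {a u : ℕ} {q q' : Q} : pat a q u = .H q' ↔ a = u ∧ q = q' := by
  unfold pat; split_ifs <;> simp <;> omega

theorem pat_R {Q : Type} {a u : ℕ} {q : Q} : pat a q u = .R ↔ u < a := by
  unfold pat; split_ifs <;> simp <;> omega

theorem pat_L {Q : Type} {a u : ℕ} {q : Q} : pat a q u = .L ↔ a < u := by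
  unfold pat; split_ifs <;> simp <;> omega

theorem pat_cons {Q : Type} (a u : ℕ) (q : Q) : (pat a q u).cons (pat a q (u + 1)) := by
  unfold pat; split_ifs <;> first | constructor | omega

theorem pat_eq {Q : Type} {a a' u : ℕ} {q q' : Q} (h : (a = a' ∧ q = q') ∨ (u < a ∧ u < a') ∨
    (a < u ∧ a' < u)) : pat a q u = pat a' q' u := by
  rcases h with ⟨rfl, rfl⟩ | h | h
  · rfl
  · rw [pat_R.2 h.1, pat_R.2 h.2]
  · rw [pat_L.2 h.1, pat_L.2 h.2]

def pat2 (b o : ℕ) (h : Bool) (t u : ℕ) : Tag Bool :=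
  if t < b then .R else if t = b then pat o h u else .L

theorem pat2_H {b o t u : ℕ} {h h' : Bool} : pat2 b o h t u = .H h' ↔ b = t ∧ o = u ∧ h = h' := by
  unfold pat2; split_ifs with h1 h2
  · simp; omega
  · simp [pat_H, h2]
  · simp; omega

theorem pat2_R {b o t u : ℕ} {h : Bool} : pat2 b o h t u = .R ↔ t < b ∨ (t = b ∧ u < o) := by
  unfold pat2; split_ifs with h1 h2
  · simp [h1]
  · simp [pat_R, h2]
  · simp; omega

theorem pat2_L {b o t u : ℕ} {h : Bool} : pat2 b o h t u = .L ↔ b < t ∨ (t = b ∧ o < u) := by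
  unfold pat2; split_ifs with h1 h2
  · simp; omega
  · simp [pat_L, h2]
  · simp; omega

/-- the next cell in block coordinates -/
def Nx (m t u t₂ u₂ : ℕ) : Prop :=
  (u + 1 < m ∧ t₂ = t ∧ u₂ = u + 1) ∨ (u + 1 = m ∧ t₂ = t + 1 ∧ u₂ = 0)

structure Env where
  m : ℕ
  h : ℕ
  odd : Bool
  S : ℕ → ℕ → PSt
  E : ℕ → Bool
  ct : ℕ → ℕ
  Z : ℕ → Prop

structure Env.OK (e : Env) : Prop where
  m2 : 2 ≤ e.m
  df : ∀ t u, u < e.m → ((e.S t u).df = true ↔ u = 0)
  dl : ∀ t u, u < e.m → ((e.S t u).dl = true ↔ u + 1 = e.m)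
  hm : ∀ t u, u < e.m → ((e.S t u).hm = true ↔ u = e.h)
  par : ∀ t u, (e.S t u).par = e.odd
  ce : ∀ t u, u < e.m → (e.S t u).ce = e.E t
  ct_succ : ∀ t, e.E t = false → e.ct (t + 1) = e.ct t
  ct_last : ∀ t, e.E t = true → ∀ s, e.ct s = e.ct t → s ≤ t
  bo : ∀ t, (e.S t 0).bo = true → ∀ s, e.ct s = e.ct t → t ≤ s
  chk : ∀ t u, u < e.m → (e.S t u).b = (e.S (t + 1) u).pb
  mr : ∀ t u, (e.S t u).mr = true
  zn : ∀ t u, e.Z u → (e.S t u).zn = .q true false
  zm : ∀ u, e.Z u → u + 1 < e.m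
  okh : ∀ t u t₂ u₂, Nx e.m t u t₂ u₂ → (e.S t u).OKH (e.S t₂ u₂)

structure AS where
  A : ℕ → AgS
  T : ℕ → ℕ → Bool
  pb : ℕ → ℕ
  po : ℕ → ℕ
  hv : ℕ → Bool

def gA (A : ℕ → AgS) : ℕ → AgS
  | 0 => AgS.idle
  | t + 1 => A t

@[simp] theorem gA_zero (A : ℕ → AgS) : gA A 0 = AgS.idle := rfl
@[simp] theorem gA_succ (A : ℕ → AgS) (t : ℕ) : gA A (t + 1) = A t := rfl

theorem gA_update (A : ℕ → AgS) (t₀ : ℕ) (a : AgS) {t : ℕ} (h : t ≠ t₀ + 1) :
    gA (update A t₀ a) t = gA A t := by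
  cases t with
  | zero => rfl
  | succ t => exact update_of_ne (by omega) _ _

def md : Md → Bool
  | .chk => false
  | _ => true

def isS : Md → Bool
  | .swp => true
  | _ => false

def act : Hs → Bool
  | .idle => false
  | .s1 μ => md μ
  | .q0 μ => md μ
  | .q1 μ _ => md μ
  | .q2 μ _ => md μ
  | _ => true

def sw : Hs → Bool
  | .q0 μ => isS μ
  | .q1 μ _ => isS μ
  | .q2 μ _ => isS μ
  | _ => false

def hole : Hs → Bool
  | .q1 _ _ => true
  | .q2 _ _ => true
  | _ => false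

section
variable (μ : Md) (β : Bool)
@[simp] theorem md_chk : md .chk = false := rfl
@[simp] theorem md_eq : md .eq = true := rfl
@[simp] theorem md_swp : md .swp = true := rfl
@[simp] theorem isS_chk : isS .chk = false := rfl
@[simp] theorem isS_eq : isS .eq = false := rfl
@[simp] theorem isS_swp : isS .swp = true := rfl
@[simp] theorem act_idle : act .idle = false := rfl
@[simp] theorem act_s1 : act (.s1 μ) = md μ := rfl
@[simp] theorem act_q0 : act (.q0 μ) = md μ := rfl
@[simp] theorem act_q1 : act (.q1 μ β) = md μ := rfl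
@[simp] theorem act_q2 : act (.q2 μ β) = md μ := rfl
@[simp] theorem act_e1 : act .e1 = true := rfl
@[simp] theorem act_e2 : act .e2 = true := rfl
@[simp] theorem act_e3 : act .e3 = true := rfl
@[simp] theorem sw_idle : sw .idle = false := rfl
@[simp] theorem sw_s1 : sw (.s1 μ) = false := rfl
@[simp] theorem sw_q0 : sw (.q0 μ) = isS μ := rfl
@[simp] theorem sw_q1 : sw (.q1 μ β) = isS μ := rfl
@[simp] theorem sw_q2 : sw (.q2 μ β) = isS μ := rfl
@[simp] theorem sw_e1 : sw .e1 = false := rfl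
@[simp] theorem sw_e2 : sw .e2 = false := rfl
@[simp] theorem sw_e3 : sw .e3 = false := rfl
@[simp] theorem hole_q0 : hole (.q0 μ) = false := rfl
@[simp] theorem hole_q1 : hole (.q1 μ β) = true := rfl
@[simp] theorem hole_q2 : hole (.q2 μ β) = true := rfl
@[simp] theorem idle_q : AgS.idle.q = .idle := rfl
@[simp] theorem idle_pos : AgS.idle.pos = 0 := rfl
@[simp] theorem idle_c' : AgS.idle.c' = 0 := rfl
end

theorem md_of_ne {μ : Md} (h : μ ≠ .chk) : md μ = true := by
  cases μ <;> simp_all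

theorem act_of_sw {q : Hs} (h : sw q = true) : act q = true := by
  rcases q with _ | μ | μ | ⟨μ, β⟩ | ⟨μ, β⟩ | _ | _ | _
  all_goals first | rfl | (simp at h; done) | (cases μ <;> simp_all)

def tkO (a : AgS) (v : Bool) (u : ℕ) (d : Bool) : Bool :=
  if sw a.q = true ∧ u < a.c then (if hole a.q = true ∧ u + 1 = a.c then false else v) else d

def tkG (a : AgS) (v : Bool) (u : ℕ) (d : Bool) : Bool :=
  if sw a.q = true ∧ u < a.c' then v else d

def tk (σ : AS) (t u : ℕ) : Bool :=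
  tkO (σ.A t) (σ.T (t + 1) u) u (tkG (gA σ.A t) (σ.T (t - 1) u) u (σ.T t u))

def pmf (e : Env) (σ : AS) (t u : ℕ) : Tag Bool :=
  if e.odd = true then pat2 (σ.pb (e.ct t)) (σ.po (e.ct t)) (σ.hv (e.ct t)) t u else .L

def cell (e : Env) (σ : AS) (t u : ℕ) : Cell where
  s := e.S t u
  tok := tk σ t u
  pm := pmf e σ t u
  oh := pat (σ.A t).pos (σ.A t).q u
  oc := pat (σ.A t).c () u
  gh := pat (gA σ.A t).pos (gA σ.A t).q (e.m + u)
  gc := pat (gA σ.A t).c' () u

def agree (T : ℕ → ℕ → Bool) (t k : ℕ) : Prop := ∀ u < k, T t u = T (t + 1) u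

def LocI (e : Env) (T : ℕ → ℕ → Bool) (t : ℕ) (q : Hs) (c c' : ℕ) : Prop :=
  match q with
  | .idle => c = 0 ∧ c' = 0
  | .s1 _ => c = 0 ∧ c' = 0
  | .q0 μ => c = c' ∧ (μ = .eq → agree T t c')
  | .q1 μ β => c = c' + 1 ∧ (μ = .chk → β = (e.S t c').b) ∧ (μ ≠ .chk → β = T t c') ∧
      (μ = .eq → agree T t c')
  | .q2 μ β => c = c' ∧ c ≠ 0 ∧ (μ ≠ .swp → β = false) ∧ (μ = .swp → β = T (t + 1) (c - 1)) ∧
      (μ = .eq → agree T t c')
  | .e1 => c' + 1 = e.m
  | .e2 => True
  | .e3 => c = 0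

structure Inv (e : Env) (σ : AS) : Prop where
  ok : ∀ t, (σ.A t).ok e.m
  loc : ∀ t, LocI e σ.T t (σ.A t).q (σ.A t).c (σ.A t).c'
  act : ∀ t, act (σ.A t).q = true ↔ e.odd = true ∧ σ.pb (e.ct t) = t ∧ σ.hv (e.ct t) = true
  actE : ∀ t, PS.act (σ.A t).q = true → e.E t = false
  pbc : ∀ t, e.ct (σ.pb (e.ct t)) = e.ct t
  po : ∀ c, σ.po c < e.m
  hvh : ∀ c, σ.hv c = true → σ.po c = e.h
  zone : ∀ t u, σ.T t u = true → e.odd = true ∧ e.Z u
  inj : e.odd = true → ∀ t t', e.ct t = e.ct t' → σ.T t = σ.T t' → t = t'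

def AS.set (σ : AS) (t : ℕ) (a : AgS) : AS := { σ with A := update σ.A t a }

variable {e : Env} {σ : AS}

theorem Inv.next (he : e.OK) (h : Inv e σ) {t : ℕ} (ha : PS.act (σ.A t).q = true) :
    PS.act (σ.A (t + 1)).q = false := by
  by_contra hc
  have h1 := (h.act t).1 ha
  have h2 := (h.act (t + 1)).1 (by simpa using hc)
  rw [he.ct_succ t (h.actE t ha)] at h2
  omega

theorem Inv.prev (he : e.OK) (h : Inv e σ) {t : ℕ} (ha : PS.act (σ.A t).q = true) :
    PS.act (gA σ.A t).q = false := by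
  cases t with
  | zero => rfl
  | succ t =>
    by_contra hc
    have := h.next he (t := t) (by simpa using hc)
    simp [ha] at this

theorem Inv.sw_next (he : e.OK) (h : Inv e σ) {t : ℕ} (ha : PS.act (σ.A t).q = true) :
    sw (σ.A (t + 1)).q = false := by
  by_contra hc
  have := act_of_sw (by simpa using hc : sw (σ.A (t + 1)).q = true)
  simp [h.next he ha] at this

theorem Inv.sw_prev (he : e.OK) (h : Inv e σ) {t : ℕ} (ha : PS.act (σ.A t).q = true) :
    sw (gA σ.A t).q = false := by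
  by_contra hc
  have := act_of_sw (by simpa using hc : sw (gA σ.A t).q = true)
  simp [h.prev he ha] at this

theorem Inv.set (h : Inv e σ) (t₀ : ℕ) {a : AgS} (ok : a.ok e.m)
    (loc : LocI e σ.T t₀ a.q a.c a.c') (ha : PS.act a.q = PS.act (σ.A t₀).q) :
    Inv e (σ.set t₀ a) := by
  have hact : ∀ t, PS.act (update σ.A t₀ a t).q = PS.act (σ.A t).q := fun t => by
    by_cases ht : t = t₀
    · subst ht; simpa using ha
    · rw [update_of_ne ht]
  refine ⟨fun t => ?_, fun t => ?_, fun t => ?_, fun t => ?_, h.pbc, h.po, h.hvh, h.zone, h.inj⟩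
  · by_cases ht : t = t₀
    · subst ht; simpa [AS.set] using ok
    · simpa [AS.set, ht] using h.ok t
  · by_cases ht : t = t₀
    · subst ht; simpa [AS.set] using loc
    · simpa [AS.set, ht] using h.loc t
  · simp only [AS.set, hact]; exact h.act t
  · simp only [AS.set, hact]; exact h.actE t

def AS.mvp (σ : AS) (c b o : ℕ) : AS := { σ with pb := update σ.pb c b, po := update σ.po c o }

theorem Inv.mvp (h : Inv e σ) {c b o : ℕ} (hv : σ.hv c = false) (hb : e.ct b = c) (ho : o < e.m) :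
    Inv e (σ.mvp c b o) := by
  refine ⟨h.ok, h.loc, fun t => ?_, h.actE, fun t => ?_, fun c' => ?_, fun c' hc => ?_, h.zone, h.inj⟩
  · have := h.act t
    by_cases ht : e.ct t = c
    · simp only [AS.mvp, ht, hv] at this ⊢
      simpa using this
    · simpa [AS.mvp, ht] using this
  · by_cases ht : e.ct t = c
    · simp [AS.mvp, ht, hb]
    · simpa [AS.mvp, ht] using h.pbc t
  · by_cases ht : c' = c
    · simp [AS.mvp, ht, ho]
    · simpa [AS.mvp, ht] using h.po c'
  · have ht : c' ≠ c := by rintro rfl; simp [AS.mvp, hv] at hc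
    simpa [AS.mvp, ht] using h.hvh c' hc

def AS.flag (σ : AS) (t₀ : ℕ) (a : AgS) (c : ℕ) (v : Bool) : AS :=
  { σ with A := update σ.A t₀ a, hv := update σ.hv c v }

theorem Inv.flag (h : Inv e σ) (t₀ : ℕ) {a : AgS} (ok : a.ok e.m)
    (loc : LocI e σ.T t₀ a.q a.c a.c') (ho : e.odd = true) (hb : σ.pb (e.ct t₀) = t₀)
    (hp : σ.po (e.ct t₀) = e.h) (hE : e.E t₀ = false) {v : Bool} (hv : PS.act a.q = v) :
    Inv e (σ.flag t₀ a (e.ct t₀) v) := by
  refine ⟨fun t => ?_, fun t => ?_, fun t => ?_, fun t => ?_, h.pbc, h.po, fun c hc => ?_, h.zone,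
    h.inj⟩
  · by_cases ht : t = t₀
    · subst ht; simpa [AS.flag] using ok
    · simpa [AS.flag, ht] using h.ok t
  · by_cases ht : t = t₀
    · subst ht; simpa [AS.flag] using loc
    · simpa [AS.flag, ht] using h.loc t
  · by_cases ht : t = t₀
    · subst ht; simp [AS.flag, ho, hb, hv]
    · have := h.act t
      by_cases hc : e.ct t = e.ct t₀
      · simp only [AS.flag, hc, hb, update_of_ne ht] at this ⊢
        have h' : ¬t₀ = t := fun h => ht h.symm
        simpa [h'] using this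
      · simpa [AS.flag, ht, hc] using this
  · by_cases ht : t = t₀
    · subst ht; exact fun _ => hE
    · simpa [AS.flag, ht] using h.actE t
  · by_cases hc' : c = e.ct t₀
    · subst hc'; exact hp
    · exact h.hvh c (by simpa [AS.flag, hc'] using hc)

def AS.swap (σ : AS) (t₀ : ℕ) (a : AgS) : AS :=
  { σ with A := update σ.A t₀ a, T := fun s => σ.T (Equiv.swap t₀ (t₀ + 1) s) }

theorem LocI.congr {T T' : ℕ → ℕ → Bool} {t : ℕ} {q : Hs} {c c' : ℕ} (h : LocI e T t q c c')
    (hT : act q = true → T' t = T t ∧ T' (t + 1) = T (t + 1)) : LocI e T' t q c c' := by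
  by_cases ha : act q = true
  · obtain ⟨h1, h2⟩ := hT ha
    rcases q with _ | μ | μ | ⟨μ, β⟩ | ⟨μ, β⟩ | _ | _ | _ <;>
      first | exact h | simpa only [LocI, agree, h1, h2] using h
  · rcases q with _ | μ | μ | ⟨μ, β⟩ | ⟨μ, β⟩ | _ | _ | _
    all_goals first | exact h | (cases μ <;> first | (simp at ha; done) | simpa [LocI] using h)

theorem Inv.swap (he : e.OK) (h : Inv e σ) (t₀ : ℕ) {a : AgS} (ok : a.ok e.m)
    (loc : ∀ T, LocI e T t₀ a.q a.c a.c') (ha : PS.act a.q = true)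
    (ha' : PS.act (σ.A t₀).q = true) : Inv e (σ.swap t₀ a) := by
  have hact : ∀ t, PS.act (update σ.A t₀ a t).q = PS.act (σ.A t).q := fun t => by
    by_cases ht : t = t₀
    · subst ht; simp [ha, ha']
    · rw [update_of_ne ht]
  have hct : ∀ s, e.ct (Equiv.swap t₀ (t₀ + 1) s) = e.ct s := fun s => by
    have := he.ct_succ t₀ (h.actE t₀ ha')
    rw [Equiv.swap_apply_def]
    split_ifs with h1 h2
    · rw [h1, this]
    · rw [h2, this]
    · rfl
  refine ⟨fun t => ?_, fun t => ?_, fun t => ?_, fun t => ?_, h.pbc, h.po, h.hvh,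
    fun t u => h.zone _ u, fun ho t t' hc hT => ?_⟩
  · by_cases ht : t = t₀
    · subst ht; simpa [AS.swap] using ok
    · simpa [AS.swap, ht] using h.ok t
  · by_cases ht : t = t₀
    · subst ht; simpa [AS.swap] using loc _
    · simp only [AS.swap, update_of_ne ht]
      refine (h.loc t).congr fun hat => ?_
      have h1 : t ≠ t₀ + 1 := by rintro rfl; simp [h.next he ha'] at hat
      have h2 : t + 1 ≠ t₀ := by rintro rfl; simp [h.next he hat] at ha'
      rw [Equiv.swap_apply_of_ne_of_ne ht h1, Equiv.swap_apply_of_ne_of_ne h2 (by omega)]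
      exact ⟨rfl, rfl⟩
  · simp only [AS.swap, hact]; exact h.act t
  · simp only [AS.swap, hact]; exact h.actE t
  · exact (Equiv.swap t₀ (t₀ + 1)).injective (h.inj ho _ _ (by rw [hct, hct, hc]) hT)

theorem tk_swap {σ σ' : AS} {t₀ m : ℕ} (hA : ∀ s, s ≠ t₀ → σ'.A s = σ.A s)
    (hq : (σ.A t₀).q = .q0 .swp) (hc : (σ.A t₀).c + 1 = m) (hc' : (σ.A t₀).c' + 1 = m)
    (hq' : (σ'.A t₀).q = .e1) (hT : ∀ s, σ'.T s = σ.T (Equiv.swap t₀ (t₀ + 1) s))
    (hn : sw (σ.A (t₀ + 1)).q = false) (hp : sw (gA σ.A t₀).q = false)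
    (hz : ∀ s u, u + 1 = m → σ.T s u = false) (t u : ℕ) (hu : u < m) : tk σ' t u = tk σ t u := by
  have hG : ∀ s, s ≠ t₀ + 1 → gA σ'.A s = gA σ.A s := fun s hs => by
    cases s with
    | zero => rfl
    | succ s => exact hA s (by omega)
  by_cases h1 : t = t₀
  · subst h1
    simp only [tk, tkO, tkG, hq, hq', hG t (by omega), hp, hT, Equiv.swap_apply_left]
    by_cases h : u + 1 = m
    · simp [hz _ u h]
    · simp [show u < (σ.A t).c by omega]
  · by_cases h2 : t = t₀ + 1
    · subst h2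
      simp only [tk, tkO, tkG, hA _ h1, gA_succ, hq, hq', hn, hT, Equiv.swap_apply_right,
        Nat.add_sub_cancel]
      by_cases h : u + 1 = m
      · simp [hz _ u h]
      · simp [show u < (σ.A t₀).c' by omega]
    · simp only [tk, tkO, tkG, hA _ h1, hG _ h2, hT, Equiv.swap_apply_of_ne_of_ne h1 h2]
      by_cases h3 : sw (σ.A t).q = true
      · have h4 : t + 1 ≠ t₀ := by rintro rfl; simp [h3] at hp
        rw [Equiv.swap_apply_of_ne_of_ne h4 (by omega)]
        by_cases h5 : sw (gA σ.A t).q = true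
        · have h6 : t - 1 ≠ t₀ + 1 := by
            intro h6
            obtain rfl : t = t₀ + 1 + 1 := by omega
            simp [hn] at h5
          have h7 : t - 1 ≠ t₀ := by
            intro h7
            obtain rfl : t = 0 := by omega
            simp at h5
          rw [Equiv.swap_apply_of_ne_of_ne h7 h6]
        · simp [h5]
      · by_cases h5 : sw (gA σ.A t).q = true
        · have h6 : t - 1 ≠ t₀ + 1 := by
            intro h6
            obtain rfl : t = t₀ + 1 + 1 := by omega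
            simp [hn] at h5
          have h7 : t - 1 ≠ t₀ := by
            intro h7
            obtain rfl : t = 0 := by omega
            simp at h5
          rw [Equiv.swap_apply_of_ne_of_ne h7 h6]
          simp [h3]
        · simp [h3, h5]

end PS

end Crest.Agent.R176
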