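import Crest.Agent.R176.PSoundA

/-! Row 176: soundness of the payload, forward steps of abstract states. -/

set_option autoImplicit false
set_option linter.unusedSectionVars false
set_option linter.unusedSimpArgs false

namespace Crest.Agent.R176

namespace PS

open Function

variable {e : Env} {σ : AS}

def Off (t u t₂ u₂ t' u' : ℕ) : Prop := ¬(t' = t ∧ u' = u) ∧ ¬(t' = t₂ ∧ u' = u₂)

def Res (e : Env) (σ : AS) (t u t₂ u₂ : ℕ) (x y : Cell) : Prop :=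
  ∃ σ', Inv e σ' ∧ cell e σ' t u = x ∧ cell e σ' t₂ u₂ = y ∧
    ∀ t' u', u' < e.m → Off t u t₂ u₂ t' u' → cell e σ' t' u' = cell e σ t' u'

@[simp] theorem gA_update_self (A : ℕ → AgS) (t : ℕ) (a : AgS) : gA (update A t a) t = gA A t :=
  gA_update A t a (by omega)

/-- the own layers do not change at `u` -/
def SameO (a a₀ : AgS) (u : ℕ) : Prop :=
  pat a.pos a.q u = pat a₀.pos a₀.q u ∧ pat a.c () u = pat a₀.c () u ∧
    ∀ v d, tkO a v u d = tkO a₀ v u d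

/-- the guest layers do not change at `u` -/
def SameG (m : ℕ) (a a₀ : AgS) (u : ℕ) : Prop :=
  pat a.pos a.q (m + u) = pat a₀.pos a₀.q (m + u) ∧ pat a.c' () u = pat a₀.c' () u ∧
    ∀ v d, tkG a v u d = tkG a₀ v u d

theorem cell_set {t₀ : ℕ} {a a₀ : AgS} (hA : σ.A t₀ = a₀) {t u : ℕ} (ho : t = t₀ → SameO a a₀ u)
    (hg : t = t₀ + 1 → SameG e.m a a₀ u) : cell e (σ.set t₀ a) t u = cell e σ t u := by
  by_cases h1 : t = t₀
  · subst h1
    obtain ⟨h2, h3, h4⟩ := ho rfl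
    simp [cell, AS.set, tk, pmf, hA, h2, h3, h4]
  · by_cases h2 : t = t₀ + 1
    · subst h2
      obtain ⟨h2, h3, h4⟩ := hg rfl
      simp [cell, AS.set, tk, pmf, hA, h2, h3, h4]
    · simp [cell, AS.set, tk, pmf, h1, gA_update _ _ _ h2]

theorem res_set (h : Inv e σ) {t₀ : ℕ} {a₀ : AgS} (hA : σ.A t₀ = a₀) (a : AgS) (ok : a.ok e.m)
    (loc : LocI e σ.T t₀ a.q a.c a.c') (ha : act a.q = act a₀.q) {t u t₂ u₂ : ℕ} {x y : Cell}
    (hx : cell e (σ.set t₀ a) t u = x) (hy : cell e (σ.set t₀ a) t₂ u₂ = y)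
    (ho : ∀ u', u' < e.m → Off t u t₂ u₂ t₀ u' → SameO a a₀ u')
    (hg : ∀ u', u' < e.m → Off t u t₂ u₂ (t₀ + 1) u' → SameG e.m a a₀ u') :
    Res e σ t u t₂ u₂ x y :=
  ⟨σ.set t₀ a, h.set t₀ ok loc (by rw [ha, hA]), hx, hy, fun _ u' hu hoff =>
    cell_set hA (fun e => ho u' hu (e ▸ hoff)) fun e => hg u' hu (e ▸ hoff)⟩

macro "pateq" : tactic =>
  `(tactic| first | rfl | exact pat_eq (Or.inr (by (try dsimp only); omega)))

macro "tkeq" : tactic =>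
  `(tactic| first
    | rfl
    | (simp only [tkO, tkG, sw_idle, sw_s1, sw_q0, sw_q1, sw_q2, sw_e1, sw_e2, sw_e3, isS_chk, isS_eq,
        isS_swp, hole_q0, hole_q1, hole_q2, true_and, false_and, Bool.false_eq_true, if_false]
       <;> split_ifs <;> first | rfl | omega))

macro "same" : tactic =>
  `(tactic| (refine ⟨?_, ?_, fun _ _ => ?_⟩; pateq; pateq; tkeq))

macro "offs" : tactic =>
  `(tactic| (intro u' hu' hoff; unfold Off at hoff; same))

macro "win" hA:term : tactic =>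
  `(tactic| (apply Cell.ext <;>
      simp [cell, AS.set, tk, tkO, tkG, pmf, $hA:term, pat_H, pat_R, pat_L, rdB, rdT, exB, exT, wrT] <;>
      first | omega | pateq | skip))

theorem Nx.lt {m t u t₂ u₂ : ℕ} (h : Nx m t u t₂ u₂) : u < m ∧ u₂ < m := by
  unfold Nx at h; omega

theorem Nx.of_dl (he : e.OK) {t u t₂ u₂ : ℕ} (h : Nx e.m t u t₂ u₂) (hd : (e.S t u).dl = false) :
    u + 1 < e.m ∧ t₂ = t ∧ u₂ = u + 1 := by
  have := he.dl t u h.lt.1
  simp only [hd, Bool.false_eq_true, false_iff] at this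
  unfold Nx at h; omega

theorem Nx.of_dl' (he : e.OK) {t u t₂ u₂ : ℕ} (h : Nx e.m t u t₂ u₂) (hd : (e.S t u).dl = true) :
    u + 1 = e.m ∧ t₂ = t + 1 ∧ u₂ = 0 := by
  have := (he.dl t u h.lt.1).1 hd
  unfold Nx at h; omega

theorem Nx.of_dl₂ (he : e.OK) {t u t₂ u₂ : ℕ} (h : Nx e.m t u t₂ u₂) (hd : (e.S t₂ u₂).dl = true) :
    u + 2 = e.m ∧ t₂ = t ∧ u₂ = u + 1 := by
  have := (he.dl t₂ u₂ h.lt.2).1 hd
  have := he.m2
  unfold Nx at h; omega

theorem gh_H (he : e.OK) {t u : ℕ} {q : Hs} (h : (cell e σ t u).gh = .H q) :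
    ∃ s, t = s + 1 ∧ (σ.A s).pos = e.m + u ∧ (σ.A s).q = q := by
  cases t with
  | zero => have := he.m2; simp [cell, pat_H] at h; omega
  | succ s => exact ⟨s, rfl, by simpa [cell, pat_H] using h⟩

theorem res_flag (h : Inv e σ) {t₀ : ℕ} {q q' : Hs} {c c' : ℕ} (hA : σ.A t₀ = ⟨q, e.h, c, c'⟩)
    (loc : LocI e σ.T t₀ q' c c') (ho : e.odd = true) (hb : σ.pb (e.ct t₀) = t₀)
    (hp : σ.po (e.ct t₀) = e.h) (hE : e.E t₀ = false) (hq : sw q = false) (hq' : sw q' = false)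
    {t₂ u₂ : ℕ} (hN : Nx e.m t₀ e.h t₂ u₂) :
    Res e σ t₀ e.h t₂ u₂ { cell e σ t₀ e.h with oh := .H q', pm := .H (act q') } (cell e σ t₂ u₂) := by
  have ok := h.ok t₀
  rw [hA] at ok
  have hlt := hN.lt
  have key : ∀ t' u', u' < e.m → ¬(t' = t₀ ∧ u' = e.h) →
      cell e (σ.flag t₀ ⟨q', e.h, c, c'⟩ (e.ct t₀) (act q')) t' u' = cell e σ t' u' := by
    intro t' u' hu' hoff
    have h1 : cell e (σ.set t₀ ⟨q', e.h, c, c'⟩) t' u' = cell e σ t' u' :=
      cell_set hA (fun _ => ⟨by pateq, rfl, fun _ _ => by simp [tkO, hq, hq']⟩)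
        (fun _ => ⟨by pateq, rfl, fun _ _ => by simp [tkG, hq, hq']⟩)
    have h2 : pmf e (σ.flag t₀ ⟨q', e.h, c, c'⟩ (e.ct t₀) (act q')) t' u' = pmf e σ t' u' := by
      by_cases hc : e.ct t' = e.ct t₀
      · simp only [pmf, AS.flag, hc, hb, hp, update_self, pat2]
        split_ifs <;> first | rfl | pateq
      · simp [pmf, AS.flag, hc]
    rw [← h1]
    exact Cell.ext rfl rfl (h2.trans (congrArg Cell.pm h1).symm) rfl rfl rfl rfl
  refine ⟨σ.flag t₀ ⟨q', e.h, c, c'⟩ (e.ct t₀) (act q'), h.flag t₀ (a := ⟨q', e.h, c, c'⟩) ok loc ho hb hp hE rfl, ?_,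
    key _ _ hlt.2 (by unfold Nx at hN; omega), fun t' u' hu' hoff => key _ _ hu' hoff.1⟩
  apply Cell.ext <;> simp [cell, AS.flag, tk, tkO, pmf, hA, pat_H, pat2_H, hq, hq', ho, hb, hp]

theorem res_swap (he : e.OK) (h : Inv e σ) {t₀ : ℕ} {q q' : Hs} {u c c' : ℕ}
    (hA : σ.A t₀ = ⟨q, u, c, c'⟩) (loc : ∀ T, LocI e T t₀ q' c c') (hq : act q = true)
    (hq' : act q' = true)
    (htk : ∀ t u', u' < e.m → tk (σ.swap t₀ ⟨q', u, c, c'⟩) t u' = tk σ t u')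
    {t₂ u₂ : ℕ} (hN : Nx e.m t₀ u t₂ u₂) :
    Res e σ t₀ u t₂ u₂ { cell e σ t₀ u with oh := .H q' } (cell e σ t₂ u₂) := by
  have ok := h.ok t₀
  rw [hA] at ok
  have hlt := hN.lt
  have key : ∀ t' u', u' < e.m → ¬(t' = t₀ ∧ u' = u) →
      cell e (σ.swap t₀ ⟨q', u, c, c'⟩) t' u' = cell e σ t' u' := by
    intro t' u' hu' hoff
    refine Cell.ext rfl (htk _ _ hu') rfl ?_ ?_ ?_ ?_
    · by_cases h1 : t' = t₀
      · subst h1; simp only [cell, AS.swap, update_self, hA]; pateq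
      · simp [cell, AS.swap, h1]
    · by_cases h1 : t' = t₀
      · subst h1; simp only [cell, AS.swap, update_self, hA]
      · simp [cell, AS.swap, h1]
    · by_cases h1 : t' = t₀ + 1
      · subst h1; simp only [cell, AS.swap, gA_succ, update_self, hA]; pateq
      · simp [cell, AS.swap, gA_update _ _ _ h1]
    · by_cases h1 : t' = t₀ + 1
      · subst h1; simp only [cell, AS.swap, gA_succ, update_self, hA]
      · simp [cell, AS.swap, gA_update _ _ _ h1]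
  refine ⟨σ.swap t₀ ⟨q', u, c, c'⟩, h.swap he t₀ (a := ⟨q', u, c, c'⟩) ok loc hq' (by rw [hA]; exact hq), ?_,
    key _ _ hlt.2 (by unfold Nx at hN; omega), fun t' u' hu' hoff => key _ _ hu' hoff.1⟩
  refine Cell.ext rfl (htk _ _ hlt.1) rfl ?_ ?_ ?_ ?_ <;> simp [cell, AS.swap, hA, pat_H]

theorem Inv.last (he : e.OK) (h : Inv e σ) (s u : ℕ) (hu : u + 1 = e.m) : σ.T s u = false := by
  by_contra hc
  have := he.zm u (h.zone s u (by simpa using hc)).2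
  omega

theorem Nx.ct (he : e.OK) {t u t₂ u₂ : ℕ} (hN : Nx e.m t u t₂ u₂)
    (h : ¬((e.S t u).dl = true ∧ (e.S t u).ce = true)) : e.ct t₂ = e.ct t := by
  rcases id hN with ⟨-, rfl, -⟩ | ⟨hu, rfl, -⟩
  · rfl
  · refine he.ct_succ t ?_
    rw [he.dl t u hN.lt.1, he.ce t u hN.lt.1] at h
    simpa [hu] using h

theorem res_mvp (h : Inv e σ) (ho : e.odd = true) {t u t₂ u₂ : ℕ} (hN : Nx e.m t u t₂ u₂)
    (hc : e.ct t₂ = e.ct t) (hv : σ.hv (e.ct t) = false) {b o : ℕ}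
    (h1 : (b = t ∧ o = u) ∨ (b = t₂ ∧ o = u₂))
    (h2 : (σ.pb (e.ct t) = t ∧ σ.po (e.ct t) = u) ∨ (σ.pb (e.ct t) = t₂ ∧ σ.po (e.ct t) = u₂)) :
    Res e σ t u t₂ u₂ { cell e σ t u with pm := pat2 b o false t u }
      { cell e σ t₂ u₂ with pm := pat2 b o false t₂ u₂ } := by
  have hlt := hN.lt
  refine ⟨σ.mvp (e.ct t) b o, h.mvp hv (by rcases h1 with ⟨rfl, -⟩ | ⟨rfl, -⟩ <;> simp [hc])
    (by omega), ?_, ?_, fun t' u' hu' hoff => ?_⟩
  · exact Cell.ext rfl rfl (by simp [cell, pmf, AS.mvp, ho, hv]) rfl rfl rfl rfl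
  · exact Cell.ext rfl rfl (by simp [cell, pmf, AS.mvp, ho, hv, hc]) rfl rfl rfl rfl
  · refine Cell.ext rfl rfl ?_ rfl rfl rfl rfl
    by_cases hc' : e.ct t' = e.ct t
    · simp only [cell, pmf, AS.mvp, hc', update_self, ho, if_true, pat2]
      unfold Nx at hN
      unfold Off at hoff
      split_ifs <;> first | rfl | omega | skip
      all_goals first
        | exact pat_eq (Or.inr (by omega))
        | exact (pat_R.2 (by omega))
        | exact (pat_R.2 (by omega)).symm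
        | exact (pat_L.2 (by omega))
        | exact (pat_L.2 (by omega)).symm
    · simp [cell, pmf, AS.mvp, hc']

macro "ysame" hA:term:max hN:ident : tactic =>
  `(tactic| exact cell_set $hA (fun _ => by unfold Nx at $hN:ident; same)
      (fun _ => by unfold Nx at $hN:ident; same))

section
variable (he : e.OK) (h : Inv e σ) {t u t₂ u₂ : ℕ} (hN : Nx e.m t u t₂ u₂)
include he h hN

theorem f_wo {q : Hs} (h1 : (cell e σ t u).s.dl = false) (h2 : (cell e σ t u).oh = .H q) :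
    Res e σ t u t₂ u₂ { cell e σ t u with oh := .R } { cell e σ t₂ u₂ with oh := .H q } := by
  obtain ⟨hu, rfl, rfl⟩ := hN.of_dl he h1
  rcases hA : σ.A t₂ with ⟨q', pos, c, c'⟩
  have ok := h.ok t₂
  have loc := h.loc t₂
  simp only [cell, pat_H, hA, AgS.ok] at h2 ok loc
  obtain ⟨rfl, rfl⟩ := h2
  refine res_set h hA ⟨q', pos + 1, c, c'⟩ ⟨by dsimp only; omega, ok.2⟩ loc rfl ?_ ?_ ?_ ?_
  · win hA
  · win hA
  · offs
  · offs

theorem f_wg {q : Hs} (h1 : (cell e σ t u).s.dl = false) (h2 : (cell e σ t u).gh = .H q) :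
    Res e σ t u t₂ u₂ { cell e σ t u with gh := .R } { cell e σ t₂ u₂ with gh := .H q } := by
  obtain ⟨hu, rfl, rfl⟩ := hN.of_dl he h1
  obtain ⟨s, rfl, h2'⟩ := gh_H he h2
  clear h2
  rcases hA : σ.A s with ⟨q', pos, c, c'⟩
  have ok := h.ok s
  have loc := h.loc s
  simp only [hA, AgS.ok] at h2' ok loc
  obtain ⟨rfl, rfl⟩ := h2'
  refine res_set h hA ⟨q', e.m + u + 1, c, c'⟩ ⟨by dsimp only; omega, ok.2⟩ loc rfl ?_ ?_ ?_ ?_
  · win hA
  · win hA
  · offs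
  · offs

theorem f_wc {q : Hs} (h1 : (cell e σ t u).s.dl = true) (h2 : (cell e σ t u).oh = .H q) :
    Res e σ t u t₂ u₂ { cell e σ t u with oh := .R } { cell e σ t₂ u₂ with gh := .H q } := by
  obtain ⟨hu, rfl, rfl⟩ := hN.of_dl' he h1
  rcases hA : σ.A t with ⟨q', pos, c, c'⟩
  have ok := h.ok t
  have loc := h.loc t
  simp only [cell, pat_H, hA, AgS.ok] at h2 ok loc
  obtain ⟨rfl, rfl⟩ := h2
  refine res_set h hA ⟨q', pos + 1, c, c'⟩ ⟨by dsimp only; omega, ok.2⟩ loc rfl ?_ ?_ ?_ ?_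
  · win hA
  · win hA
  · offs
  · offs

theorem f_t2 {μ : Md} (h1 : (cell e σ t u).s.dl = false) (h2 : (cell e σ t u).oh = .H (.q0 μ))
    (h3 : (cell e σ t u).oc = .H ()) :
    Res e σ t u t₂ u₂ { cell e σ t u with oh := .H (.q1 μ (rdB μ (cell e σ t u))), oc := .R,
                                          tok := rdT μ (cell e σ t u) }
      { cell e σ t₂ u₂ with oc := .H () } := by
  obtain ⟨hu, rfl, rfl⟩ := hN.of_dl he h1
  rcases hA : σ.A t₂ with ⟨q', pos, c, c'⟩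
  have ok := h.ok t₂
  have loc := h.loc t₂
  have hp := h.sw_prev he (t := t₂)
  simp only [cell, pat_H, hA, AgS.ok, and_true] at h2 h3 ok loc hp
  obtain ⟨rfl, rfl⟩ := h2
  subst h3
  obtain ⟨rfl, loc⟩ := loc
  refine res_set h hA ⟨.q1 μ (rdB μ (cell e σ t₂ c)), c, c + 1, c⟩ ⟨ok.1, hu, ok.2.2⟩ ?_ rfl ?_ ?_ ?_ ?_
  · cases μ <;> simp_all [LocI, rdB, cell, tk, tkO, tkG]
  · cases μ <;> win hA
  · cases μ <;> win hA
  · cases μ <;> offs
  · cases μ <;> offs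

theorem f_wp (h0 : (cell e σ t u).s.par = true)
    (h1 : ¬((cell e σ t u).s.dl = true ∧ (cell e σ t u).s.ce = true))
    (h2 : (cell e σ t u).pm = .H false) :
    Res e σ t u t₂ u₂ { cell e σ t u with pm := .R } { cell e σ t₂ u₂ with pm := .H false } := by
  have ho : e.odd = true := (he.par t u).symm.trans h0
  simp only [cell, pmf, ho, if_true, pat2_H] at h2
  have := res_mvp h ho hN (hN.ct he h1) h2.2.2 (Or.inr ⟨rfl, rfl⟩) (Or.inl ⟨h2.1, h2.2.1⟩)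
  rwa [pat2_R.2 (by unfold Nx at hN; omega), pat2_H.2 ⟨rfl, rfl, rfl⟩] at this

theorem f_t0c (h2 : (cell e σ t u).oh = .H .idle) :
    Res e σ t u t₂ u₂ { cell e σ t u with oh := .H (.s1 .chk) } (cell e σ t₂ u₂) := by
  have hlt := hN.lt
  rcases hA : σ.A t with ⟨q', pos, c, c'⟩
  have ok := h.ok t
  have loc := h.loc t
  simp only [cell, pat_H, hA, AgS.ok] at h2 ok loc
  obtain ⟨rfl, rfl⟩ := h2
  refine res_set h hA ⟨.s1 .chk, pos, c, c'⟩ ok loc rfl ?_ ?_ ?_ ?_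
  · win hA
  · ysame hA hN
  · offs
  · offs

theorem f_t0 {μ : Md} (h0 : (cell e σ t u).s.hm = true) (hμ : μ ≠ .chk)
    (h1 : (cell e σ t u).s.par = true) (h1' : (cell e σ t u).s.ce = false)
    (h2 : (cell e σ t u).oh = .H .idle) (h3 : (cell e σ t u).pm = .H false) :
    Res e σ t u t₂ u₂ { cell e σ t u with oh := .H (.s1 μ), pm := .H true } (cell e σ t₂ u₂) := by
  have hlt := hN.lt
  obtain rfl := (he.hm t u hlt.1).1 h0
  have ho : e.odd = true := (he.par t _).symm.trans h1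
  rcases hA : σ.A t with ⟨q', pos, c, c'⟩
  have loc := h.loc t
  simp only [cell, pat_H, hA, pmf, ho, if_true, pat2_H] at h2 h3 loc
  obtain ⟨rfl, rfl⟩ := h2
  have := res_flag h hA (q' := .s1 μ) loc ho h3.1 h3.2.1 ((he.ce t _ hlt.1).symm.trans h1') rfl rfl hN
  rwa [act_s1, md_of_ne hμ] at this

theorem f_t1 {μ : Md} (h2 : (cell e σ t u).oh = .H (.s1 μ)) :
    Res e σ t u t₂ u₂ { cell e σ t u with oh := .H (.q0 μ) } (cell e σ t₂ u₂) := by
  have hlt := hN.lt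
  rcases hA : σ.A t with ⟨q', pos, c, c'⟩
  have ok := h.ok t
  have loc := h.loc t
  simp only [cell, pat_H, hA, AgS.ok] at h2 ok loc
  obtain ⟨rfl, rfl⟩ := h2
  obtain ⟨rfl, rfl⟩ := loc
  refine res_set h hA ⟨.q0 μ, pos, 0, 0⟩ ok ⟨rfl, fun _ _ hu => absurd hu (by simp)⟩ rfl ?_ ?_ ?_ ?_
  · win hA
  · cases μ <;> ysame hA hN
  · cases μ <;> offs
  · cases μ <;> offs

theorem f_t3 {μ : Md} {β : Bool} (h1 : (cell e σ t u).s.dl = false)
    (h2 : (cell e σ t u).gh = .H (.q1 μ β)) (h3 : (cell e σ t u).gc = .H ())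
    (h4 : exOK μ β (cell e σ t u)) :
    Res e σ t u t₂ u₂ { cell e σ t u with gh := .H (.q2 μ (exB μ (cell e σ t u))), gc := .R,
                                          tok := exT μ β (cell e σ t u) }
      { cell e σ t₂ u₂ with gc := .H () } := by
  obtain ⟨hu, rfl, rfl⟩ := hN.of_dl he h1
  obtain ⟨s, rfl, h2'⟩ := gh_H he h2
  clear h2
  rcases hA : σ.A s with ⟨q', pos, c, c'⟩
  have ok := h.ok s
  have loc := h.loc s
  have hp := h.sw_next he (t := s)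
  simp only [cell, gA_succ, pat_H, hA, AgS.ok, and_true] at h2' h3 ok loc hp
  obtain ⟨rfl, rfl⟩ := h2'
  subst h3
  obtain ⟨rfl, loc⟩ := loc
  refine res_set h hA ⟨.q2 μ (exB μ (cell e σ (s + 1) c')), e.m + c', c' + 1, c' + 1⟩
    ⟨ok.1, hu, hu⟩ ?_ rfl ?_ ?_ ?_ ?_
  · cases μ
    · simp [LocI, exB]
    · have hp := hp rfl
      simp only [exOK, cell, tk, tkO, tkG, hp, gA_succ, hA, sw_q1, isS_eq, Bool.false_eq_true,
        false_and, if_false] at h4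
      refine ⟨rfl, by simp, fun _ => rfl, by simp, fun _ v hv => ?_⟩
      rcases Nat.lt_succ_iff_lt_or_eq.1 hv with hv | rfl
      · exact loc.2.2 rfl v hv
      · rw [← h4, loc.2.1 (by simp)]
    · simp_all [LocI, exB, cell, tk, tkO, tkG]
  · cases μ
    · win hA
    · win hA
    · have hp := hp rfl
      have := loc.2.1 (by simp)
      apply Cell.ext <;> simp [cell, AS.set, tk, tkO, tkG, pmf, hA, pat_H, pat_R, exB, exT, hp, this]
  · cases μ <;> win hA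
  · cases μ <;> offs
  · cases μ <;> offs

theorem f_t4 {μ : Md} {β : Bool} (h1 : (cell e σ t u).s.dl = false)
    (h2 : (cell e σ t u).oh = .H (.q2 μ β)) (h3 : (cell e σ t₂ u₂).oc = .H ()) :
    Res e σ t u t₂ u₂ { cell e σ t u with oh := .H (.q0 μ), tok := wrT μ β (cell e σ t u) }
      (cell e σ t₂ u₂) := by
  obtain ⟨hu, rfl, rfl⟩ := hN.of_dl he h1
  rcases hA : σ.A t₂ with ⟨q', pos, c, c'⟩
  have ok := h.ok t₂
  have loc := h.loc t₂
  simp only [cell, pat_H, hA, AgS.ok, and_true] at h2 h3 ok loc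
  obtain ⟨rfl, rfl⟩ := h2
  subst h3
  obtain ⟨rfl, loc⟩ := loc
  refine res_set h hA ⟨.q0 μ, pos, pos + 1, pos + 1⟩ ok ⟨rfl, loc.2.2.2⟩ rfl ?_ ?_ ?_ ?_
  · cases μ
    · win hA
    · win hA
    · have := loc.2.2.1 rfl
      apply Cell.ext <;> simp [cell, AS.set, tk, tkO, tkG, pmf, hA, pat_H, wrT, this]
  · cases μ <;> ysame hA hN
  · cases μ <;> offs
  · cases μ <;> offs

theorem f_t5 (h1 : (cell e σ t₂ u₂).s.dl = true) (h2 : (cell e σ t u).oh = .H (.q0 .swp))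
    (h3 : (cell e σ t₂ u₂).oc = .H ()) :
    Res e σ t u t₂ u₂ { cell e σ t u with oh := .H .e1 } (cell e σ t₂ u₂) := by
  obtain ⟨hu, rfl, rfl⟩ := hN.of_dl₂ he h1
  rcases hA : σ.A t₂ with ⟨q', pos, c, c'⟩
  have loc := h.loc t₂
  have hp := h.sw_prev he (t := t₂)
  have hn := h.sw_next he (t := t₂)
  simp only [cell, pat_H, hA, and_true] at h2 h3 loc hp hn
  obtain ⟨rfl, rfl⟩ := h2
  subst h3
  obtain ⟨rfl, -⟩ := loc
  refine res_swap he h hA (q' := .e1) (fun _ => hu) rfl rfl (fun t u' hu' => ?_) hN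
  exact tk_swap (σ := σ) (t₀ := t₂) (fun s hs => update_of_ne hs _ _) (by rw [hA])
    (by rw [hA]; exact hu) (by rw [hA]; exact hu) (by simp [AS.swap]) (fun _ => rfl) (hn rfl) (hp rfl)
    (h.last he) t u' hu'

theorem f_t6 (h2 : (cell e σ t u).gh = .H .e1) :
    Res e σ t u t₂ u₂ { cell e σ t u with gh := .H .e2 } (cell e σ t₂ u₂) := by
  have hlt := hN.lt
  obtain ⟨s, rfl, h2'⟩ := gh_H he h2
  clear h2
  rcases hA : σ.A s with ⟨q', pos, c, c'⟩
  have ok := h.ok s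
  simp only [hA, AgS.ok] at h2' ok
  obtain ⟨rfl, rfl⟩ := h2'
  refine res_set h hA ⟨.e2, e.m + u, c, c'⟩ ok trivial rfl ?_ ?_ ?_ ?_
  · win hA
  · ysame hA hN
  · offs
  · offs

theorem f_dro (h1 : (cell e σ t u).s.dl = false) (h2 : (cell e σ t u).oh = .H .e2)
    (h3 : (cell e σ t u).oc = .H ()) :
    Res e σ t u t₂ u₂ { cell e σ t u with oc := .R } { cell e σ t₂ u₂ with oc := .H () } := by
  obtain ⟨hu, rfl, rfl⟩ := hN.of_dl he h1
  rcases hA : σ.A t₂ with ⟨q', pos, c, c'⟩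
  have ok := h.ok t₂
  simp only [cell, pat_H, hA, AgS.ok, and_true] at h2 h3 ok
  obtain ⟨rfl, rfl⟩ := h2
  subst h3
  refine res_set h hA ⟨.e2, c, c + 1, c'⟩ ⟨ok.1, hu, ok.2.2⟩ trivial rfl ?_ ?_ ?_ ?_
  · win hA
  · win hA
  · offs
  · offs

theorem f_drg (h1 : (cell e σ t u).s.dl = false) (h2 : (cell e σ t u).gh = .H .e2)
    (h3 : (cell e σ t u).gc = .H ()) :
    Res e σ t u t₂ u₂ { cell e σ t u with gc := .R } { cell e σ t₂ u₂ with gc := .H () } := by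
  obtain ⟨hu, rfl, rfl⟩ := hN.of_dl he h1
  obtain ⟨s, rfl, h2'⟩ := gh_H he h2
  clear h2
  rcases hA : σ.A s with ⟨q', pos, c, c'⟩
  have ok := h.ok s
  simp only [cell, gA_succ, pat_H, hA, AgS.ok, and_true] at h2' h3 ok
  obtain ⟨rfl, rfl⟩ := h2'
  subst h3
  refine res_set h hA ⟨.e2, e.m + c', c, c' + 1⟩ ⟨ok.1, ok.2.1, hu⟩ trivial rfl ?_ ?_ ?_ ?_
  · win hA
  · win hA
  · offs
  · offs

theorem f_t7 (h1 : (cell e σ t u).s.df = true) (h2 : (cell e σ t u).oh = .H .e2)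
    (h3 : (cell e σ t u).oc = .H ()) :
    Res e σ t u t₂ u₂ { cell e σ t u with oh := .H .e3 } (cell e σ t₂ u₂) := by
  have hlt := hN.lt
  obtain rfl := (he.df t u hlt.1).1 h1
  rcases hA : σ.A t with ⟨q', pos, c, c'⟩
  have ok := h.ok t
  simp only [cell, pat_H, hA, AgS.ok, and_true] at h2 h3 ok
  obtain ⟨rfl, rfl⟩ := h2
  subst h3
  refine res_set h hA ⟨.e3, 0, 0, c'⟩ ok rfl rfl ?_ ?_ ?_ ?_
  · win hA
  · ysame hA hN
  · offs
  · offs

theorem f_t8 (h1 : (cell e σ t u).s.df = true) (h2 : (cell e σ t u).gh = .H .e3)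
    (h3 : (cell e σ t u).gc = .H ()) :
    Res e σ t u t₂ u₂ { cell e σ t u with gh := .H (.s1 .swp) } (cell e σ t₂ u₂) := by
  have hlt := hN.lt
  obtain rfl := (he.df t u hlt.1).1 h1
  obtain ⟨s, rfl, h2'⟩ := gh_H he h2
  clear h2
  rcases hA : σ.A s with ⟨q', pos, c, c'⟩
  have ok := h.ok s
  have loc := h.loc s
  simp only [cell, gA_succ, pat_H, hA, AgS.ok, and_true] at h2' h3 ok loc
  obtain ⟨rfl, rfl⟩ := h2'
  subst h3
  refine res_set h hA ⟨.s1 .swp, e.m + 0, c, 0⟩ ok ⟨loc, rfl⟩ rfl ?_ ?_ ?_ ?_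
  · win hA
  · ysame hA hN
  · offs
  · offs

theorem fwd {x y : Cell} (hs : PStep (cell e σ t u) (cell e σ t₂ u₂) x y) :
    Res e σ t u t₂ u₂ x y := by
  cases hs with
  | wo h1 h2 _ => exact f_wo he h hN h1 h2
  | wg h1 h2 _ => exact f_wg he h hN h1 h2
  | wc h1 h2 _ => exact f_wc he h hN h1 h2
  | wp h0 h1 h2 _ => exact f_wp he h hN h0 h1 h2
  | t0c _ h2 => exact f_t0c he h hN h2
  | t0 h0 hμ h1 h1' h2 h3 => exact f_t0 he h hN h0 hμ h1 h1' h2 h3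
  | t1 _ h2 _ => exact f_t1 he h hN h2
  | t2 h1 h2 h3 _ => exact f_t2 he h hN h1 h2 h3
  | t3 h1 h2 h3 _ h4 => exact f_t3 he h hN h1 h2 h3 h4
  | t4 h1 h2 _ h3 _ => exact f_t4 he h hN h1 h2 h3
  | t5 h1 h2 h3 => exact f_t5 he h hN h1 h2 h3
  | t6 _ h2 _ => exact f_t6 he h hN h2
  | dro h1 h2 h3 _ => exact f_dro he h hN h1 h2 h3
  | drg h1 h2 h3 _ => exact f_drg he h hN h1 h2 h3
  | t7 h1 h2 h3 => exact f_t7 he h hN h1 h2 h3
  | t8 h1 h2 h3 => exact f_t8 he h hN h1 h2 h3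

end

end PS

end Crest.Agent.R176
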