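import Mathlib

/-!
# Steinberg groups (row 176, group half): definitions and the unipotent lemma

`P R K` is the group presented by symbols `x i j r` (`i ≠ j`, `j ∉ K`) and the Steinberg relations
among them; `St I R = P R ∅`.
-/

set_option autoImplicit false

namespace Crest.Agent.R176

open scoped commutatorElement

section defs

variable {I : Type} {R : Type} [Ring R]

/-- the pair `(i, j)` indexes a generator -/
def Ok (K : Set I) (i j : I) : Prop := i ≠ j ∧ j ∉ K

@[simp] theorem ok_empty {i j : I} : Ok (∅ : Set I) i j ↔ i ≠ j := by simp [Ok]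

/-- the defining relations -/
inductive StRel (R : Type) [Ring R] (K : Set I) : FreeGroup (I × I × R) → Prop
  | triv (i j : I) (r : R) : ¬ Ok K i j → StRel R K (FreeGroup.of (i, j, r))
  | add (i j : I) (r s : R) : StRel R K
      (FreeGroup.of (i, j, r) * FreeGroup.of (i, j, s) * (FreeGroup.of (i, j, r + s))⁻¹)
  | comm (i j k l : I) (r s : R) : j ≠ k → i ≠ l →
      StRel R K ⁅FreeGroup.of (i, j, r), FreeGroup.of (k, l, s)⁆
  | mul (i j k : I) (r s : R) : Ok K i j → Ok K j k → i ≠ k → StRel R K
      (⁅FreeGroup.of (i, j, r), FreeGroup.of (j, k, s)⁆ * (FreeGroup.of (i, k, r * s))⁻¹)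

/-- the Steinberg group without the columns in `K` -/
def P (R : Type) [Ring R] (K : Set I) : Type := PresentedGroup {w | StRel R K w}

instance (K : Set I) : Group (P R K) := inferInstanceAs (Group (PresentedGroup _))

/-- the Steinberg group -/
abbrev St (I R : Type) [Ring R] : Type := P R (∅ : Set I)

/-- the generators (`1` unless `Ok K i j`) -/
def x (K : Set I) (i j : I) (r : R) : P R K := PresentedGroup.of (rels := {w | StRel R K w}) (i, j, r)

/-- a family satisfying the Steinberg relations -/
structure IsSt {G : Type*} [Group G] (K : Set I) (f : I → I → R → G) : Prop where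
  add : ∀ i j r s, Ok K i j → f i j (r + s) = f i j r * f i j s
  comm : ∀ i j k l r s, Ok K i j → Ok K k l → j ≠ k → i ≠ l → Commute (f i j r) (f k l s)
  mul : ∀ i j k r s, Ok K i j → Ok K j k → i ≠ k → ⁅f i j r, f j k s⁆ = f i k (r * s)

variable {K : Set I}

private theorem rel_one {w : FreeGroup (I × I × R)} (h : StRel R K w) :
    PresentedGroup.mk {w | StRel R K w} w = 1 := PresentedGroup.one_of_mem h

theorem x_triv {i j : I} (h : ¬ Ok K i j) (r : R) : x K i j r = 1 := rel_one (StRel.triv i j r h)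

theorem x_add (i j : I) (r s : R) : x K i j (r + s) = x K i j r * x K i j s := by
  have := rel_one (K := K) (StRel.add i j r s)
  rw [map_mul, map_mul, map_inv, mul_inv_eq_one] at this
  exact this.symm

theorem x_comm {i j k l : I} (h : j ≠ k) (h' : i ≠ l) (r s : R) :
    Commute (x K i j r) (x K k l s) := by
  have := rel_one (K := K) (StRel.comm i j k l r s h h')
  rw [map_commutatorElement] at this
  exact commutatorElement_eq_one_iff_commute.1 this

theorem x_mul {i j k : I} (h : Ok K i j) (h' : Ok K j k) (hik : i ≠ k) (r s : R) :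
    ⁅x K i j r, x K j k s⁆ = x K i k (r * s) := by
  have := rel_one (K := K) (StRel.mul i j k r s h h' hik)
  rw [map_mul, map_inv, map_commutatorElement, mul_inv_eq_one] at this
  exact this

theorem isSt_x : IsSt K (x K : I → I → R → P R K) :=
  ⟨fun i j r s _ => x_add i j r s, fun _ _ _ _ r s _ _ h h' => x_comm h h' r s,
    fun _ _ _ r s h h' h'' => x_mul h h' h'' r s⟩

@[simp] theorem x_zero (i j : I) : x K i j (0 : R) = 1 := by
  have := x_add (K := K) i j (0 : R) 0
  rw [add_zero] at this
  exact mul_left_cancel (a := x K i j (0 : R)) (by rw [← this, mul_one])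

theorem x_neg (i j : I) (r : R) : x K i j (-r) = (x K i j r)⁻¹ := by
  rw [eq_inv_iff_mul_eq_one, ← x_add, neg_add_cancel, x_zero]

theorem x_inv [CharP R 2] (i j : I) (r : R) : (x K i j r)⁻¹ = x K i j r := by
  rw [← x_neg, CharTwo.neg_eq]

theorem x_mul_self [CharP R 2] (i j : I) (r : R) : x K i j r * x K i j r = 1 := by
  rw [← x_add, CharTwo.add_self_eq_zero, x_zero]

/-- `x_ij(r) x_jk(s) x_ij(r)⁻¹ = x_ik(rs) x_jk(s)` -/
theorem x_conj_left {i j k : I} (h : Ok K i j) (h' : Ok K j k) (hik : i ≠ k) (r s : R) :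
    x K i j r * x K j k s * (x K i j r)⁻¹ = x K i k (r * s) * x K j k s := by
  rw [← x_mul h h' hik, commutatorElement_def]; group

/-- `x_jk(s) x_ij(r) x_jk(s)⁻¹ = x_ij(r) x_ik(-(rs))` -/
theorem x_conj_right {i j k : I} (h : Ok K i j) (h' : Ok K j k) (hik : i ≠ k) (r s : R) :
    x K j k s * x K i j r * (x K j k s)⁻¹ = x K i k (-(r * s)) * x K i j r := by
  rw [x_neg, ← x_mul h h' hik, commutatorElement_def]; group

variable {G : Type*} [Group G]

open Classical in
/-- the universal property -/
noncomputable def P.lift (f : I → I → R → G) (h : IsSt K f) : P R K →* G :=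
  PresentedGroup.toGroup (rels := {w | StRel R K w})
    (f := fun p => if Ok K p.1 p.2.1 then f p.1 p.2.1 p.2.2 else 1) (by
      intro w hw
      cases hw with
      | triv i j r hn => simp [hn]
      | add i j r s =>
        by_cases hij : Ok K i j
        · simp [hij, h.add i j r s hij]
        · simp [hij]
      | comm i j k l r s h1 h2 =>
        rw [map_commutatorElement, commutatorElement_eq_one_iff_commute]
        by_cases hij : Ok K i j <;> by_cases hkl : Ok K k l <;> simp [hij, hkl]
        exact h.comm i j k l r s hij hkl h1 h2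
      | mul i j k r s h1 h2 h3 =>
        have h4 : Ok K i k := ⟨h3, h2.2⟩
        rw [map_mul, map_inv, map_commutatorElement, mul_inv_eq_one]
        simp [h1, h2, h4, h.mul i j k r s h1 h2 h3])

theorem P.lift_x (f : I → I → R → G) (h : IsSt K f) {i j : I} (hij : Ok K i j) (r : R) :
    P.lift f h (x K i j r) = f i j r := by
  refine (PresentedGroup.toGroup.of _).trans ?_
  simp [hij]

theorem P.mem_of_x (H : Subgroup (P R K)) (h : ∀ i j r, Ok K i j → x K i j r ∈ H) (g : P R K) :
    g ∈ H := by
  refine PresentedGroup.generated_by _ H (fun p => ?_) g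
  by_cases hp : Ok K p.1 p.2.1
  · exact h _ _ _ hp
  · have : (PresentedGroup.of p : P R K) = 1 := x_triv hp p.2.2
    exact this ▸ one_mem H

theorem P.hom_ext {M : Type*} [Monoid M] {f g : P R K →* M}
    (h : ∀ i j r, Ok K i j → f (x K i j r) = g (x K i j r)) : f = g :=
  MonoidHom.ext fun a => P.mem_of_x (f.toHomUnits.eqLocus g.toHomUnits)
    (fun i j r hij => Units.ext (h i j r hij)) a |> congrArg Units.val

/-- induction on a group element, one generator at a time -/
theorem P.induction_on {C : P R K → Prop} (g : P R K) (h1 : C 1)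
    (hx : ∀ i j r g, Ok K i j → C g → C (x K i j r * g)) : C g := by
  have key : ∀ g : P R K, g ∈ Subgroup.closure {a | ∃ i j r, Ok K i j ∧ a = x K i j r} :=
    P.mem_of_x _ fun i j r h => Subgroup.subset_closure ⟨i, j, r, h, rfl⟩
  refine Subgroup.closure_induction_left (p := fun g _ => C g) h1 ?_ ?_ (key g)
  · rintro _ ⟨i, j, r, h, rfl⟩ y _ hy
    exact hx i j r y h hy
  · rintro _ ⟨i, j, r, h, rfl⟩ y _ hy
    rw [← x_neg]
    exact hx i j _ y h hy

variable {I' R' : Type} [Ring R'] {K' : Set I'}

/-- functoriality in the index set and in the ring -/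
noncomputable def P.map (e : I → I') (he : Function.Injective e) (hK : ∀ j, j ∉ K → e j ∉ K')
    (φ : R →+* R') : P R K →* P R' K' :=
  P.lift (fun i j r => x K' (e i) (e j) (φ r))
    ⟨fun i j r s _ => by rw [map_add, x_add],
      fun i j k l r s _ _ h h' => x_comm (he.ne h) (he.ne h') _ _,
      fun i j k r s h h' h'' => by
        rw [x_mul ⟨he.ne h.1, hK _ h.2⟩ ⟨he.ne h'.1, hK _ h'.2⟩ (he.ne h''), map_mul]⟩

theorem P.map_x (e : I → I') (he : Function.Injective e) (hK : ∀ j, j ∉ K → e j ∉ K')
    (φ : R →+* R') {i j : I} (hij : Ok K i j) (r : R) :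
    P.map e he hK φ (x K i j r) = x K' (e i) (e j) (φ r) := P.lift_x _ _ hij r

/-- the map `P K → P L` for `L ⊆ K` -/
noncomputable def P.res {K L : Set I} (h : L ⊆ K) : P R K →* P R L :=
  P.map id Function.injective_id (fun _ hj hl => hj (h hl)) (RingHom.id R)

theorem P.res_x {K L : Set I} (h : L ⊆ K) {i j : I} (hij : Ok K i j) (r : R) :
    P.res h (x K i j r) = x L i j r := P.map_x _ _ _ _ hij r

theorem P.res_res {K L M : Set I} (h : L ⊆ K) (h' : M ⊆ L) (g : P R K) :
    P.res h' (P.res h g) = P.res (h'.trans h) g := by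
  have : (P.res h').comp (P.res h) = (P.res (h'.trans h) : P R K →* P R M) :=
    P.hom_ext fun i j r hij => by
      rw [MonoidHom.comp_apply, P.res_x h hij, P.res_x h' ⟨hij.1, fun hj => hij.2 (h hj)⟩,
        P.res_x _ hij]
  exact DFunLike.congr_fun this g

/-- change of rings -/
noncomputable def St.mapR (I : Type) (φ : R →+* R') : St I R →* St I R' :=
  P.map id Function.injective_id (fun _ h => h) φ

theorem St.mapR_x (φ : R →+* R') (i j : I) (r : R) :
    St.mapR I φ (x ∅ i j r) = x ∅ i j (φ r) := by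
  by_cases h : Ok (∅ : Set I) i j
  · exact P.map_x _ _ _ _ h r
  · rw [x_triv h, x_triv h, map_one]

/-- change of index sets -/
noncomputable def St.mapI (R : Type) [Ring R] (e : I ↪ I') : St I R →* St I' R :=
  P.map e e.injective (fun _ _ h => h) (RingHom.id R)

theorem St.mapI_x (e : I ↪ I') (i j : I) (r : R) :
    St.mapI R e (x ∅ i j r) = x ∅ (e i) (e j) r := by
  by_cases h : Ok (∅ : Set I) i j
  · exact P.map_x _ _ _ _ h r
  · rw [x_triv h, x_triv (by simpa using h), map_one]

theorem St.mapR_mapR {R'' : Type} [Ring R''] (φ : R →+* R') (ψ : R' →+* R'') (g : St I R) :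
    St.mapR I ψ (St.mapR I φ g) = St.mapR I (ψ.comp φ) g := by
  have : (St.mapR I ψ).comp (St.mapR I φ) = St.mapR I (ψ.comp φ) :=
    P.hom_ext fun i j r _ => by simp [St.mapR_x]
  exact DFunLike.congr_fun this g

end defs

section mat

variable {I : Type} [Fintype I] [DecidableEq I] {R : Type} [Ring R] {K : Set I}

/-- elementary matrices as units -/
def elem (i j : I) (r : R) : (Matrix I I R)ˣ :=
  if h : i = j then 1 else
    ⟨1 + Matrix.single i j r, 1 - Matrix.single i j r,
      by simp [mul_sub, add_mul, Matrix.single_mul_single_of_ne _ _ _ _ (Ne.symm h)],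
      by simp [sub_mul, mul_add, Matrix.single_mul_single_of_ne _ _ _ _ (Ne.symm h)]⟩

theorem elem_val {i j : I} (h : i ≠ j) (r : R) :
    (elem i j r : Matrix I I R) = 1 + Matrix.single i j r := by simp [elem, h]

theorem elem_inv_val {i j : I} (h : i ≠ j) (r : R) :
    ((elem i j r)⁻¹ : (Matrix I I R)ˣ) = 1 - Matrix.single i j r := by simp [elem, h]

theorem isSt_elem : IsSt K (elem : I → I → R → (Matrix I I R)ˣ) where
  add i j r s h := Units.ext (by
    simp [elem_val h.1, add_mul, mul_add, Matrix.single_mul_single_of_ne _ _ _ _ (Ne.symm h.1),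
      Matrix.single_add]
    abel)
  comm i j k l r s h h' h1 h2 := Units.ext (by
    simp [elem_val h.1, elem_val h'.1, add_mul, mul_add, Matrix.single_mul_single_of_ne _ _ _ _ h1,
      Matrix.single_mul_single_of_ne _ _ _ _ (Ne.symm h2)]
    abel)
  mul i j k r s h h' h1 := Units.ext (by
    simp only [commutatorElement_def, Units.val_mul, elem_val h.1, elem_val h'.1, elem_val h1,
      elem_inv_val h.1, elem_inv_val h'.1]
    simp [add_mul, mul_add, mul_sub, sub_mul,
      Matrix.single_mul_single_of_ne _ _ _ _ (Ne.symm h1),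
      Matrix.single_mul_single_of_ne _ _ _ _ (Ne.symm h.1),
      Matrix.single_mul_single_of_ne _ _ _ _ (Ne.symm h'.1)]
    abel)

/-- the matrix of an element, as a unit -/
noncomputable def matU (K : Set I) : P R K →* (Matrix I I R)ˣ := P.lift elem isSt_elem

/-- the matrix of an element -/
noncomputable def mat (K : Set I) : P R K →* Matrix I I R := (Units.coeHom _).comp (matU K)

theorem val_matU (g : P R K) : (matU K g : Matrix I I R) = mat K g := rfl

theorem mat_x {i j : I} (h : Ok K i j) (r : R) : mat K (x K i j r) = 1 + Matrix.single i j r := by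
  rw [← val_matU, matU, P.lift_x _ _ h, elem_val h.1]

theorem mat_mul_inv (g : P R K) : mat K g * mat K g⁻¹ = 1 := by rw [← map_mul, mul_inv_cancel, map_one]

theorem mat_inv_mul (g : P R K) : mat K g⁻¹ * mat K g = 1 := by rw [← map_mul, inv_mul_cancel, map_one]

theorem mat_res {K L : Set I} (h : L ⊆ K) (g : P R K) : mat L (P.res h g) = mat K g := by
  have : (mat L).comp (P.res h) = (mat K : P R K →* _) := P.hom_ext fun i j r hij => by
    rw [MonoidHom.comp_apply, P.res_x h hij, mat_x hij, mat_x ⟨hij.1, fun hj => hij.2 (h hj)⟩]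
  exact DFunLike.congr_fun this g

theorem mat_mapR {R' : Type} [Ring R'] (φ : R →+* R') (g : St I R) :
    mat ∅ (St.mapR I φ g) = (mat ∅ g).map φ := by
  have : (mat ∅).comp (St.mapR I φ) = (φ.mapMatrix : Matrix I I R →+* _).toMonoidHom.comp (mat ∅) :=
    P.hom_ext fun i j r hij => by
      simp [St.mapR_x, mat_x hij, Matrix.map_add, Matrix.map_single]
  exact DFunLike.congr_fun this g

/-- `M` is supported on `A × B` -/
def Supp (M : Matrix I I R) (A B : Set I) : Prop := ∀ a b, M a b ≠ 0 → a ∈ A ∧ b ∈ B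

omit [Fintype I] [DecidableEq I] in
theorem Supp.zero (A B : Set I) : Supp (0 : Matrix I I R) A B := fun _ _ h => absurd rfl h

omit [Fintype I] [DecidableEq I] in
theorem Supp.add {M N : Matrix I I R} {A B : Set I} (h : Supp M A B) (h' : Supp N A B) :
    Supp (M + N) A B := fun a b hab => by
  by_cases h1 : M a b = 0
  · exact h' a b (by simpa [h1] using hab)
  · exact h a b h1

omit [Fintype I] [DecidableEq I] in
theorem Supp.neg {M : Matrix I I R} {A B : Set I} (h : Supp M A B) : Supp (-M) A B :=
  fun a b hab => h a b (by simpa using hab)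

omit [Fintype I] [DecidableEq I] in
theorem Supp.mono {M : Matrix I I R} {A B A' B' : Set I} (h : Supp M A B) (hA : A ⊆ A')
    (hB : B ⊆ B') : Supp M A' B' := fun a b hab => ⟨hA (h a b hab).1, hB (h a b hab).2⟩

omit [Fintype I] in
theorem Supp.single {A B : Set I} {a b : I} (ha : a ∈ A) (hb : b ∈ B) (r : R) :
    Supp (Matrix.single a b r) A B := fun a' b' h => by
  by_cases h1 : a = a' ∧ b = b'
  · exact ⟨h1.1 ▸ ha, h1.2 ▸ hb⟩
  · exact absurd (by simp [h1]) h

omit [DecidableEq I] in
theorem Supp.mul_eq_zero {M N : Matrix I I R} {A B A' B' : Set I} (h : Supp M A B)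
    (h' : Supp N A' B') (hd : Disjoint B A') : M * N = 0 := by
  ext a b
  rw [Matrix.mul_apply, Matrix.zero_apply]
  refine Finset.sum_eq_zero fun c _ => ?_
  by_cases h1 : M a c = 0
  · rw [h1, zero_mul]
  · by_cases h2 : N c b = 0
    · rw [h2, mul_zero]
    · exact absurd (h' c b h2).1 (Set.disjoint_left.1 hd (h a c h1).2)

/-- induction on matrices with support in `A × B` -/
theorem Supp.induction {A B : Set I} {C : Matrix I I R → Prop} (h0 : C 0)
    (h1 : ∀ a b r, a ∈ A → b ∈ B → C (Matrix.single a b r))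
    (hadd : ∀ M N, Supp M A B → Supp N A B → C M → C N → C (M + N)) {M : Matrix I I R}
    (hM : Supp M A B) : C M := by
  have key : ∀ s : Finset (I × I), Supp (∑ p ∈ s, Matrix.single p.1 p.2 (M p.1 p.2)) A B ∧
      C (∑ p ∈ s, Matrix.single p.1 p.2 (M p.1 p.2)) := by
    intro s
    induction s using Finset.induction_on with
    | empty => exact ⟨Supp.zero A B, h0⟩
    | insert p s hp ih =>
      rw [Finset.sum_insert hp]
      by_cases h : M p.1 p.2 = 0
      · simpa [h] using ih
      · have hs := Supp.single (hM _ _ h).1 (hM _ _ h).2 (M p.1 p.2)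
        exact ⟨hs.add ih.1, hadd _ _ hs ih.1 (h1 _ _ _ (hM _ _ h).1 (hM _ _ h).2) ih.2⟩
  have := (key Finset.univ).2
  rwa [← Finset.univ_product_univ, Finset.sum_product, ← Matrix.matrix_eq_sum_single] at this

/-- the subgroup generated by the `x a b r`, `a ∈ A`, `b ∈ B` -/
def U (R : Type) [Ring R] (K A B : Set I) : Subgroup (P R K) :=
  Subgroup.closure {g | ∃ a ∈ A, ∃ b ∈ B, ∃ r : R, g = x K a b r}

omit [Fintype I] [DecidableEq I] in
theorem x_mem_U {A B : Set I} {a b : I} (ha : a ∈ A) (hb : b ∈ B) (r : R) :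
    x K a b r ∈ U R K A B := Subgroup.subset_closure ⟨a, ha, b, hb, r, rfl⟩

omit [Fintype I] [DecidableEq I] in
theorem U_le {A B : Set I} {H : Subgroup (P R K)}
    (h : ∀ a ∈ A, ∀ b ∈ B, ∀ r, Ok K a b → x K a b r ∈ H) : U R K A B ≤ H := by
  refine (Subgroup.closure_le _).2 ?_
  rintro _ ⟨a, ha, b, hb, r, rfl⟩
  by_cases hab : Ok K a b
  · exact h a ha b hb r hab
  · rw [x_triv hab]; exact one_mem H

omit [Fintype I] [DecidableEq I] in
theorem U_mono {A B A' B' : Set I} (hA : A ⊆ A') (hB : B ⊆ B') : U R K A B ≤ U R K A' B' :=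
  U_le fun _ ha _ hb r _ => x_mem_U (hA ha) (hB hb) r

omit [Fintype I] [DecidableEq I] in
/-- `U(A,B)` commutes with `U(A',B')` when `B ∩ A' = ∅ = A ∩ B'` -/
theorem U_commute {A B A' B' : Set I} (h : Disjoint B A') (h' : Disjoint A B') {g g' : P R K}
    (hg : g ∈ U R K A B) (hg' : g' ∈ U R K A' B') : Commute g g' := by
  have h1 : U R K A B ≤ Subgroup.centralizer (U R K A' B') := U_le fun a ha b hb r _ => by
    have h2 : U R K A' B' ≤ Subgroup.centralizer {x K a b r} := U_le fun a' ha' b' hb' s _ => by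
      rw [Subgroup.mem_centralizer_singleton_iff]
      exact (x_comm (h.ne_of_mem hb ha') (h'.ne_of_mem ha hb') r s).symm
    intro y hy
    exact Subgroup.mem_centralizer_singleton_iff.1 (h2 hy)
  exact (h1 hg g' hg').symm

omit [Fintype I] [DecidableEq I] in
theorem conj_x_mem_U {A B : Set I} (hd : Disjoint A B) {a b : I} (h1 : b ∈ A → a ∈ A)
    (h2 : a ∈ B → b ∈ B) (r : R) {g : P R K} (hg : g ∈ U R K A B) :
    x K a b r * g * (x K a b r)⁻¹ ∈ U R K A B := by
  by_cases hab : Ok K a b
  swap
  · simpa [x_triv hab] using hg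
  have : U R K A B ≤ (U R K A B).comap (MulAut.conj (x K a b r)).toMonoidHom :=
    U_le fun c hc d hd' s hcd => by
      change x K a b r * x K c d s * (x K a b r)⁻¹ ∈ U R K A B
      by_cases e1 : b = c
      · subst e1
        have had : a ≠ d := fun e => Set.disjoint_left.1 hd (h1 hc) (e ▸ hd')
        rw [x_conj_left hab hcd had]
        exact mul_mem (x_mem_U (h1 hc) hd' _) (x_mem_U hc hd' _)
      · by_cases e2 : a = d
        · subst e2
          rw [x_conj_right hcd hab (Ne.symm e1)]
          exact mul_mem (x_mem_U hc (h2 hd') _) (x_mem_U hc hd' _)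
        · rw [(x_comm e1 e2 r s).eq, mul_inv_cancel_right]
          exact x_mem_U hc hd' _
  exact this hg

omit [Fintype I] [DecidableEq I] in
/-- the normalisation lemma -/
theorem x_mem_normalizer {A B : Set I} (hd : Disjoint A B) {a b : I} (h1 : b ∈ A → a ∈ A)
    (h2 : a ∈ B → b ∈ B) (r : R) : x K a b r ∈ Subgroup.normalizer (U R K A B : Set (P R K)) := by
  refine Subgroup.mem_normalizer_iff.2 fun g => ⟨conj_x_mem_U hd h1 h2 r, fun hg => ?_⟩
  have := conj_x_mem_U hd h1 h2 (-r) hg
  rw [x_neg] at this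
  simpa [mul_assoc] using this

omit [Fintype I] [DecidableEq I] in
theorem conj_mem_U {A B : Set I} {y g : P R K}
    (hy : y ∈ Subgroup.normalizer (U R K A B : Set (P R K))) (hg : g ∈ U R K A B) :
    y * g * y⁻¹ ∈ U R K A B := (Subgroup.mem_normalizer_iff.1 hy g).1 hg

omit [DecidableEq I] in
/-- the product of all `x a b (M a b)` in a fixed order -/
noncomputable def blk (K : Set I) (M : Matrix I I R) : P R K :=
  ((Finset.univ : Finset (I × I)).toList.map fun p => x K p.1 p.2 (M p.1 p.2)).prod

omit [DecidableEq I] in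
theorem blk_mem (H : Subgroup (P R K)) {M : Matrix I I R}
    (h : ∀ a b, M a b ≠ 0 → x K a b (M a b) ∈ H) : blk K M ∈ H := by
  refine Subgroup.list_prod_mem H fun g hg => ?_
  obtain ⟨p, -, rfl⟩ := List.mem_map.1 hg
  by_cases h0 : M p.1 p.2 = 0
  · rw [h0, x_zero]; exact one_mem H
  · exact h _ _ h0

omit [DecidableEq I] in
theorem blk_mem_U {M : Matrix I I R} {A B : Set I} (h : Supp M A B) : blk K M ∈ U R K A B :=
  blk_mem _ fun a b hab => x_mem_U (h a b hab).1 (h a b hab).2 _

omit [DecidableEq I] in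
@[simp] theorem blk_zero : blk K (0 : Matrix I I R) = 1 := by simp [blk]

omit [DecidableEq I] in
theorem blk_add {M N : Matrix I I R} {A B : Set I} (hd : Disjoint A B) (hM : Supp M A B)
    (hN : Supp N A B) : blk K (M + N) = blk K M * blk K N := by
  unfold blk
  have hx : ∀ {M : Matrix I I R}, Supp M A B → ∀ p : I × I, x K p.1 p.2 (M p.1 p.2) ∈ U R K A B := by
    intro M hM p
    by_cases h0 : M p.1 p.2 = 0
    · rw [h0, x_zero]; exact one_mem _
    · exact x_mem_U (hM _ _ h0).1 (hM _ _ h0).2 _
  induction (Finset.univ : Finset (I × I)).toList with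
  | nil => simp
  | cons p l ih =>
    simp only [List.map_cons, List.prod_cons, ih]
    have hc : Commute (x K p.1 p.2 (N p.1 p.2)) (l.map fun p => x K p.1 p.2 (M p.1 p.2)).prod :=
      U_commute hd.symm hd (hx hN p) (Subgroup.list_prod_mem _ fun g hg => by
        obtain ⟨q, -, rfl⟩ := List.mem_map.1 hg
        exact hx hM q)
    rw [Matrix.add_apply, x_add, mul_assoc, mul_assoc, ← mul_assoc (x K p.1 p.2 (N p.1 p.2)), hc.eq,
      mul_assoc]

theorem blk_single (a b : I) (r : R) : blk K (Matrix.single a b r) = x K a b r := by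
  unfold blk
  rw [List.prod_map_eq_pow_single (a, b)]
  · simp [List.count_eq_one_of_mem (Finset.nodup_toList _)]
  · intro p hp _
    rw [Matrix.single_apply_of_ne, x_zero]
    rintro ⟨rfl, rfl⟩
    exact hp rfl

theorem mat_blk {M : Matrix I I R} {A B : Set I} (hd : Disjoint A B) (hK : Disjoint B K)
    (hM : Supp M A B) : mat K (blk K M) = 1 + M := by
  refine Supp.induction (C := fun M => mat K (blk K M) = 1 + M) (by simp) ?_ ?_ hM
  · intro a b r ha hb
    rw [blk_single, mat_x ⟨hd.ne_of_mem ha hb, Set.disjoint_left.1 hK hb⟩]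
  · intro M N hM hN h1 h2
    rw [blk_add hd hM hN, map_mul, h1, h2, add_mul, mul_add, mul_add, hM.mul_eq_zero hN hd.symm]
    simp only [one_mul, mul_one, add_zero]
    abel

theorem exists_blk_of_mem_U {A B : Set I} (hd : Disjoint A B) {g : P R K} (hg : g ∈ U R K A B) :
    ∃ M, Supp M A (B \ K) ∧ g = blk K M := by
  have hd' : Disjoint A (B \ K) := hd.mono_right Set.sdiff_subset
  let H : Subgroup (P R K) :=
    { carrier := {g | ∃ M, Supp M A (B \ K) ∧ g = blk K M}
      one_mem' := ⟨0, Supp.zero _ _, by simp⟩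
      mul_mem' := by
        rintro _ _ ⟨M, hM, rfl⟩ ⟨N, hN, rfl⟩
        exact ⟨M + N, hM.add hN, (blk_add hd' hM hN).symm⟩
      inv_mem' := by
        rintro _ ⟨M, hM, rfl⟩
        refine ⟨-M, hM.neg, ?_⟩
        rw [inv_eq_iff_mul_eq_one, ← blk_add hd' hM hM.neg, add_neg_cancel, blk_zero] }
  exact U_le (H := H) (fun a ha b hb r hab =>
    ⟨Matrix.single a b r, Supp.single ha (Set.mem_sdiff_of_mem hb hab.2) r, (blk_single a b r).symm⟩) hg

/-- (U): the unipotent subgroups embed into matrices -/
theorem U_eq_one {A B : Set I} (hd : Disjoint A B) {g : P R K} (hg : g ∈ U R K A B)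
    (h : mat K g = 1) : g = 1 := by
  obtain ⟨M, hM, rfl⟩ := exists_blk_of_mem_U hd hg
  rw [mat_blk (hd.mono_right Set.sdiff_subset) Set.disjoint_sdiff_left hM] at h
  rw [show M = 0 by simpa using h, blk_zero]

theorem U_inj {A B : Set I} (hd : Disjoint A B) {g g' : P R K} (hg : g ∈ U R K A B)
    (hg' : g' ∈ U R K A B) (h : mat K g = mat K g') : g = g' := by
  rw [← mul_inv_eq_one]
  refine U_eq_one hd (mul_mem hg (inv_mem hg')) ?_
  rw [map_mul, h, mat_mul_inv]

/-- a homomorphism on a block element -/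
theorem map_blk {I' R' : Type} [Fintype I'] [DecidableEq I'] [Ring R'] {K' : Set I'}
    (F : P R K →* P R' K') (T : Matrix I I R →+ Matrix I' I' R') {A B : Set I} {A' B' : Set I'}
    (hd : Disjoint A B) (hd' : Disjoint A' B') (hT : ∀ M, Supp M A B → Supp (T M) A' B')
    (h : ∀ a ∈ A, ∀ b ∈ B, ∀ r, F (x K a b r) = blk K' (T (Matrix.single a b r)))
    {M : Matrix I I R} (hM : Supp M A B) : F (blk K M) = blk K' (T M) := by
  refine Supp.induction (C := fun M => F (blk K M) = blk K' (T M)) (by simp) ?_ ?_ hM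
  · intro a b r ha hb
    rw [blk_single, h a ha b hb]
  · intro M N hM hN h1 h2
    rw [blk_add hd hM hN, map_mul, h1, h2, map_add, blk_add hd' (hT _ hM) (hT _ hN)]

end mat

/-- An augmented ring whose elements of augmentation `1` are units (so it is local). -/
structure Aug {R : Type} [Ring R] (ε : R →+* ZMod 2) : Prop where
  unit : ∀ r, ε r ≠ 0 → IsUnit r

theorem Aug.isUnit_iff {R : Type} [Ring R] {ε : R →+* ZMod 2} (h : Aug ε) (r : R) :
    IsUnit r ↔ ε r ≠ 0 := ⟨fun hr => (hr.map ε).ne_zero, h.unit r⟩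

end Crest.Agent.R176
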