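import Crest.Agent.R176.Alg
import Crest.Agent.R176.StDef

/-! Row 176, group half: ring-theoretic facts on `S.Alg` (characteristic, local, truncations). -/

set_option autoImplicit false

namespace Crest.Agent.R176

namespace Sys

variable {X Sig : Type} (S : Sys X Sig)

instance nontrivial_alg : Nontrivial S.Alg := S.eps.toRingHom.domain_nontrivial

instance charP_alg : CharP S.Alg 2 :=
  charP_of_injective_algebraMap (algebraMap (ZMod 2) S.Alg).injective 2

/-- the augmentation as a ring hom -/
noncomputable def epsR : S.Alg →+* ZMod 2 := S.eps.toRingHom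

@[simp] theorem epsR_apply (r : S.Alg) : S.epsR r = S.eps r := rfl

theorem aug_of_nil (h : S.NIL) : Aug S.epsR where
  unit r hr := by
    have h1 : S.eps r = 1 := by
      have : ∀ a : ZMod 2, a ≠ 0 → a = 1 := by decide
      exact this _ hr
    obtain ⟨n, hn⟩ := h Unit (Matrix.of fun _ _ => 1 - r) (fun _ _ => by simp [h1])
    have h2 : IsNilpotent (1 - r) := by
      refine ⟨n, ?_⟩
      have key : ∀ k, ((Matrix.of fun _ _ => 1 - r : Matrix Unit Unit S.Alg) ^ k) () () = (1 - r) ^ k := by
        intro k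
        induction k with
        | zero => simp
        | succ k ih => rw [pow_succ, Matrix.mul_apply, pow_succ]; simp [ih]
      rw [← key, hn]; rfl
    simpa using h2.isUnit_one_sub

/-- the span of the monomials of length at least `d` -/
noncomputable def deep (d : ℕ) : Submodule (ZMod 2) S.Alg :=
  Submodule.span (ZMod 2) {r | ∃ w : List X, d ≤ w.length ∧ S.mono w = r}

theorem mul_mem_deep {d : ℕ} {r : S.Alg} (hr : r ∈ S.deep d) (a b : S.Alg) : a * r * b ∈ S.deep d := by
  have ha : a ∈ Submodule.span (ZMod 2) (Set.range S.mono) := by rw [span_mono]; trivial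
  have hb : b ∈ Submodule.span (ZMod 2) (Set.range S.mono) := by rw [span_mono]; trivial
  have h := Submodule.mul_mem_mul (Submodule.mul_mem_mul ha hr) hb
  rw [deep, Submodule.span_mul_span, Submodule.span_mul_span] at h
  refine Submodule.span_mono ?_ h
  rintro _ ⟨_, ⟨_, ⟨u, rfl⟩, _, ⟨w, hw, rfl⟩, rfl⟩, _, ⟨v, rfl⟩, rfl⟩
  exact ⟨u ++ w ++ v, by simp; omega, by simp [mono_append, mul_assoc]⟩

theorem exists_not_mem_deep {r : S.Alg} (hr : r ≠ 0) : ∃ d, r ∉ S.deep d := by
  classical
  obtain ⟨i, hi⟩ : ∃ i, GradedAlgebra.proj S.grade i r ≠ 0 := by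
    by_contra h
    push Not at h
    apply hr
    rw [← DirectSum.sum_support_decompose S.grade r]
    exact Finset.sum_eq_zero fun i _ => h i
  refine ⟨i + 1, fun hd => hi ?_⟩
  have : S.deep (i + 1) ≤ LinearMap.ker (GradedAlgebra.proj S.grade i) := by
    refine Submodule.span_le.2 ?_
    rintro _ ⟨w, hw, rfl⟩
    exact DirectSum.decompose_of_mem_ne S.grade (S.mono_mem_grade w) (by omega)
  exact this hd

theorem eps_eq_zero_of_mem_deep {d : ℕ} (hd : 1 ≤ d) {r : S.Alg} (hr : r ∈ S.deep d) :
    S.eps r = 0 := by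
  have : S.deep d ≤ LinearMap.ker S.eps.toLinearMap := by
    refine Submodule.span_le.2 ?_
    rintro _ ⟨w, hw, rfl⟩
    cases w with
    | nil => simp at hw; omega
    | cons a w => simp [eps]
  exact this hr

/-- the finite truncation `S.Alg / deep d` -/
theorem exists_trunc [Finite X] (d : ℕ) :
    ∃ (Rb : Type) (_ : Ring Rb) (_ : Finite Rb) (π : S.Alg →+* Rb), Function.Surjective π ∧
      ∀ r, π r = 0 ↔ r ∈ S.deep d := by
  let J : TwoSidedIdeal S.Alg := TwoSidedIdeal.mk' (S.deep d) (zero_mem _) (add_mem · ·) (neg_mem ·)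
    (fun {a r} hr => by simpa using S.mul_mem_deep hr a 1)
    (fun {r b} hr => by simpa using S.mul_mem_deep hr 1 b)
  have hJ : ∀ r, J.ringCon.mk' r = 0 ↔ r ∈ S.deep d := fun r => by
    rw [← map_zero J.ringCon.mk']
    exact (RingCon.eq _).trans ((J.mem_iff r).symm.trans (TwoSidedIdeal.mem_mk' _ _ _ _ _ _ r))
  refine ⟨J.ringCon.Quotient, inferInstance, ?_, J.ringCon.mk', fun q => Quotient.exists_rep q, hJ⟩
  let T : Submodule (ZMod 2) S.Alg := Submodule.span (ZMod 2) (S.mono '' {w | w.length ≤ d})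
  have hT : Finite T := by
    have := Module.Finite.span_of_finite (ZMod 2) ((List.finite_length_le X d).image S.mono)
    exact Module.finite_of_finite (ZMod 2)
  refine Finite.of_surjective (fun t : T => J.ringCon.mk' t) fun q => ?_
  obtain ⟨r, rfl⟩ : ∃ r, J.ringCon.mk' r = q := Quotient.exists_rep q
  have hr : r ∈ T ⊔ S.deep d := by
    have : (⊤ : Submodule (ZMod 2) S.Alg) ≤ T ⊔ S.deep d := by
      rw [← span_mono]
      refine Submodule.span_le.2 ?_
      rintro _ ⟨w, rfl⟩
      rcases le_total w.length d with h | h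
      · exact Submodule.mem_sup_left (Submodule.subset_span ⟨w, h, rfl⟩)
      · exact Submodule.mem_sup_right (Submodule.subset_span ⟨w, h, rfl⟩)
    exact this trivial
  obtain ⟨t, ht, s, hs, rfl⟩ := Submodule.mem_sup.1 hr
  exact ⟨⟨t, ht⟩, by rw [map_add, (hJ s).2 hs, add_zero]⟩

end Sys

end Crest.Agent.R176
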