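import Crest.Agent.R176.StAlg

/-! Row 176, group half: the Steinberg group of `S.Alg` is finitely presented. -/

set_option autoImplicit false

namespace Crest.Agent.R176

open scoped commutatorElement

variable {X Sig : Type} (S : Sys X Sig) {I : Type} [Fintype I] [DecidableEq I]

/-- the generators of degree at most one -/
noncomputable def Sys.gen (a : Option X) : S.Alg := a.elim 1 S.ι

theorem fp_fresh {n : ℕ} (hI : n + 1 ≤ Fintype.card I) (l : List I) (hl : l.length ≤ n) :
    ∃ m, m ∉ l := by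
  by_contra h
  push Not at h
  have := (Finset.card_le_card (s := Finset.univ) (t := l.toFinset) fun m _ =>
    List.mem_toFinset.2 (h m)).trans l.toFinset_card_le
  rw [Finset.card_univ] at this
  omega

theorem Sys.fp_induction {C : S.Alg → Prop} (h0 : C 0) (hm : ∀ w, C (S.mono w))
    (ha : ∀ r s, C r → C s → C (r + s)) (r : S.Alg) : C r := by
  have hr : r ∈ Submodule.span (ZMod 2) (Set.range S.mono) := by rw [S.span_mono]; trivial
  induction hr using Submodule.span_induction with
  | mem r hr => obtain ⟨w, rfl⟩ := hr; exact hm w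
  | zero => exact h0
  | add r s _ _ h1 h2 => exact ha r s h1 h2
  | smul c r _ h =>
    rcases (by decide : ∀ c : ZMod 2, c = 0 ∨ c = 1) c with rfl | rfl
    · rwa [zero_smul]
    · rwa [one_smul]

/-- Every element is a product of generators `x i j 1`, `x i j (ι a)` (they are involutions,
`x_inv`).  Proof: the set of such products is a subgroup (reverse the list for the inverse); it
contains `x i j (mono w)` by induction on `w` (`x i j (ι a * mono w) = ⁅x i k (ι a), x k j (mono w)⁆`),
hence all `x i j r` by `span_mono` (scalars are `0, 1`), then `P.mem_of_x`. -/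
theorem St_exists_list (hI : 3 ≤ Fintype.card I) (g : St I S.Alg) :
    ∃ l : List (I × I × Option X), g = (l.map fun p => x ∅ p.1 p.2.1 (S.gen p.2.2)).prod := by
  let H : Subgroup (St I S.Alg) :=
    { carrier := {g | ∃ l : List (I × I × Option X),
        g = (l.map fun p => x ∅ p.1 p.2.1 (S.gen p.2.2)).prod}
      mul_mem' := by
        rintro _ _ ⟨l, rfl⟩ ⟨l', rfl⟩
        exact ⟨l ++ l', by simp⟩
      one_mem' := ⟨[], rfl⟩
      inv_mem' := by
        rintro _ ⟨l, rfl⟩
        exact ⟨l.reverse, by simp [List.prod_inv_reverse, Function.comp_def, x_inv]⟩ }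
  have h1 : ∀ i j a, x ∅ i j (S.gen a) ∈ H := fun i j a => ⟨[(i, j, a)], by simp⟩
  have h2 : ∀ w i j, i ≠ j → x ∅ i j (S.mono w) ∈ H := by
    intro w
    induction w with
    | nil => exact fun i j _ => h1 i j none
    | cons a w ih =>
      intro i j hij
      obtain ⟨k, hk⟩ := fp_fresh hI [i, j] le_rfl
      simp only [List.mem_cons, List.not_mem_nil, or_false, not_or] at hk
      rw [S.mono_cons, ← x_mul (j := k) (ok_empty.2 (Ne.symm hk.1)) (ok_empty.2 hk.2) hij,
        commutatorElement_def]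
      exact mul_mem (mul_mem (mul_mem (h1 i k (some a)) (ih k j hk.2)) (inv_mem (h1 i k (some a))))
        (inv_mem (ih k j hk.2))
  refine P.mem_of_x H (fun i j r hij => ?_) g
  induction r using S.fp_induction with
  | h0 => rw [x_zero]; exact one_mem _
  | hm w => exact h2 w i j hij.1
  | ha r s hr hs => rw [x_add]; exact mul_mem hr hs

section fp

variable {Γ : Type} [Group Γ]

theorem fp_star {α β γ : Γ} (h1 : Commute α γ) (h2 : Commute ⁅α, β⁆ ⁅β, γ⁆)
    (h3 : Commute γ ⁅β, γ⁆) : ⁅α, ⁅β, γ⁆⁆ = ⁅⁅α, β⁆, γ⁆ := by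
  have e1 : α * ⁅β, γ⁆ * α⁻¹ = ⁅α, β⁆ * (⁅β, γ⁆ * γ) * ⁅α, β⁆⁻¹ * γ⁻¹ := by
    have : α * ⁅β, γ⁆ * α⁻¹ = α * β * α⁻¹ * (α * γ * α⁻¹) * α * β⁻¹ * α⁻¹ * (α * γ * α⁻¹)⁻¹ := by
      simp only [commutatorElement_def]; group
    rw [this, h1.mul_inv_cancel]
    simp only [commutatorElement_def]
    group
  rw [commutatorElement_def α, e1, ← h3.eq, commutatorElement_def ⁅α, β⁆]
  simp only [mul_assoc]
  rw [← mul_assoc ⁅β, γ⁆, ← h2.inv_left.eq, mul_assoc, ← mul_assoc ⁅β, γ⁆, ← h3.inv_left.eq]
  group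

theorem fp_comm {α β γ : Γ} (h1 : Commute α γ) (h2 : Commute β γ) : Commute ⁅α, β⁆ γ := by
  rw [commutatorElement_def]
  exact ((h1.mul_left h2).mul_left h1.inv_left).mul_left h2.inv_left

/-- the finitely many relations -/
structure Sys.Base (y : I → I → Option X → Γ) : Prop where
  comm : ∀ i j k l a b, j ≠ k → i ≠ l → Commute (y i j a) (y k l b)
  left : ∀ i j k a, i ≠ j → j ≠ k → i ≠ k → ⁅y i j none, y j k a⁆ = y i k a
  right : ∀ i j k a, i ≠ j → j ≠ k → i ≠ k → ⁅y i j a, y j k none⁆ = y i k a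
  sq : ∀ i j, y i j none * y i j none = 1
  step : ∀ i j k a b a' b', i ≠ j → j ≠ k → i ≠ k → S.rule a b (some (a', b')) →
    ⁅y i j (some a), y j k (some b)⁆ = ⁅y i j (some a'), y j k (some b')⁆
  kill : ∀ i j k a b, i ≠ j → j ≠ k → i ≠ k → S.rule a b none →
    ⁅y i j (some a), y j k (some b)⁆ = 1

/-- the element of a monomial -/
def fpY (y : I → I → Option X → Γ) (m : I → I → I) : List X → I → I → Γ
  | [], i, j => y i j none
  | a :: w, i, j => ⁅y i (m i j) (some a), fpY y m w (m i j) j⁆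

variable {S} {y : I → I → Option X → Γ} {μ : I → I → I}

/-- independence of the middle index -/
def FpI (y : I → I → Option X → Γ) (μ : I → I → I) (d : ℕ) : Prop :=
  ∀ i j m a w, i ≠ j → m ≠ i → m ≠ j → w.length < d →
    fpY y μ (a :: w) i j = ⁅y i m (some a), fpY y μ w m j⁆

def FpM (y : I → I → Option X → Γ) (μ : I → I → I) (d : ℕ) : Prop :=
  ∀ i j k u v, i ≠ j → j ≠ k → i ≠ k → u.length + v.length ≤ d →
    ⁅fpY y μ u i j, fpY y μ v j k⁆ = fpY y μ (u ++ v) i k

def FpC (y : I → I → Option X → Γ) (μ : I → I → I) (d : ℕ) : Prop :=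
  ∀ i j k l a v, i ≠ j → k ≠ l → j ≠ k → i ≠ l → v.length ≤ d →
    Commute (y i j a) (fpY y μ v k l)

theorem fp_fresh4 (hI : 5 ≤ Fintype.card I) (i j k l : I) : ∃ m, m ≠ i ∧ m ≠ j ∧ m ≠ k ∧ m ≠ l := by
  simpa using fp_fresh hI [i, j, k, l] le_rfl

theorem fp_D (hI : 5 ≤ Fintype.card I) {d d' : ℕ} (h1 : FpI y μ d) (h2 : FpC y μ d')
    (u v : List X) (i j k l : I) (hij : i ≠ j) (hkl : k ≠ l) (hjk : j ≠ k) (hil : i ≠ l)
    (hu : u.length ≤ d) (hv : v.length ≤ d') : Commute (fpY y μ u i j) (fpY y μ v k l) := by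
  induction u generalizing i with
  | nil => exact h2 _ _ _ _ _ _ hij hkl hjk hil hv
  | cons a u ih =>
    obtain ⟨m, m1, m2, m3, m4⟩ := fp_fresh4 hI i j k l
    rw [h1 i j m a u hij m1 m2 hu]
    exact fp_comm (h2 _ _ _ _ _ _ m1.symm hkl m3 hil hv) (ih m m2 m4 (Nat.le_of_succ_le hu))

theorem fp_main (hI : 5 ≤ Fintype.card I) (h : S.Base y) (hμ : ∀ i j, μ i j ≠ i ∧ μ i j ≠ j)
    (d : ℕ) : FpI y μ d ∧ FpM y μ d ∧ FpC y μ d := by
  induction d with
  | zero =>
    refine ⟨fun _ _ _ _ _ _ _ _ h => absurd h (Nat.not_lt_zero _), ?_, ?_⟩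
    · intro i j k u v hij hjk hik hl
      obtain rfl : u = [] := List.length_eq_zero_iff.1 (by omega)
      obtain rfl : v = [] := List.length_eq_zero_iff.1 (by omega)
      exact h.left i j k none hij hjk hik
    · intro i j k l a v _ _ hjk hil hl
      obtain rfl : v = [] := List.length_eq_zero_iff.1 (by omega)
      exact h.comm _ _ _ _ _ _ hjk hil
  | succ d ih =>
    obtain ⟨hI0, hM0, hC0⟩ := ih
    have hI1 : FpI y μ (d + 1) := by
      intro i j m' a w hij m1 m2 hw
      replace hw := Nat.le_of_lt_succ hw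
      obtain ⟨n1, n2⟩ := hμ i j
      change ⁅_, _⁆ = _
      generalize μ i j = m at n1 n2 ⊢
      by_cases hm : m = m'
      · rw [hm]
      have e1 : ⁅y m m' none, fpY y μ w m' j⁆ = fpY y μ w m j :=
        hM0 m m' j [] w hm m2 n2 (by simpa using hw)
      have e2 := h.right i m m' (some a) n1.symm hm m1.symm
      rw [← e1, fp_star (hC0 _ _ _ _ _ _ n1.symm m2 hm hij hw), e2]
      · rw [e1, e2]
        exact hC0 _ _ _ _ _ _ m1.symm n2 (Ne.symm hm) hij hw
      · rw [e1]
        exact fp_D hI hI0 hC0 _ _ _ _ _ _ m2 n2 n2.symm m2 hw hw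
    have hC1 : FpC y μ (d + 1) := by
      intro i j k l a v hij hkl hjk hil hv
      cases v with
      | nil => exact h.comm _ _ _ _ _ _ hjk hil
      | cons b v =>
        obtain ⟨m, m1, m2, m3, m4⟩ := fp_fresh4 hI i j k l
        rw [hI1 k l m b v hkl m3 m4 hv]
        exact (fp_comm (h.comm _ _ _ _ _ _ hjk m1.symm).symm
          (hC0 _ _ _ _ _ _ hij m4 m2.symm hil (Nat.le_of_succ_le_succ hv)).symm).symm
    refine ⟨hI1, ?_, hC1⟩
    intro i j k u v hij hjk hik hl
    obtain ⟨m, m1, m2, m3, -⟩ := fp_fresh4 hI i j k k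
    cases u with
    | nil =>
      cases v with
      | nil => exact h.left i j k none hij hjk hik
      | cons a v =>
        have hv : v.length ≤ d := by simp at hl; omega
        have e1 := hI1 j k m a v hjk m2 m3 (by omega)
        have e2 := h.left i j m (some a) hij m2.symm m1.symm
        rw [List.nil_append, hI1 i k m a v hik m1 m3 (by omega), e1, ← e2]
        change ⁅y i j none, _⁆ = _
        refine fp_star (hC0 _ _ _ _ _ _ hij m3 m2.symm hik hv) ?_ ?_
        · rw [← e1, e2]
          exact hC1 _ _ _ _ _ _ m1.symm hjk m2 hik (by simpa using hv)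
        · rw [← e1]
          exact fp_D hI hI0 hC1 _ _ _ _ _ _ m3 hjk hjk.symm m3 hv (by simpa using hv)
    | cons a u =>
      have hl' : u.length + v.length ≤ d := by simp at hl; omega
      have e1 := hI1 i j m a u hij m1 m2 (by omega)
      have e2 := hM0 m j k u v m2 hjk m3 hl'
      rw [List.cons_append, hI1 i k m a _ hik m1 m3 (by simp; omega), e1, ← e2]
      refine (fp_star (hC0 _ _ _ _ _ _ m1.symm hjk m2 hik (by omega)) ?_ ?_).symm
      · rw [← e1, e2]
        exact fp_D hI hI1 hC0 _ _ _ _ _ _ hij m3 m2.symm hik (by simp; omega) (by simpa using hl')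
      · rw [e2]
        exact fp_D hI hI0 hC0 _ _ _ _ _ _ hjk m3 m3.symm hjk (by omega) (by simpa using hl')

variable (S) in
/-- a function on words compatible with the rules extends linearly -/
theorem Sys.fp_ext {V : Type} [AddCommGroup V] [Module (ZMod 2) V] (φ : List X → V)
    (h1 : ∀ u v a b a' b', S.rule a b (some (a', b')) →
      φ (u ++ a :: b :: v) = φ (u ++ a' :: b' :: v))
    (h2 : ∀ u v a b, S.rule a b none → φ (u ++ a :: b :: v) = 0) :
    ∃ f : S.Alg → V, (∀ r s, f (r + s) = f r + f s) ∧ ∀ w, f (S.mono w) = φ w := by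
  let C : Submodule (ZMod 2) (List X → V) :=
    { carrier := {φ | (∀ u v a b a' b', S.rule a b (some (a', b')) →
          φ (u ++ a :: b :: v) = φ (u ++ a' :: b' :: v)) ∧
        ∀ u v a b, S.rule a b none → φ (u ++ a :: b :: v) = 0}
      add_mem' := fun {φ ψ} h1 h2 =>
        ⟨fun u v a b a' b' h => by simp [h1.1 u v a b a' b' h, h2.1 u v a b a' b' h],
          fun u v a b h => by simp [h1.2 u v a b h, h2.2 u v a b h]⟩
      zero_mem' := ⟨fun _ _ _ _ _ _ _ => rfl, fun _ _ _ _ _ => rfl⟩
      smul_mem' := fun c φ h1 =>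
        ⟨fun u v a b a' b' h => by simp [h1.1 u v a b a' b' h],
          fun u v a b h => by simp [h1.2 u v a b h]⟩ }
  let T : X → Module.End (ZMod 2) C := fun c =>
    { toFun := fun φ => ⟨fun w => φ.1 (w ++ [c]),
        fun u v a b a' b' h => by simpa using φ.2.1 u (v ++ [c]) a b a' b' h,
        fun u v a b h => by simpa using φ.2.2 u (v ++ [c]) a b h⟩
      map_add' := fun _ _ => rfl
      map_smul' := fun _ _ => rfl }
  have hT : S.Resp T :=
    ⟨fun a b a' b' h => by ext φ w; simpa [T] using φ.2.1 w [] a b a' b' h,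
      fun a b h => by ext φ w; simpa [T] using φ.2.2 w [] a b h⟩
  have key : ∀ (w : List X) (φ : C) (u : List X), (S.lift T hT (S.mono w) φ).1 u = φ.1 (u ++ w) := by
    intro w φ
    induction w with
    | nil => simp
    | cons a w ih =>
      intro u
      rw [S.mono_cons, map_mul, S.lift_ι, Module.End.mul_apply]
      exact (ih (u ++ [a])).trans (by simp)
  exact ⟨fun r => (S.lift T hT r ⟨φ, h1, h2⟩).1 [], fun r s => by simp only [map_add]; rfl,
    fun w => key w _ []⟩

variable (S) in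
theorem Sys.fp_ext' (φ : List X → Γ) (hc : ∀ u v, Commute (φ u) (φ v)) (hs : ∀ u, φ u * φ u = 1)
    (h1 : ∀ u v a b a' b', S.rule a b (some (a', b')) →
      φ (u ++ a :: b :: v) = φ (u ++ a' :: b' :: v))
    (h2 : ∀ u v a b, S.rule a b none → φ (u ++ a :: b :: v) = 1) :
    ∃ f : S.Alg → Γ, (∀ r s, f (r + s) = f r * f s) ∧ ∀ w, f (S.mono w) = φ w := by
  have hm := Subgroup.isMulCommutative_closure (k := Set.range φ) (by
    rintro _ ⟨u, rfl⟩ _ ⟨v, rfl⟩; exact hc u v)
  let : CommGroup (Subgroup.closure (Set.range φ)) :=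
    { (inferInstance : Group _) with mul_comm := hm.is_comm.comm }
  have h3 : ∀ g : Subgroup.closure (Set.range φ), g ^ 2 = 1 := by
    rintro ⟨g, hg⟩
    induction hg using Subgroup.closure_induction with
    | mem g hg => obtain ⟨u, rfl⟩ := hg; exact Subtype.ext ((pow_two _).trans (hs u))
    | one => exact one_pow 2
    | mul g g' hg hg' e e' =>
      exact (mul_pow (⟨g, hg⟩ : Subgroup.closure (Set.range φ)) ⟨g', hg'⟩ 2).trans
        (by rw [e, e', mul_one])
    | inv g hg e =>
      exact (inv_pow (⟨g, hg⟩ : Subgroup.closure (Set.range φ)) 2).trans (by rw [e, inv_one])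
  let : Module (ZMod 2) (Additive (Subgroup.closure (Set.range φ))) :=
    AddCommGroup.zmodModule fun g => h3 g.toMul
  obtain ⟨f, f1, f2⟩ := S.fp_ext (V := Additive (Subgroup.closure (Set.range φ)))
    (fun w => .ofMul ⟨φ w, Subgroup.subset_closure ⟨w, rfl⟩⟩)
    (fun u v a b a' b' h => congrArg _ (Subtype.ext (h1 u v a b a' b' h)))
    (fun u v a b h => congrArg Additive.ofMul (Subtype.ext (h2 u v a b h)))
  exact ⟨fun r => (f r).toMul.1, fun r s => by simp only [f1]; rfl,
    fun w => by simp only [f2]; rfl⟩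

theorem fp_isSt (hI : 5 ≤ Fintype.card I) (h : S.Base y) :
    ∃ f : I → I → S.Alg → Γ, IsSt ∅ f ∧ ∀ i j a, i ≠ j → f i j (S.gen a) = y i j a := by
  choose μ μ1 μ2 _ using fun i j => fp_fresh4 hI i j j j
  have H := fp_main hI h fun i j => ⟨μ1 i j, μ2 i j⟩
  have hM : ∀ {i j k} u v, i ≠ j → j ≠ k → i ≠ k →
      ⁅fpY y μ u i j, fpY y μ v j k⁆ = fpY y μ (u ++ v) i k :=
    fun u v h1 h2 h3 => (H _).2.1 _ _ _ u v h1 h2 h3 le_rfl
  have hD : ∀ {i j k l} u v, i ≠ j → k ≠ l → j ≠ k → i ≠ l →
      Commute (fpY y μ u i j) (fpY y μ v k l) :=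
    fun u v h1 h2 h3 h4 => fp_D hI (H _).1 (H _).2.2 u v _ _ _ _ h1 h2 h3 h4 le_rfl le_rfl
  have h1 : ∀ {i j} a, i ≠ j → fpY y μ [a] i j = y i j (some a) := fun a hij =>
    h.right _ _ _ _ (μ1 _ _).symm (μ2 _ _) hij
  have hsplit : ∀ {i j} u v a b, i ≠ j → fpY y μ (u ++ a :: b :: v) i j =
      ⁅fpY y μ u i (μ i j), ⁅⁅y (μ i j) (μ (μ i j) (μ (μ i j) j)) (some a),
        y (μ (μ i j) (μ (μ i j) j)) (μ (μ i j) j) (some b)⁆, fpY y μ v (μ (μ i j) j) j⁆⁆ := by
    intro i j u v a b hij
    rw [← h1 a (μ1 _ _).symm, ← h1 b (μ2 _ _), hM _ _ (μ1 _ _).symm (μ2 _ _) (μ1 _ _).symm,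
      hM _ _ (μ1 _ _).symm (μ2 _ _) (μ2 _ _), hM _ _ (μ1 _ _).symm (μ2 _ _) hij]
    rfl
  have hex : ∀ i j, ∃ f : S.Alg → Γ, i ≠ j →
      (∀ r s, f (r + s) = f r * f s) ∧ ∀ w, f (S.mono w) = fpY y μ w i j := fun i j => by
    by_cases hij : i = j
    · exact ⟨1, fun h => absurd hij h⟩
    refine Exists.imp (fun _ h _ => h) (S.fp_ext' (fun w => fpY y μ w i j)
      (fun u v => hD u v hij hij (Ne.symm hij) hij) (fun w => ?_) (fun u v a b a' b' hr => ?_)
      fun u v a b hr => ?_)
    · have e : ⁅y i (μ i j) none, fpY y μ w (μ i j) j⁆ = fpY y μ w i j :=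
        hM [] w (μ1 _ _).symm (μ2 _ _) hij
      have c : Commute (y i (μ i j) none) (fpY y μ w i j) :=
        hD [] w (μ1 _ _).symm hij (μ1 _ _) hij
      have s := h.sq i (μ i j)
      conv_lhs => lhs; rw [← c.mul_inv_cancel]
      rw [← e, commutatorElement_def, inv_eq_of_mul_eq_one_left s]
      simp only [mul_assoc, ← mul_assoc (y i (μ i j) none) (y i (μ i j) none), s, one_mul,
        inv_mul_cancel_left, mul_inv_cancel]
    · rw [hsplit u v a b hij, hsplit u v a' b' hij,
        h.step _ _ _ a b a' b' (μ1 _ _).symm (μ2 _ _) (μ1 _ _).symm hr]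
    · rw [hsplit u v a b hij, h.kill _ _ _ a b (μ1 _ _).symm (μ2 _ _) (μ1 _ _).symm hr,
        commutatorElement_one_left, commutatorElement_one_right]
  choose f hf using hex
  have f0 : ∀ {i j}, i ≠ j → f i j 0 = 1 := fun hij =>
    left_eq_mul.1 ((congrArg _ (add_zero 0).symm).trans ((hf _ _ hij).1 0 0))
  have hc : ∀ i j k l r s, i ≠ j → k ≠ l → j ≠ k → i ≠ l → Commute (f i j r) (f k l s) := by
    intro i j k l r s hij hkl hjk hil
    induction r using S.fp_induction with
    | h0 => rw [f0 hij]; exact Commute.one_left _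
    | ha r r' e e' => rw [(hf _ _ hij).1]; exact e.mul_left e'
    | hm u =>
      induction s using S.fp_induction with
      | h0 => rw [f0 hkl]; exact Commute.one_right _
      | ha s s' e e' => rw [(hf _ _ hkl).1]; exact e.mul_right e'
      | hm v => rw [(hf _ _ hij).2, (hf _ _ hkl).2]; exact hD u v hij hkl hjk hil
  refine ⟨f, ⟨fun i j r s hij => (hf _ _ hij.1).1 r s,
    fun i j k l r s hij hkl => hc i j k l r s hij.1 hkl.1, ?_⟩, ?_⟩
  · rintro i j k r s ⟨hij, -⟩ ⟨hjk, -⟩ hik
    induction r using S.fp_induction with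
    | h0 => rw [f0 hij, zero_mul, f0 hik, commutatorElement_one_left]
    | ha r r' e e' =>
      rw [(hf _ _ hij).1, add_mul, add_comm, (hf _ _ hik).1,
        ← (hc i j i k r (r' * s) hij hik hij.symm hik).mul_inv_cancel, ← e, ← e']
      simp only [commutatorElement_def]
      group
    | hm u =>
      induction s using S.fp_induction with
      | h0 => rw [f0 hjk, mul_zero, f0 hik, commutatorElement_one_right]
      | ha s s' e e' =>
        rw [(hf _ _ hjk).1, mul_add, (hf _ _ hik).1,
          ← (hc j k i k s (S.mono u * s') hjk hik hik.symm hjk).mul_inv_cancel, ← e, ← e']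
        simp only [commutatorElement_def]
        group
      | hm v =>
        rw [← S.mono_append, (hf _ _ hij).2, (hf _ _ hjk).2, (hf _ _ hik).2, hM u v hij hjk hik]
  · rintro i j (_ | a) hij
    · exact (hf _ _ hij).2 []
    · rw [← h1 a hij, ← (hf _ _ hij).2]
      simp [Sys.gen]

end fp

/-- `St I S.Alg` is finitely presented.
Proof.  Let `Γ` be presented on `y i j a` (`a : Option X`, finite set of generators) by the finite
set of relations: `y i i a = 1`; (B1) `⁅y i j a, y k l b⁆ = 1` (`j ≠ k`, `i ≠ l`);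
(B2) `⁅y i j none, y j k a⁆ = y i k a`, (B3) `⁅y i j a, y j k none⁆ = y i k a` (`i,j,k` distinct);
(B4) `y i j none ^ 2 = 1`; (B5) `⁅y i j a, y j k b⁆ = ⁅y i j a', y j k b'⁆` resp. `= 1` for the rules.
Define `Y i j [] = y i j none`, `Y i j (a :: w) = ⁅y i m a, Y m j w⁆` with a chosen `m = m(i,j) ∉ {i,j}`.
Group identity (*): if `α` commutes with `γ`, and `f = ⁅β,γ⁆` commutes with `e = ⁅α,β⁆` and with `γ`,
then `⁅α,⁅β,γ⁆⁆ = ⁅⁅α,β⁆,γ⁆` (`α f α⁻¹ = (e f e⁻¹) ⁅e,γ⁆`).
Induct on `d` on the conjunction of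
I(d): `Y i j (a :: w) = ⁅y i m a, Y m j w⁆` for ALL `m ∉ {i,j}`, `|w| < d`;
M(d): `⁅Y i j u, Y j k v⁆ = Y i k (u ++ v)` for `|u|+|v| ≤ d`;
C(d): `y i j a` commutes with `Y k l v` (`j ≠ k`, `i ≠ l`, `i ≠ j`, `k ≠ l`), `|v| ≤ d`.
From I(d) and C(d'): `Y i j u` commutes with `Y k l v` for `|u| ≤ d`, `|v| ≤ d'` (induct on `u`,
fresh `m ∉ {i,j,k,l}`; this is where `5 ≤ card I` is used).
I(d+1): (*) with `α = y i m a`, `β = y m m' none`, `γ = Y m' j w`.  C(d+1): split `Y k l (b :: v)`
with a fresh index.  M(d+1): for `u = []`, `v = a :: v'` use (*) with `y i j none, y j m a, Y m k v'`;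
for `u = a :: u₁` use (*) with `y i m a, Y m j u₁, Y j k v`.
`Y i j w ^ 2 = 1` from `Y i j w = ⁅y i m none, Y m j w⁆` and (B4).  By M and (B5) `Y i j` is
compatible with the rules in any context.  For `i ≠ j` the `Y i j w` generate an abelian group `A` of
exponent 2 (`ZMod 2`-module `Additive A`), and a function `φ : List X → V` to a `ZMod 2`-module that is
compatible with the rules extends to a linear map `S.Alg → V` with `mono w ↦ φ w` (copy
`compat`/`shiftOp`/`lift_shiftOp_mono` of `Alg.lean` with values in `V`: `r ↦ (lift shiftOp r φ).1 []`).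
This gives additive `y' i j : S.Alg → Γ`; the relations `comm`, `mul` of `IsSt` follow by
bi-additivity from monomials (`span_mono`).  `P.lift y'` is inverse to `y i j a ↦ x i j (gen a)`. -/
theorem St_fp [Finite X] (hI : 5 ≤ Fintype.card I) :
    Group.IsFinitelyPresented (St I S.Alg) := by
  let π : FreeGroup (I × I × Option X) →* St I S.Alg :=
    FreeGroup.lift fun p => x ∅ p.1 p.2.1 (S.gen p.2.2)
  let u : Option (I × I × Option X) → FreeGroup (I × I × Option X) := fun o => o.elim 1 .of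
  let F : (Fin 6 → Option (I × I × Option X)) → FreeGroup (I × I × Option X) := fun a =>
    ⁅u (a 0), u (a 1)⁆ * (⁅u (a 2), u (a 3)⁆ * u (a 4) * u (a 5))⁻¹
  let N := Subgroup.normalClosure (Set.range F ∩ π.ker)
  let q := QuotientGroup.mk' N
  have key : ∀ a b c d e f, ⁅π (u a), π (u b)⁆ = ⁅π (u c), π (u d)⁆ * π (u e) * π (u f) →
      ⁅q (u a), q (u b)⁆ = ⁅q (u c), q (u d)⁆ * q (u e) * q (u f) := fun a b c d e f h => by
    have : q (F ![a, b, c, d, e, f]) = 1 := (QuotientGroup.eq_one_iff _).2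
      (Subgroup.subset_normalClosure ⟨⟨_, rfl⟩, by
        simpa [F, map_commutatorElement, mul_inv_eq_one, -mul_inv_rev] using h⟩)
    simpa [F, map_commutatorElement, mul_inv_eq_one, -mul_inv_rev] using this
  obtain ⟨f, hf, hf'⟩ := fp_isSt (S := S) (y := fun i j a => q (.of (i, j, a))) hI
    { comm := fun i j k l a b h1 h2 => by
        simpa [u, commutatorElement_eq_one_iff_commute] using
          key (some (i, j, a)) (some (k, l, b)) none none none none
            (by simpa [u, π, commutatorElement_eq_one_iff_commute] using x_comm h1 h2 _ _)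
      left := fun i j k a h1 h2 h3 => by
        simpa [u] using key (some (i, j, none)) (some (j, k, a)) none none (some (i, k, a)) none
          (by simp [u, π, x_mul (ok_empty.2 h1) (ok_empty.2 h2) h3, Sys.gen])
      right := fun i j k a h1 h2 h3 => by
        simpa [u] using key (some (i, j, a)) (some (j, k, none)) none none (some (i, k, a)) none
          (by simp [u, π, x_mul (ok_empty.2 h1) (ok_empty.2 h2) h3, Sys.gen])
      sq := fun i j => by
        simpa [u] using (key none none none none (some (i, j, none)) (some (i, j, none))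
          (by simp [u, π, x_mul_self])).symm
      step := fun i j k a b a' b' h1 h2 h3 h => by
        simpa [u] using key (some (i, j, some a)) (some (j, k, some b)) (some (i, j, some a'))
          (some (j, k, some b')) none none (by
            simp [u, π, x_mul (ok_empty.2 h1) (ok_empty.2 h2) h3, Sys.gen,
              S.resp_ι.step _ _ _ _ h])
      kill := fun i j k a b h1 h2 h3 h => by
        simpa [u] using key (some (i, j, some a)) (some (j, k, some b)) none none none none (by
          simp [u, π, x_mul (ok_empty.2 h1) (ok_empty.2 h2) h3, Sys.gen, S.resp_ι.kill _ _ h]) }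
  have hq : (P.lift f hf).comp π = q := FreeGroup.ext_hom _ _ fun ⟨i, j, a⟩ => by
    simp only [MonoidHom.comp_apply, π, FreeGroup.lift_apply_of]
    by_cases hij : i = j
    · have h0 : ¬ Ok (∅ : Set I) i j := by simpa using hij
      rw [x_triv h0, map_one]
      simpa [u] using key none none none none (some (i, j, a)) none (by simp [u, π, x_triv h0])
    · rw [P.lift_x _ _ (ok_empty.2 hij), hf' i j a hij]
  refine Group.IsFinitelyPresented.of_surjective π (fun g => ?_)
    ⟨_, (Set.finite_range F).inter_of_left π.ker, le_antisymm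
      (Subgroup.normalClosure_le_normal Set.inter_subset_right) fun w hw => ?_⟩
  · obtain ⟨l, rfl⟩ := St_exists_list S (by omega) g
    exact ⟨(l.map .of).prod, by simp [π, map_list_prod, Function.comp_def]⟩
  · refine (QuotientGroup.eq_one_iff (N := N) w).1 ?_
    change q w = 1
    rw [← hq, MonoidHom.comp_apply, MonoidHom.mem_ker.1 hw, map_one]

end Crest.Agent.R176
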