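import Crest.Agent.R176.StS1

/-! Row 176, group half: Steinberg groups of finite local rings of characteristic two. -/

set_option autoImplicit false

namespace Crest.Agent.R176

open scoped commutatorElement

variable {I : Type} [Fintype I] [DecidableEq I] {R : Type} [Ring R] [CharP R 2]
  {ε : R →+* ZMod 2}

/-- `mat g = 1 + N` with `N` over `ker ε` (`mat_mapR`), and `(1+N)^(2^k) = 1 + N^(2^k)`. -/
theorem exists_mat_pow_eq_one
    (hnil : ∀ A : Matrix I I R, (∀ i j, ε (A i j) = 0) → IsNilpotent A) {g : St I R}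
    (hg : St.mapR I ε g = 1) : ∃ k : ℕ, mat ∅ (g ^ 2 ^ k) = 1 := by
  have h1 : (mat ∅ g).map ε = 1 := by rw [← mat_mapR, hg, map_one]
  obtain ⟨n, hn⟩ := hnil (mat ∅ g - 1) (fun i j => by
    have h2 : ε (mat ∅ g i j) = (1 : Matrix I I (ZMod 2)) i j := by rw [← h1]; rfl
    rw [Matrix.sub_apply, map_sub, h2, Matrix.one_apply, Matrix.one_apply]
    split_ifs <;> simp)
  have key : ∀ (N : Matrix I I R) (k : ℕ), (1 + N) ^ 2 ^ k = 1 + N ^ 2 ^ k := by
    intro N k
    induction k with
    | zero => simp
    | succ k ih =>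
      have h2 : N ^ 2 ^ k + N ^ 2 ^ k = 0 := by
        ext i j; exact CharTwo.add_self_eq_zero _
      rw [pow_succ, pow_mul, pow_mul, ih, sq, sq, add_mul, mul_add, mul_add, one_mul, one_mul,
        mul_one, add_assoc, ← add_assoc (N ^ 2 ^ k), h2, zero_add]
  refine ⟨n, ?_⟩
  rw [map_pow, show mat ∅ g = 1 + (mat ∅ g - 1) by abel, key,
    pow_eq_zero_of_le (Nat.lt_two_pow_self).le hn, add_zero]

/-- `ker matU` is central (`central`) of finite index, so the centre has finite index; the group is
perfect (`x i j r = ⁅x i k r, x k j 1⁆`), so `MonoidHom.transferCenterPow` is trivial and the group has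
finite exponent; it is finitely generated, so the centre is (`Subgroup.fg_of_index_ne_zero`), and a
finitely generated commutative torsion group is finite (`CommGroup.finite_of_fg_torsion`). -/
theorem St_finite [Finite R] (hε : Aug ε) (hI : 3 ≤ Fintype.card I) : Finite (St I R) := by
  have hle : (matU (∅ : Set I) : St I R →* _).ker ≤ Subgroup.center (St I R) := fun z hz =>
    central hε hI (by rw [← val_matU, MonoidHom.mem_ker.1 hz, Units.val_one])
  have : (Subgroup.center (St I R)).FiniteIndex := Subgroup.finiteIndex_of_le hle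
  have htr : MonoidHom.transferCenterPow (St I R) = 1 := P.hom_ext fun i j r hij => by
    obtain ⟨k, -, hki, hkj⟩ := exists_third hI i j
    have h1 := x_mul (K := (∅ : Set I)) (i := i) (j := k) (k := j) (by simpa using hki.symm)
      (by simpa using hkj) hij.1 r (1 : R)
    rw [mul_one] at h1
    rw [← h1, map_commutatorElement, MonoidHom.one_apply, commutatorElement_eq_one_iff_commute]
    exact Subtype.ext (Subgroup.mem_center_iff.1 (Subtype.prop _) _)
  have hpow : ∀ g : St I R, g ^ (Subgroup.center (St I R)).index = 1 := fun g => by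
    rw [← MonoidHom.transferCenterPow_apply, htr]; rfl
  have : Group.FG (St I R) := Group.fg_iff.2
    ⟨Set.range (fun p : I × I × R => x ∅ p.1 p.2.1 p.2.2),
      eq_top_iff.2 fun g _ => P.mem_of_x _
        (fun i j r _ => Subgroup.subset_closure (Set.mem_range_self (i, j, r))) g, Set.finite_range _⟩
  have : Finite (Subgroup.center (St I R)) := by
    let : CommGroup (Subgroup.center (St I R)) :=
      { (inferInstance : Group (Subgroup.center (St I R))) with
        mul_comm := fun a b => Subtype.ext (Subgroup.mem_center_iff.1 b.2 _) }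
    refine CommGroup.finite_of_fg_isMulTorsion _ (fun g => ?_)
    exact isOfFinOrder_iff_pow_eq_one.2 ⟨_, Nat.pos_of_ne_zero
      (Subgroup.FiniteIndex.index_ne_zero (H := Subgroup.center (St I R))),
      Subtype.ext (hpow g)⟩
  exact Finite.of_subgroup_quotient (Subgroup.center (St I R))

/-- `H = ker (St I R → St I (ZMod 2))` is the normal closure of the involutions `x i j r`, `ε r = 0`
(compare `g` with `mapR (ZMod.castHom ..) (mapR ε g)` modulo that normal closure).  `H / Z(H)` is a
finite 2-group by `exists_mat_pow_eq_one` and `central`, so `Z(H)` has index `2^a`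
(`IsPGroup.iff_card`); `g ↦ (transferCenterPow H g)^2` is a homomorphism to the commutative group `Z(H)`
killing all conjugates of these involutions, hence trivial. -/
theorem ker_isPGroup [Finite R] (hε : Aug ε) (hI : 3 ≤ Fintype.card I)
    (hnil : ∀ A : Matrix I I R, (∀ i j, ε (A i j) = 0) → IsNilpotent A) :
    IsPGroup 2 (St.mapR I ε).ker := by
  have := St_finite hε hI
  have : Fact (Nat.Prime 2) := ⟨Nat.prime_two⟩
  set H := (St.mapR I ε).ker with hH
  set S : Set (St I R) := {g | ∃ i j r, ε r = 0 ∧ g = x ∅ i j r} with hS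
  have hN : H ≤ Subgroup.normalClosure S := by
    have hc : ∀ z : ZMod 2, ε (ZMod.castHom (dvd_refl 2) R z) = z := fun z =>
      DFunLike.congr_fun (RingHom.ext_zmod (ε.comp (ZMod.castHom (dvd_refl 2) R)) (RingHom.id _)) z
    have h1 : QuotientGroup.mk' (Subgroup.normalClosure S) =
        (QuotientGroup.mk' (Subgroup.normalClosure S)).comp
          ((St.mapR I (ZMod.castHom (dvd_refl 2) R)).comp (St.mapR I ε)) :=
      P.hom_ext fun i j r _ => by
        rw [MonoidHom.comp_apply, MonoidHom.comp_apply, St.mapR_x, St.mapR_x]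
        have h2 : x (∅ : Set I) i j r = x ∅ i j (r - ZMod.castHom (dvd_refl 2) R (ε r)) *
            x ∅ i j (ZMod.castHom (dvd_refl 2) R (ε r)) := by rw [← x_add, sub_add_cancel]
        have h3 : QuotientGroup.mk' (Subgroup.normalClosure S)
            (x ∅ i j (r - ZMod.castHom (dvd_refl 2) R (ε r))) = 1 :=
          (QuotientGroup.eq_one_iff _).2 (Subgroup.subset_normalClosure
            ⟨i, j, _, by rw [map_sub, hc, sub_self], rfl⟩)
        conv_lhs => rw [h2, map_mul, h3, one_mul]
    intro g hg
    have h2 := DFunLike.congr_fun h1 g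
    rw [MonoidHom.comp_apply, MonoidHom.comp_apply, MonoidHom.mem_ker.1 hg, map_one, map_one] at h2
    exact (QuotientGroup.eq_one_iff _).1 h2
  have hq : IsPGroup 2 (H ⧸ Subgroup.center H) := by
    intro q
    obtain ⟨g, rfl⟩ := QuotientGroup.mk_surjective q
    obtain ⟨k, hk⟩ := exists_mat_pow_eq_one hnil (MonoidHom.mem_ker.1 g.2)
    refine ⟨k, ?_⟩
    rw [← QuotientGroup.mk_pow, QuotientGroup.eq_one_iff, Subgroup.mem_center_iff]
    intro y
    exact Subtype.ext (Subgroup.mem_center_iff.1 (central hε hI hk) y)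
  obtain ⟨a, ha⟩ := IsPGroup.iff_card.1 hq
  have hidx : (Subgroup.center H).index = 2 ^ a := ha
  let K : Subgroup (St I R) :=
    { carrier := {g | g ∈ H ∧ (g ^ 2 ^ a) ^ 2 = 1}
      one_mem' := ⟨one_mem _, by simp⟩
      inv_mem' := fun {g} hg => ⟨inv_mem hg.1, by rw [inv_pow, inv_pow, hg.2, inv_one]⟩
      mul_mem' := fun {g h} hg hh => ⟨mul_mem hg.1 hh.1, by
        have h1 := map_mul (MonoidHom.transferCenterPow H) ⟨g, hg.1⟩ ⟨h, hh.1⟩
        have h2 : (g * h) ^ 2 ^ a = g ^ 2 ^ a * h ^ 2 ^ a := by
          have := congrArg (fun z : Subgroup.center H => ((z : H) : St I R)) h1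
          simpa [hidx] using this
        have h3 : Commute (g ^ 2 ^ a) (h ^ 2 ^ a) := by
          have h4 := Subgroup.mem_center_iff.1 (MonoidHom.transferCenterPow H ⟨h, hh.1⟩).2
            (MonoidHom.transferCenterPow H ⟨g, hg.1⟩)
          have := congrArg (fun z : H => (z : St I R)) h4
          show g ^ 2 ^ a * h ^ 2 ^ a = h ^ 2 ^ a * g ^ 2 ^ a
          simpa [hidx] using this
        rw [h2, h3.mul_pow, hg.2, hh.2, one_mul]⟩ }
  have hK : Subgroup.normalClosure S ≤ K := by
    refine (Subgroup.closure_le _).2 fun c hc => ?_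
    obtain ⟨s, ⟨i, j, r, hr, rfl⟩, hsc⟩ := Group.mem_conjugatesOfSet_iff.1 hc
    obtain ⟨y, rfl⟩ := isConj_iff.1 hsc
    refine ⟨(MonoidHom.normal_ker _).conj_mem _ ?_ y, ?_⟩
    · rw [MonoidHom.mem_ker, St.mapR_x, hr, x_zero]
    · rw [← pow_mul, mul_comm, pow_mul, conj_pow, sq, x_mul_self, mul_one, mul_inv_cancel, one_pow]
  intro g
  refine ⟨a + 1, Subtype.ext ?_⟩
  have := (hK (hN g.2)).2
  rw [← pow_mul, ← pow_succ] at this
  exact this

end Crest.Agent.R176
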