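import Crest.Agent.R176.StDef

/-! Row 176, group half: the homomorphisms `St I R → St (I × Y) R'` induced by
`R → Matrix Y Y R'`, and the three moves (conjugation, edge deletion, isolated vertices). -/

set_option autoImplicit false

namespace Crest.Agent.R176

open scoped commutatorElement

variable {I Y : Type} [Fintype I] [DecidableEq I] [Fintype Y] [DecidableEq Y]
  {R R' : Type} [Ring R] [Ring R']

/-- the block `M` at the place `(i, j)` -/
def emb (i j : I) (M : Matrix Y Y R') : Matrix (I × Y) (I × Y) R' :=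
  Matrix.comp I I Y Y R' (Matrix.single i j M)

theorem emb_apply (i j : I) (M : Matrix Y Y R') (a b : I × Y) :
    emb i j M a b = if i = a.1 ∧ j = b.1 then M a.2 b.2 else 0 := by
  unfold emb
  rw [Matrix.comp_apply, Matrix.single_apply]
  split_ifs <;> simp

theorem emb_eq_psi (i j : I) (M : Matrix Y Y R') :
    emb i j M = Matrix.compRingEquiv I Y R' (Matrix.single i j M) := rfl

theorem emb_add_psi (i j : I) (M N : Matrix Y Y R') : emb i j (M + N) = emb i j M + emb i j N := by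
  rw [emb_eq_psi, Matrix.single_add, map_add]; rfl

theorem emb_neg_psi (i j : I) (M : Matrix Y Y R') : emb i j (-M) = -emb i j M := by
  ext a b
  simp only [emb_apply, Matrix.neg_apply]
  split_ifs <;> simp

theorem emb_mul_psi (i j k : I) (M N : Matrix Y Y R') :
    emb i j M * emb j k N = emb i k (M * N) := by
  rw [emb_eq_psi, emb_eq_psi, ← map_mul, Matrix.single_mul_single_same]; rfl

theorem emb_mul_ne_psi (i : I) {j k : I} (h : j ≠ k) (l : I) (M N : Matrix Y Y R') :
    emb i j M * emb k l N = 0 := by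
  rw [emb_eq_psi, emb_eq_psi, ← map_mul, Matrix.single_mul_single_of_ne _ _ _ _ h, map_zero]

theorem emb_ne_zero_psi {i j : I} {M : Matrix Y Y R'} {a b : I × Y} (h : emb i j M a b ≠ 0) :
    a.1 = i ∧ b.1 = j ∧ M a.2 b.2 ≠ 0 ∧ emb i j M a b = M a.2 b.2 := by
  rw [emb_apply] at h ⊢
  split_ifs at h ⊢ with h1
  · exact ⟨h1.1.symm, h1.2.symm, h, rfl⟩
  · exact absurd rfl h

theorem supp_emb_psi' (i j : I) {M : Matrix Y Y R'} {A B : Set Y} (h : Supp M A B) :
    Supp (emb i j M) ({i} ×ˢ A) ({j} ×ˢ B) := fun _ _ hab =>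
  ⟨⟨(emb_ne_zero_psi hab).1, (h _ _ (emb_ne_zero_psi hab).2.2.1).1⟩,
    ⟨(emb_ne_zero_psi hab).2.1, (h _ _ (emb_ne_zero_psi hab).2.2.1).2⟩⟩

theorem supp_emb_psi (i j : I) (M : Matrix Y Y R') :
    Supp (emb i j M) ({i} ×ˢ Set.univ) ({j} ×ˢ Set.univ) :=
  supp_emb_psi' i j fun _ _ _ => ⟨trivial, trivial⟩

omit [Fintype I] [DecidableEq I] [Fintype Y] [DecidableEq Y] in
theorem disj_psi {S T : Set I} (h : Disjoint S T) (A B : Set Y) : Disjoint (S ×ˢ A) (T ×ˢ B) :=
  Set.disjoint_left.2 fun _ ha hb => Set.disjoint_left.1 h ha.1 hb.1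

omit [Fintype I] [DecidableEq I] [Fintype Y] [DecidableEq Y] in
theorem disj_psi' (S T : Set I) {A B : Set Y} (h : Disjoint A B) : Disjoint (S ×ˢ A) (T ×ˢ B) :=
  Set.disjoint_left.2 fun _ ha hb => Set.disjoint_left.1 h ha.2 hb.2

theorem blk_emb_add_psi {i j : I} (h : i ≠ j) (M N : Matrix Y Y R') :
    blk (∅ : Set (I × Y)) (emb i j (M + N)) = blk ∅ (emb i j M) * blk ∅ (emb i j N) := by
  rw [emb_add_psi, blk_add (disj_psi (Set.disjoint_singleton.2 h) _ _) (supp_emb_psi i j M)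
    (supp_emb_psi i j N)]

theorem mat_blk_emb_psi {i j : I} (h : i ≠ j) (M : Matrix Y Y R') :
    mat ∅ (blk (∅ : Set (I × Y)) (emb i j M)) = 1 + emb i j M :=
  mat_blk (disj_psi (Set.disjoint_singleton.2 h) _ _) (Set.disjoint_empty _) (supp_emb_psi i j M)

theorem mat_blk_emb_inv_psi {i j : I} (h : i ≠ j) (M : Matrix Y Y R') :
    mat ∅ (blk (∅ : Set (I × Y)) (emb i j M))⁻¹ = 1 - emb i j M := by
  have : (blk (∅ : Set (I × Y)) (emb i j M))⁻¹ = blk ∅ (emb i j (-M)) := by
    rw [inv_eq_iff_mul_eq_one, ← blk_emb_add_psi h, add_neg_cancel, emb_eq_psi, Matrix.single_zero,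
      map_zero, blk_zero]
  rw [this, mat_blk_emb_psi h, emb_neg_psi, sub_eq_add_neg]

/-- Use `emb_apply` for the support `{i} ×ˢ univ`, `{j} ×ˢ univ`; `add` is `blk_add`, `comm` is
`U_commute`; for `mul`, `blk (emb j k N)` normalises `U ({i} × Y) ({j,k} × Y)` (`blk_mem` into the
normalizer, `x_mem_normalizer`), so both sides lie in that subgroup and `U_inj`, `mat_blk` and
`Matrix.compRingEquiv` finish. -/
theorem isSt_emb (φ : R →ₙ+* Matrix Y Y R') :
    IsSt (∅ : Set I) fun i j r => blk (∅ : Set (I × Y)) (emb i j (φ r)) := by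
  refine ⟨fun i j r s h => ?_, fun i j k l r s _ _ h1 h2 => ?_, fun i j k r s h h' hik => ?_⟩
  · rw [map_add, blk_emb_add_psi h.1]
  · exact U_commute (disj_psi (Set.disjoint_singleton.2 h1) _ _)
      (disj_psi (Set.disjoint_singleton.2 h2) _ _) (blk_mem_U (supp_emb_psi i j _))
      (blk_mem_U (supp_emb_psi k l _))
  · have hij : i ≠ j := h.1
    have hjk : j ≠ k := h'.1
    have hd : Disjoint (({i} : Set I) ×ˢ (Set.univ : Set Y)) (({j, k} : Set I) ×ˢ Set.univ) :=
      disj_psi (by simp [hij, hik]) _ _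
    have h1 : blk (∅ : Set (I × Y)) (emb i j (φ r)) ∈
        U R' ∅ (({i} : Set I) ×ˢ (Set.univ : Set Y)) (({j, k} : Set I) ×ˢ Set.univ) :=
      blk_mem_U ((supp_emb_psi i j _).mono le_rfl (Set.prod_mono (by simp) le_rfl))
    have h2 : blk (∅ : Set (I × Y)) (emb i k (φ (r * s))) ∈
        U R' ∅ (({i} : Set I) ×ˢ (Set.univ : Set Y)) (({j, k} : Set I) ×ˢ Set.univ) :=
      blk_mem_U ((supp_emb_psi i k _).mono le_rfl (Set.prod_mono (by simp) le_rfl))
    have h3 : blk (∅ : Set (I × Y)) (emb j k (φ s)) ∈ Subgroup.normalizer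
        (U R' ∅ (({i} : Set I) ×ˢ (Set.univ : Set Y)) (({j, k} : Set I) ×ˢ Set.univ) :
          Set (P R' (∅ : Set (I × Y)))) := by
      refine blk_mem _ fun a b hab => x_mem_normalizer hd (fun hb => ?_) (fun _ => ?_) _
      · exact absurd ((emb_ne_zero_psi hab).2.1.symm.trans hb.1).symm hik
      · exact ⟨Or.inr (emb_ne_zero_psi hab).2.1, trivial⟩
    refine U_inj hd ?_ h2 ?_
    · have := mul_mem h1 (conj_mem_U h3 (inv_mem h1))
      simpa only [commutatorElement_def, mul_assoc] using this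
    · simp only [commutatorElement_def, map_mul, mat_blk_emb_psi hij, mat_blk_emb_psi hjk,
        mat_blk_emb_psi hik, mat_blk_emb_inv_psi hij, mat_blk_emb_inv_psi hjk]
      simp only [add_mul, mul_add, mul_sub, sub_mul, one_mul, mul_one, emb_mul_psi,
        emb_mul_ne_psi _ hij.symm, emb_mul_ne_psi _ hjk.symm, emb_mul_ne_psi _ hik.symm, zero_mul]
      abel

/-- the homomorphism attached to `φ` -/
noncomputable def Psi (I : Type) [Fintype I] [DecidableEq I] (φ : R →ₙ+* Matrix Y Y R') :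
    St I R →* St (I × Y) R' := P.lift _ (isSt_emb φ)

theorem Psi_x (φ : R →ₙ+* Matrix Y Y R') {i j : I} (h : i ≠ j) (r : R) :
    Psi I φ (x ∅ i j r) = blk ∅ (emb i j (φ r)) := P.lift_x _ _ (ok_empty.2 h) r

/-- `mat (Psi φ g) = 1 + comp ((mat g - 1).map φ)` (induct with `P.induction_on`). -/
theorem mat_Psi_eq_one (φ : R →ₙ+* Matrix Y Y R') {z : St I R} (hz : mat ∅ z = 1) :
    mat ∅ (Psi I φ z) = 1 := by
  have key : ∀ g : St I R, mat ∅ (Psi I φ g) =
      1 + Matrix.compRingEquiv I Y R' ((mat ∅ g - 1).map φ) := by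
    intro g
    induction g using P.induction_on with
    | h1 => rw [map_one, map_one, map_one, sub_self, Matrix.map_zero _ (map_zero φ), map_zero, add_zero]
    | hx i j r g hij ih =>
      have e : mat ∅ (x ∅ i j r * g) - 1 = (mat ∅ g - 1) + Matrix.single i j r +
          Matrix.single i j r * (mat ∅ g - 1) := by
        rw [map_mul, mat_x hij]
        noncomm_ring
      have e2 : (Matrix.single i j r).map φ = Matrix.single i j (φ r) :=
        Matrix.map_single _ _ _ _
      rw [map_mul, map_mul, ih, Psi_x φ hij.1, mat_blk_emb_psi hij.1, e,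
        Matrix.map_add _ (map_add φ), Matrix.map_add _ (map_add φ), Matrix.map_mul, e2, map_add,
        map_add, map_mul, ← emb_eq_psi]
      noncomm_ring
  rw [key, hz, sub_self, Matrix.map_zero _ (map_zero φ), map_zero, add_zero]

theorem Psi_mapR {Rb : Type} [Ring Rb] (π : R →+* Rb) (φ : Rb →ₙ+* Matrix Y Y R')
    (φ' : R →ₙ+* Matrix Y Y R') (h : ∀ r, φ' r = φ (π r)) (g : St I R) :
    Psi I φ (St.mapR I π g) = Psi I φ' g := by
  have : (Psi I φ).comp (St.mapR I π) = Psi I φ' := P.hom_ext fun i j r hij => by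
    rw [MonoidHom.comp_apply, St.mapR_x, Psi_x _ hij.1, Psi_x _ hij.1, h]
  exact DFunLike.congr_fun this g

/-- Conjugation by `1 + E`.  Take `c = blk (comp (diagonal fun _ => E))` (support
`univ ×ˢ A`, `univ ×ˢ B`); it normalises `U ({i} × Y) ({j} × Y)`; compare on generators with
`U_inj`, `P.hom_ext`. -/
theorem Psi_conj (φ φ' : R →ₙ+* Matrix Y Y R') {E : Matrix Y Y R'} {A B : Set Y}
    (hd : Disjoint A B) (hE : Supp E A B) (h : ∀ r, φ' r * (1 + E) = (1 + E) * φ r) :
    ∃ c : St (I × Y) R', ∀ g : St I R, Psi I φ' g = c * Psi I φ g * c⁻¹ := by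
  set D : Matrix (I × Y) (I × Y) R' :=
    Matrix.compRingEquiv I Y R' (Matrix.diagonal fun _ => E) with hD
  have hDne : ∀ a b : I × Y, D a b ≠ 0 → a.1 = b.1 ∧ E a.2 b.2 ≠ 0 := by
    intro a b hab
    have : D a b = (Matrix.diagonal fun _ : I => E) a.1 b.1 a.2 b.2 := rfl
    rw [this, Matrix.diagonal_apply] at hab
    split_ifs at hab with h1
    · exact ⟨h1, hab⟩
    · exact absurd rfl hab
  have hS : Supp D (Set.univ ×ˢ A) (Set.univ ×ˢ B) := fun a b hab =>
    ⟨⟨trivial, (hE _ _ (hDne a b hab).2).1⟩, ⟨trivial, (hE _ _ (hDne a b hab).2).2⟩⟩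
  have hmat : mat ∅ (blk (∅ : Set (I × Y)) D) = 1 + D :=
    mat_blk (disj_psi' _ _ hd) (Set.disjoint_empty _) hS
  have h1D : 1 + D = Matrix.compRingEquiv I Y R' (Matrix.diagonal fun _ => 1 + E) := by
    rw [hD, ← Matrix.diagonal_add, map_add, Matrix.diagonal_one, map_one]
  refine ⟨blk ∅ D, fun g => ?_⟩
  have : Psi I φ' = (MulAut.conj (blk (∅ : Set (I × Y)) D)).toMonoidHom.comp (Psi I φ) := by
    refine P.hom_ext fun i j r hij => ?_
    change _ = blk ∅ D * Psi I φ (x ∅ i j r) * (blk ∅ D)⁻¹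
    rw [Psi_x _ hij.1, Psi_x _ hij.1]
    have hd' : Disjoint (({i} : Set I) ×ˢ (Set.univ : Set Y)) (({j} : Set I) ×ˢ Set.univ) :=
      disj_psi (Set.disjoint_singleton.2 hij.1) _ _
    have h3 : blk (∅ : Set (I × Y)) D ∈ Subgroup.normalizer
        (U R' ∅ (({i} : Set I) ×ˢ (Set.univ : Set Y)) (({j} : Set I) ×ˢ Set.univ) :
          Set (P R' (∅ : Set (I × Y)))) := by
      refine blk_mem _ fun a b hab => x_mem_normalizer hd' (fun hb => ?_) (fun ha => ?_) _
      · exact ⟨(hDne a b hab).1.trans hb.1, trivial⟩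
      · exact ⟨(hDne a b hab).1.symm.trans ha.1, trivial⟩
    refine U_inj hd' (blk_mem_U (supp_emb_psi i j _))
      (conj_mem_U h3 (blk_mem_U (supp_emb_psi i j _))) ?_
    have e : (1 + emb i j (φ' r)) * (1 + D) = (1 + D) * (1 + emb i j (φ r)) := by
      have e1 : emb i j (φ' r) * (1 + D) = (1 + D) * emb i j (φ r) := by
        rw [h1D, emb_eq_psi, emb_eq_psi, ← map_mul, ← map_mul]
        congr 1
        refine Matrix.ext fun a b => ?_
        rw [Matrix.mul_diagonal, Matrix.diagonal_mul, Matrix.single_apply, Matrix.single_apply]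
        split_ifs
        · exact h r
        · simp
      rw [add_mul, one_mul, e1, mul_add (1 + D), mul_one]
    rw [map_mul, map_mul, mat_blk_emb_psi hij.1, mat_blk_emb_psi hij.1, hmat, ← e, ← hmat,
      mul_assoc, mat_mul_inv, mul_one]
  exact DFunLike.congr_fun this g

/-- Edge deletion.  By induction on the list `l` (length `t ≤ m`):
`Psi φ g = u * Psi φ' g` with `u ∈ U (univ ×ˢ Up t) (univ ×ˢ Dn t)`.  For a generator,
`blk (emb i j (φ γ)) = blk (emb i j (φ γ - φ' γ)) * blk (emb i j (φ' γ))` (`blk_add`), and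
`blk (emb i j (φ' γ))` normalises `U (univ ×ˢ Up t ∪ {i} ×ˢ Up (t+1)) (univ ×ˢ Dn t ∪ {j} ×ˢ Dn (t+1))`
(`x_mem_normalizer`, `i ≠ j`; for `i = j` the generator is trivial).  At the end `mat u = 1` by
`mat_Psi_eq_one`, so `u = 1` by `U_eq_one`. -/
theorem Psi_delete (φ φ' : R →ₙ+* Matrix Y Y R') {T : Type} (γ : T → R) (m : ℕ)
    (Up Dn : ℕ → Set Y) (hUp : Monotone Up) (hDn : Monotone Dn) (hd : Disjoint (Up m) (Dn m))
    (h0 : ∀ t, Supp (φ (γ t) - φ' (γ t)) (Up 0) (Dn 0))
    (h1 : ∀ t s s' k, φ' (γ t) s s' ≠ 0 → (s' ∈ Up k → s ∈ Up (k + 1)) ∧ (s ∈ Dn k → s' ∈ Dn (k + 1)))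
    (l : List (I × I × T)) (hl : l.length ≤ m)
    (hz : mat ∅ (l.map fun p => x (∅ : Set I) p.1 p.2.1 (γ p.2.2)).prod = 1) :
    Psi I φ (l.map fun p => x ∅ p.1 p.2.1 (γ p.2.2)).prod =
      Psi I φ' (l.map fun p => x ∅ p.1 p.2.1 (γ p.2.2)).prod := by
  have key : ∀ l : List (I × I × T), l.length ≤ m →
      ∃ u ∈ U R' (∅ : Set (I × Y)) (Set.univ ×ˢ Up l.length) (Set.univ ×ˢ Dn l.length),
        Psi I φ (l.map fun p => x ∅ p.1 p.2.1 (γ p.2.2)).prod =
          u * Psi I φ' (l.map fun p => x ∅ p.1 p.2.1 (γ p.2.2)).prod := by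
    intro l
    induction l with
    | nil => exact fun _ => ⟨1, one_mem _, by simp⟩
    | cons p l ih =>
      intro hl
      obtain ⟨i, j, t⟩ := p
      rw [List.length_cons] at hl ⊢
      obtain ⟨u, hu, e⟩ := ih (by omega)
      have hUs : Up l.length ⊆ Up (l.length + 1) := hUp (Nat.le_succ _)
      have hDs : Dn l.length ⊆ Dn (l.length + 1) := hDn (Nat.le_succ _)
      simp only [List.map_cons, List.prod_cons, map_mul]
      by_cases hij : i = j
      · refine ⟨u, U_mono (Set.prod_mono le_rfl hUs) (Set.prod_mono le_rfl hDs) hu, ?_⟩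
        rw [x_triv (by simpa using hij), map_one, map_one, one_mul, one_mul, e]
      · have hA : (Set.univ ×ˢ Up l.length ∪ {i} ×ˢ Up (l.length + 1) : Set (I × Y)) ⊆
            Set.univ ×ˢ Up (l.length + 1) :=
          Set.union_subset (Set.prod_mono le_rfl hUs) (Set.prod_mono (Set.subset_univ _) le_rfl)
        have hB : (Set.univ ×ˢ Dn l.length ∪ {j} ×ˢ Dn (l.length + 1) : Set (I × Y)) ⊆
            Set.univ ×ˢ Dn (l.length + 1) :=
          Set.union_subset (Set.prod_mono le_rfl hDs) (Set.prod_mono (Set.subset_univ _) le_rfl)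
        have hd' : Disjoint
            (Set.univ ×ˢ Up l.length ∪ {i} ×ˢ Up (l.length + 1) : Set (I × Y))
            (Set.univ ×ˢ Dn l.length ∪ {j} ×ˢ Dn (l.length + 1)) :=
          (disj_psi' _ _ (hd.mono (hUp hl) (hDn hl))).mono hA hB
        have h3 : blk (∅ : Set (I × Y)) (emb i j (φ' (γ t))) ∈ Subgroup.normalizer
            (U R' ∅ (Set.univ ×ˢ Up l.length ∪ {i} ×ˢ Up (l.length + 1) : Set (I × Y))
              (Set.univ ×ˢ Dn l.length ∪ {j} ×ˢ Dn (l.length + 1)) :
              Set (P R' (∅ : Set (I × Y)))) := by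
          refine blk_mem _ fun a b hab => x_mem_normalizer hd' (fun hb => ?_) (fun ha => ?_) _
          · obtain ⟨ha1, hb1, hne, -⟩ := emb_ne_zero_psi hab
            rcases hb with hb | hb
            · exact Or.inr ⟨ha1, (h1 t _ _ _ hne).1 hb.2⟩
            · exact absurd (hb1.symm.trans hb.1).symm hij
          · obtain ⟨ha1, hb1, hne, -⟩ := emb_ne_zero_psi hab
            rcases ha with ha | ha
            · exact Or.inr ⟨hb1, (h1 t _ _ _ hne).2 ha.2⟩
            · exact absurd (ha1.symm.trans ha.1) hij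
        have h4 := U_mono hA hB (conj_mem_U h3
          (U_mono Set.subset_union_left Set.subset_union_left hu))
        have h5 : blk (∅ : Set (I × Y)) (emb i j (φ (γ t) - φ' (γ t))) ∈
            U R' ∅ (Set.univ ×ˢ Up (l.length + 1)) (Set.univ ×ˢ Dn (l.length + 1)) :=
          blk_mem_U ((supp_emb_psi' i j (h0 t)).mono
            (Set.prod_mono (Set.subset_univ _) (hUp (Nat.zero_le _)))
            (Set.prod_mono (Set.subset_univ _) (hDn (Nat.zero_le _))))
        refine ⟨_, mul_mem h5 h4, ?_⟩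
        have h6 : blk (∅ : Set (I × Y)) (emb i j (φ (γ t))) =
            blk ∅ (emb i j (φ (γ t) - φ' (γ t))) * blk ∅ (emb i j (φ' (γ t))) := by
          rw [← blk_emb_add_psi hij, sub_add_cancel]
        rw [e, Psi_x _ hij, Psi_x _ hij, h6]
        group
  obtain ⟨u, hu, e⟩ := key l hl
  have h2 := congrArg (mat ∅) e
  rw [map_mul, mat_Psi_eq_one φ hz, mat_Psi_eq_one φ' hz, mul_one] at h2
  rw [e, U_eq_one (disj_psi' _ _ (hd.mono (hUp hl) (hDn hl))) hu h2.symm, one_mul]

/-- Isolated vertices.  `φ = φ₁ + φ₂` with the non-unital homs `φ₁ r = single y₀ y₀ r` and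
`φ₂ r = φ₃ (ε r)`, `φ₃ c = diagonal (if p = y₀ then 0 else algebraMap c)`.  `Psi φ₁ = mapI`
(`Matrix.comp_single_single`, `blk_single`), the images of `Psi φ₁` and `Psi φ₂` commute
(`U_commute`: supports in `I × {y₀}` and `I × {y₀}ᶜ`), `Psi φ g = Psi φ₁ g * Psi φ₂ g`
(`P.induction_on`, `blk_add`), and `Psi φ₂ z = Psi φ₃ (mapR ε z) = 1` (`Psi_mapR`). -/
theorem Psi_isolated [Algebra (ZMod 2) R] (ε : R →+* ZMod 2) (y₀ : Y) (φ : R →ₙ+* Matrix Y Y R)
    (hφ : ∀ r p q, φ r p q =
      if p = q then (if p = y₀ then r else algebraMap (ZMod 2) R (ε r)) else 0)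
    {z : St I R} (hz : St.mapR I ε z = 1) :
    Psi I φ z = St.mapI R ⟨fun i => (i, y₀), fun _ _ h => (Prod.mk.inj h).1⟩ z := by
  let φ₁ : R →ₙ+* Matrix Y Y R :=
    { toFun := fun r => Matrix.single y₀ y₀ r
      map_mul' := fun r s => by rw [Matrix.single_mul_single_same]
      map_zero' := Matrix.single_zero _ _
      map_add' := fun r s => Matrix.single_add _ _ _ _ }
  let φ₃ : ZMod 2 →ₙ+* Matrix Y Y R :=
    { toFun := fun c => Matrix.diagonal fun p => if p = y₀ then 0 else algebraMap (ZMod 2) R c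
      map_mul' := fun r s => by
        rw [Matrix.diagonal_mul_diagonal]
        congr 1
        funext p
        split_ifs <;> simp
      map_zero' := by simp
      map_add' := fun r s => by
        rw [Matrix.diagonal_add]
        congr 1
        funext p
        split_ifs <;> simp }
  let φ₂ : R →ₙ+* Matrix Y Y R := φ₃.comp (ε : R →ₙ+* ZMod 2)
  have e1 : ∀ r, φ₁ r = Matrix.single y₀ y₀ r := fun _ => rfl
  have e2 : ∀ r, φ₂ r =
      Matrix.diagonal fun p => if p = y₀ then 0 else algebraMap (ZMod 2) R (ε r) := fun _ => rfl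
  have hsum : ∀ r, φ r = φ₁ r + φ₂ r := by
    intro r
    ext p q
    rw [hφ, e1, e2, Matrix.add_apply, Matrix.single_apply, Matrix.diagonal_apply]
    by_cases hpq : p = q
    · subst hpq
      by_cases hp : p = y₀
      · simp [hp]
      · simp [hp, Ne.symm hp]
    · have : ¬ (y₀ = p ∧ y₀ = q) := fun h => hpq (h.1.symm.trans h.2)
      simp [hpq, this]
  have m1 : ∀ g, Psi I φ₁ g ∈
      U R (∅ : Set (I × Y)) (Set.univ ×ˢ {y₀}) (Set.univ ×ˢ {y₀}) := by
    intro g
    refine P.mem_of_x ((U R (∅ : Set (I × Y)) (Set.univ ×ˢ {y₀}) (Set.univ ×ˢ {y₀})).comap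
      (Psi I φ₁)) (fun i j r hij => ?_) g
    rw [Subgroup.mem_comap, Psi_x _ hij.1, e1]
    exact blk_mem_U ((supp_emb_psi' i j (Supp.single (A := {y₀}) (B := {y₀}) rfl rfl r)).mono
      (Set.prod_mono (Set.subset_univ _) le_rfl) (Set.prod_mono (Set.subset_univ _) le_rfl))
  have m2 : ∀ g, Psi I φ₂ g ∈
      U R (∅ : Set (I × Y)) (Set.univ ×ˢ {y₀}ᶜ) (Set.univ ×ˢ {y₀}ᶜ) := by
    intro g
    refine P.mem_of_x ((U R (∅ : Set (I × Y)) (Set.univ ×ˢ {y₀}ᶜ) (Set.univ ×ˢ {y₀}ᶜ)).comap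
      (Psi I φ₂)) (fun i j r hij => ?_) g
    rw [Subgroup.mem_comap, Psi_x _ hij.1]
    have hs : Supp (φ₂ r) {y₀}ᶜ {y₀}ᶜ := by
      intro p q hpq
      rw [e2, Matrix.diagonal_apply] at hpq
      by_cases h1 : p = q
      · subst h1
        have : p ≠ y₀ := fun h => hpq (by simp [h])
        exact ⟨this, this⟩
      · exact absurd (if_neg h1) hpq
    exact blk_mem_U ((supp_emb_psi' i j hs).mono
      (Set.prod_mono (Set.subset_univ _) le_rfl) (Set.prod_mono (Set.subset_univ _) le_rfl))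
  have hc : ∀ g g', Commute (Psi I φ₁ g) (Psi I φ₂ g') := fun g g' =>
    U_commute (disj_psi' _ _ disjoint_compl_right) (disj_psi' _ _ disjoint_compl_right)
      (m1 g) (m2 g')
  have key : ∀ g, Psi I φ g = Psi I φ₁ g * Psi I φ₂ g := by
    intro g
    induction g using P.induction_on with
    | h1 => simp
    | hx i j r g hij ih =>
      have e : Psi I φ (x ∅ i j r) = Psi I φ₁ (x ∅ i j r) * Psi I φ₂ (x ∅ i j r) := by
        rw [Psi_x _ hij.1, Psi_x _ hij.1, Psi_x _ hij.1, hsum, blk_emb_add_psi hij.1]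
      rw [map_mul, map_mul, map_mul, ih, e, mul_assoc, mul_assoc,
        ← mul_assoc (Psi I φ₂ (x ∅ i j r)), ← (hc g (x ∅ i j r)).eq, mul_assoc]
  have e3 : Psi I φ₂ z = 1 := by
    rw [← Psi_mapR ε φ₃ φ₂ (fun _ => rfl), hz, map_one]
  have e4 : Psi I φ₁ = St.mapI R ⟨fun i => (i, y₀), fun _ _ h => (Prod.mk.inj h).1⟩ := by
    refine P.hom_ext fun i j r hij => ?_
    rw [Psi_x _ hij.1, St.mapI_x, e1, emb, Matrix.comp_single_single, blk_single]
    rfl
  rw [key, e3, mul_one, e4]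

end Crest.Agent.R176
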