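import Crest.Agent.R176.StS1

/-! Row 176, group half: injective stability for at least eight indices.

We glue the actions of the groups `P {k}` on `V × P {o}` along charts. -/

set_option autoImplicit false

namespace Crest.Agent.R176

open scoped commutatorElement
open Matrix

variable {R : Type} [Ring R]

section kernel

variable {J : Type} [Fintype J] [DecidableEq J]

theorem mem_rows_of_mat_eq_one {K : Set J} {q : P R K} (hq : mat K q = 1) :
    q ∈ U R K Kᶜ Set.univ := by
  have hd : Disjoint K Kᶜ := disjoint_compl_right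
  have dec : ∀ q : P R K, ∃ u ∈ U R K K Kᶜ, ∃ l ∈ U R K Kᶜ Set.univ, q = u * l := by
    intro q
    induction q using P.induction_on with
    | h1 => exact ⟨1, one_mem _, 1, one_mem _, by simp⟩
    | hx i j r g hij ih =>
      obtain ⟨u, hu, l, hl, rfl⟩ := ih
      by_cases hi : i ∈ K
      · exact ⟨x K i j r * u, mul_mem (x_mem_U hi hij.2 r) hu, l, hl, by rw [mul_assoc]⟩
      · refine ⟨x K i j r * u * (x K i j r)⁻¹,
          conj_x_mem_U hd (fun h => absurd h hij.2) (fun _ => hij.2) r hu,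
          x K i j r * l, mul_mem (x_mem_U hi (Set.mem_univ j) r) hl, by group⟩
  obtain ⟨u, hu, l, hl, rfl⟩ := dec q
  let H : Subgroup (P R K) :=
    { carrier := {g | ∀ a ∈ K, Pi.single a 1 ᵥ* mat K g = Pi.single a 1}
      one_mem' := fun a _ => by simp
      mul_mem' := fun {g g'} hg hg' a ha => by
        rw [map_mul, ← Matrix.vecMul_vecMul, hg a ha, hg' a ha]
      inv_mem' := fun {g} hg a ha => by
        conv_lhs => rw [← hg a ha]
        rw [Matrix.vecMul_vecMul, mat_mul_inv, Matrix.vecMul_one] }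
  have hH : U R K Kᶜ Set.univ ≤ H := U_le fun i hi j _ r hij a ha => by
    rw [mat_x hij, Matrix.vecMul_add, Matrix.vecMul_one, add_eq_left]
    ext b
    have : i ≠ a := fun e => hi (e ▸ ha)
    simp [Matrix.single_vecMul, this]
  have h1 : mat K u = mat K l⁻¹ := by
    rw [map_mul] at hq
    rw [← mul_one (mat K u), ← mat_mul_inv l, ← mul_assoc, hq, one_mul]
  obtain ⟨M, hM, rfl⟩ := exists_blk_of_mem_U hd hu
  rw [mat_blk (hd.mono_right Set.sdiff_subset) Set.disjoint_sdiff_left hM] at h1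
  have h2 : M = 0 := by
    ext a b
    by_contra hab
    have h3 := congrFun (hH (inv_mem hl) a (hM a b hab).1) b
    rw [← h1, Matrix.vecMul_add, Matrix.vecMul_one] at h3
    simp [Matrix.single_vecMul] at h3
    exact hab h3
  rw [h2, blk_zero, one_mul]
  exact hl

omit [Fintype J] [DecidableEq J] in
theorem sub_k (o k : J) : ({k} : Set J) ⊆ insert o {k} := Set.subset_insert _ _

omit [Fintype J] [DecidableEq J] in
theorem sub_o (o k : J) : ({o} : Set J) ⊆ insert o {k} := by simp

theorem res_eq_one_swap {o k : J} {q : P R (insert o {k})} (h : P.res (sub_k o k) q = 1) :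
    P.res (sub_o o k) q = 1 := by
  have hq : mat _ q = 1 := by rw [← mat_res (sub_k o k), h, map_one]
  let σ : P R ({k} : Set J) →* P R ({o} : Set J) :=
    P.map (Equiv.swap k o) (Equiv.injective _) (fun j hj ho => hj (by
      rw [Set.mem_singleton_iff, Equiv.swap_apply_eq_iff, Equiv.swap_apply_right] at ho
      exact ho)) (RingHom.id R)
  have : U R (insert o {k}) (insert o {k})ᶜ Set.univ ≤
      (σ.comp (P.res (sub_k o k))).eqLocus (P.res (sub_o o k)) := U_le fun i hi j _ r hij => by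
    have hj := hij.2
    simp only [Set.mem_compl_iff, Set.mem_insert_iff, Set.mem_singleton_iff, not_or] at hi hj
    change σ (P.res (sub_k o k) _) = _
    rw [P.res_x _ hij, P.res_x _ hij, P.map_x _ _ _ _ ⟨hij.1, hj.2⟩,
      Equiv.swap_apply_of_ne_of_ne hi.2 hi.1, Equiv.swap_apply_of_ne_of_ne hj.2 hj.1]
    rfl
  have h1 : σ (P.res (sub_k o k) q) = P.res (sub_o o k) q := this (mem_rows_of_mat_eq_one hq)
  rw [← h1, h, map_one]

end kernel

section charts

variable {J : Type} [Fintype J] [DecidableEq J] [CharP R 2] {ε : R →+* ZMod 2}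

/-- action on vectors -/
noncomputable def act {K : Set J} (g : P R K) (v : J → R) : J → R := mat K g *ᵥ v

omit [CharP R 2] in
theorem act_mul {K : Set J} (g h : P R K) (v : J → R) : act (g * h) v = act g (act h v) := by
  simp [act]

omit [CharP R 2] in
@[simp] theorem act_one {K : Set J} (v : J → R) : act (1 : P R K) v = v := by simp [act]

omit [CharP R 2] in
@[simp] theorem act_res {K L : Set J} (h : L ⊆ K) (g : P R K) (v : J → R) :
    act (P.res h g) v = act g v := by simp [act, mat_res]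

omit [CharP R 2] in
theorem act_inv_mul {K : Set J} {g h : P R K} {v : J → R} (e : act g v = act h v) :
    act (g⁻¹ * h) v = v := by
  rw [act_mul, ← e, ← act_mul, inv_mul_cancel, act_one]

omit [CharP R 2] in
theorem act_x {K : Set J} {i j : J} (h : Ok K i j) (r : R) (v : J → R) {a : J} (ha : a ≠ i) :
    act (x K i j r) v a = v a := by
  simp [act, mat_x h, Matrix.add_mulVec, Matrix.single_mulVec, ha]

/-- the base vector -/
abbrev bv (R : Type) [Ring R] (o : J) : J → R := Pi.single o 1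

/-- the partial map `Stab_{P {k}} e_o → P {o}` -/
noncomputable def th (o k : J) (s : P R ({k} : Set J)) : P R ({o} : Set J) :=
  open Classical in
  if h : ∃ q, P.res (sub_k o k) q = s then P.res (sub_o o k) h.choose else 1

omit [CharP R 2] in
theorem th_res (o k : J) (q : P R (insert o {k})) :
    th o k (P.res (sub_k o k) q) = P.res (sub_o o k) q := by
  have h : ∃ q', P.res (sub_k o k) q' = P.res (sub_k o k) q := ⟨q, rfl⟩
  rw [th, dif_pos h, ← mul_inv_eq_one, ← map_inv, ← map_mul]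
  apply res_eq_one_swap
  rw [map_mul, map_inv, h.choose_spec, mul_inv_cancel]

omit [Ring R] [CharP R 2] in
theorem exists_not_mem_card (hJ : 9 ≤ Fintype.card J) (S : Finset J) (hS : S.card ≤ 8) :
    ∃ c, c ∉ S := by
  by_contra h
  push Not at h
  have := Finset.card_le_card (fun c _ => h c : (Finset.univ : Finset J) ⊆ S)
  rw [Finset.card_univ] at this
  omega

omit [Ring R] [CharP R 2] in
theorem third3 (hJ : 9 ≤ Fintype.card J) (k l m a b : J) :
    ∃ c, c ∉ ({k, l, m} : Set J) ∧ c ≠ a ∧ c ≠ b := by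
  obtain ⟨c, hc⟩ := exists_not_mem_card hJ {k, l, m, a, b} (Finset.card_le_five.trans (by omega))
  refine ⟨c, ?_⟩
  simpa [not_or, and_assoc] using hc

omit [Ring R] [CharP R 2] in
theorem third2 (hJ : 9 ≤ Fintype.card J) (k l a b : J) :
    ∃ c, c ∉ ({k, l} : Set J) ∧ c ≠ a ∧ c ≠ b := by
  simpa using third3 hJ k l l a b

omit [Ring R] [CharP R 2] in
theorem third1 (hJ : 9 ≤ Fintype.card J) (k a b : J) :
    ∃ c, c ∉ ({k} : Set J) ∧ c ≠ a ∧ c ≠ b := by
  simpa using third3 hJ k k k a b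

variable (hε : Aug ε) (hJ : 9 ≤ Fintype.card J) {o : J}
include hε hJ

theorem th_mul {k : J} (hk : k ≠ o) {s s' : P R ({k} : Set J)} (hs : act s (bv R o) = bv R o)
    (hs' : act s' (bv R o) = bv R o) : th o k (s * s') = th o k s * th o k s' := by
  obtain ⟨q, rfl⟩ := stab_res hε (K := {k}) (o := o) (Ne.symm hk) (third1 hJ k) hs
  obtain ⟨q', rfl⟩ := stab_res hε (K := {k}) (o := o) (Ne.symm hk) (third1 hJ k) hs'
  rw [← map_mul, th_res, th_res, th_res, map_mul]

omit hε hJ [CharP R 2] in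
theorem th_one (k : J) : th o k (1 : P R ({k} : Set J)) = 1 := by
  rw [← map_one (P.res (sub_k o k)), th_res, map_one]

omit hε hJ [Fintype J] [DecidableEq J] in
theorem s1 (k l : J) : ({k} : Set J) ⊆ {k, l} := by simp

omit hε hJ [Fintype J] [DecidableEq J] in
theorem s2 (k l : J) : ({l} : Set J) ⊆ {k, l} := by simp

theorem th_res_eq {k l : J} (hk : k ≠ o) (hl : l ≠ o) {s : P R ({k, l} : Set J)}
    (hs : act s (bv R o) = bv R o) : th o k (P.res (s1 k l) s) = th o l (P.res (s2 k l) s) := by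
  obtain ⟨q, rfl⟩ := stab_res hε (K := {k, l}) (o := o) (by simp [hk.symm, hl.symm])
    (third2 hJ k l) hs
  have h1 := th_res o k (P.res (Set.insert_subset_insert (s1 k l)) q)
  have h2 := th_res o l (P.res (Set.insert_subset_insert (s2 k l)) q)
  simp only [P.res_res] at h1 h2 ⊢
  rw [h1, h2]

omit hε hJ [CharP R 2] in
/-- the transition element between two charts -/
noncomputable def dif (o : J) {k l : J} (g : P R ({k} : Set J)) (g' : P R ({l} : Set J)) :
    P R ({o} : Set J) :=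
  open Classical in
  if h : ∃ a : P R ({k, l} : Set J), act a (bv R o) = act g (bv R o) then
    th o l (g'⁻¹ * P.res (s2 k l) h.choose) * th o k ((P.res (s1 k l) h.choose)⁻¹ * g) else 1

theorem dif_eq {k l : J} (hk : k ≠ o) (hl : l ≠ o) {g : P R ({k} : Set J)} {g' : P R ({l} : Set J)}
    {K : Set J} (hK : {k} ⊆ K) (hL : {l} ⊆ K) {a : P R K} (h1 : act a (bv R o) = act g (bv R o))
    (h2 : act a (bv R o) = act g' (bv R o)) :
    dif o g g' = th o l (g'⁻¹ * P.res hL a) * th o k ((P.res hK a)⁻¹ * g) := by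
  have hkl : ({k, l} : Set J) ⊆ K := Set.insert_subset (hK rfl) hL
  have h : ∃ a : P R ({k, l} : Set J), act a (bv R o) = act g (bv R o) :=
    ⟨P.res hkl a, by rw [act_res, h1]⟩
  rw [dif, dif_pos h]
  have hb := h.choose_spec
  generalize h.choose = b at hb
  have hs : act (b⁻¹ * P.res hkl a) (bv R o) = bv R o := act_inv_mul (by rw [act_res, h1, hb])
  have e1 : g'⁻¹ * P.res hL a = (g'⁻¹ * P.res (s2 k l) b) * P.res (s2 k l) (b⁻¹ * P.res hkl a) := by
    rw [map_mul, map_inv, P.res_res]; group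
  have e2 : (P.res (s1 k l) b)⁻¹ * g =
      P.res (s1 k l) (b⁻¹ * P.res hkl a) * ((P.res hK a)⁻¹ * g) := by
    rw [map_mul, map_inv, P.res_res]; group
  rw [e1, e2, th_mul hε hJ hl (act_inv_mul (by rw [act_res, hb, ← h1, h2])) (by rw [act_res, hs]),
    th_mul hε hJ hk (by rw [act_res, hs]) (act_inv_mul (by rw [act_res, h1])),
    th_res_eq hε hJ hk hl hs, mul_assoc]

omit hε hJ [CharP R 2] in
/-- unimodular vectors -/
def Um (ε : R →+* ZMod 2) (v : J → R) : Prop := ∃ i, ε (v i) ≠ 0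

omit hε hJ [CharP R 2] in
theorem Um.act {v : J → R} (hv : Um ε v) {K : Set J} (g : P R K) : Um ε (act g v) := by
  by_contra h
  simp only [Um, not_exists, not_not] at h
  obtain ⟨i, hi⟩ := hv
  apply hi
  have : v = R176.act g⁻¹ (R176.act g v) := by rw [← act_mul, inv_mul_cancel, act_one]
  rw [this]
  generalize R176.act g v = w at h
  simp [R176.act, Matrix.mulVec, dotProduct, h]

omit hε hJ [CharP R 2] in
/-- the charts at `v` -/
def Ch (ε : R →+* ZMod 2) (o : J) (v : J → R) (k : J) : Prop :=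
  k ≠ o ∧ (ε (v k) = 0 ∨ 4 ≤ (Finset.univ.filter fun i => ε (v i) ≠ 0).card)

theorem exists_chart3 {v : J → R} (hv : Um ε v) {k l m : J} (hk : Ch ε o v k) (hl : Ch ε o v l)
    (hm : Ch ε o v m) : ∃ a : P R ({k, l, m} : Set J), act a (bv R o) = v := by
  obtain ⟨i, hi, hi'⟩ : ∃ i, i ∉ ({k, l, m} : Set J) ∧ ε (v i) ≠ 0 := by
    by_cases h4 : 4 ≤ (Finset.univ.filter fun i => ε (v i) ≠ 0).card
    · by_contra h
      push Not at h
      have : (Finset.univ.filter fun i => ε (v i) ≠ 0) ⊆ {k, l, m} := fun i hi => by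
        by_contra hn
        exact (Finset.mem_filter.1 hi).2 (h i (by simpa using hn))
      have h3 := (Finset.card_le_card this).trans Finset.card_le_three
      omega
    · obtain ⟨i, hi⟩ := hv
      refine ⟨i, ?_, hi⟩
      rintro (rfl | rfl | rfl)
      · exact hi (hk.2.resolve_right h4)
      · exact hi (hl.2.resolve_right h4)
      · exact hi (hm.2.resolve_right h4)
  exact orbit hε (by simp [hk.1.symm, hl.1.symm, hm.1.symm]) (third3 hJ k l m) hi hi'

omit hε [CharP R 2] in
theorem exists_good (o : J) (v : J → R) (S : Finset J) (hS : S.card ≤ 4) :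
    ∃ k, k ∉ S ∧ ∀ w : J → R, (∀ i, i ∉ S → w i = v i) → Ch ε o w k := by
  let T := Finset.univ.filter fun i => i ∉ S ∧ ε (v i) ≠ 0
  by_cases h4 : 4 ≤ T.card
  · obtain ⟨k, hk⟩ := exists_not_mem_card hJ (insert o S)
      ((Finset.card_insert_le _ _).trans (by omega))
    rw [Finset.mem_insert, not_or] at hk
    refine ⟨k, hk.2, fun w hw => ⟨hk.1, Or.inr (h4.trans (Finset.card_le_card fun i hi => ?_))⟩⟩
    rw [Finset.mem_filter] at hi ⊢
    exact ⟨hi.1, by rw [hw i hi.2.1]; exact hi.2.2⟩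
  · obtain ⟨k, hk⟩ := exists_not_mem_card hJ (insert o (S ∪ T))
      ((Finset.card_insert_le _ _).trans (by have := Finset.card_union_le S T; omega))
    simp only [Finset.mem_insert, Finset.mem_union, not_or, T, Finset.mem_filter, Finset.mem_univ,
      true_and, not_and, not_not] at hk
    exact ⟨k, hk.2.1, fun w hw => ⟨hk.1, Or.inl (by rw [hw k hk.2.1]; exact hk.2.2 hk.2.1)⟩⟩

theorem exists_chart1 {v : J → R} (hv : Um ε v) {k : J} (hk : Ch ε o v k) :
    ∃ g : P R ({k} : Set J), act g (bv R o) = v := by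
  obtain ⟨a, ha⟩ := exists_chart3 hε hJ hv hk hk hk
  exact ⟨P.res (by simp) a, by rw [act_res, ha]⟩

omit hε hJ [CharP R 2] in
/-- a chosen element of `P {k}` moving `e_o` to `v` -/
noncomputable def rep (o k : J) (v : J → R) : P R ({k} : Set J) :=
  open Classical in if h : ∃ g : P R ({k} : Set J), act g (bv R o) = v then h.choose else 1

theorem act_rep {v : J → R} (hv : Um ε v) {k : J} (hk : Ch ε o v k) :
    act (rep o k v) (bv R o) = v := by
  have h := exists_chart1 hε hJ hv hk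
  rw [rep, dif_pos h, h.choose_spec]

omit hε hJ [CharP R 2] in
/-- a chosen chart -/
noncomputable def kk (ε : R →+* ZMod 2) (o : J) (v : J → R) : J :=
  open Classical in if h : ∃ k, Ch ε o v k then h.choose else o

omit hε [CharP R 2] in
theorem ch_kk (o : J) (v : J → R) : Ch ε o v (kk ε o v) := by
  have h : ∃ k, Ch ε o v k := by
    obtain ⟨k, -, hk⟩ := exists_good (ε := ε) hJ o v ∅ (by simp)
    exact ⟨k, hk v fun _ _ => rfl⟩
  rw [kk, dif_pos h]
  exact h.choose_spec

omit hε hJ [CharP R 2] in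
/-- the coordinate of `g` in the chosen chart at `v` -/
noncomputable def FF (ε : R →+* ZMod 2) (o : J) (v : J → R) {k : J} (g : P R ({k} : Set J)) :
    P R ({o} : Set J) := dif o g (rep o (kk ε o v) v)

theorem FF_mul {v : J → R} (hv : Um ε v) {k : J} (hk : Ch ε o v k) {g s : P R ({k} : Set J)}
    (hg : act g (bv R o) = v) (hs : act s (bv R o) = bv R o) :
    FF ε o v (g * s) = FF ε o v g * th o k s := by
  have hl := ch_kk (ε := ε) hJ o v
  obtain ⟨a, ha⟩ := exists_chart3 hε hJ hv hk hl hl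
  have hr := act_rep hε hJ hv hl
  unfold FF
  rw [dif_eq hε hJ hk.1 hl.1 (a := a) (by simp) (by simp) (by rw [act_mul, hs, hg, ha])
      (by rw [ha, hr]),
    dif_eq hε hJ hk.1 hl.1 (a := a) (by simp) (by simp) (by rw [hg, ha]) (by rw [ha, hr]),
    ← mul_assoc _ g s, th_mul hε hJ hk.1 (act_inv_mul (by rw [act_res, ha, hg])) hs, mul_assoc]

theorem FF_res {v : J → R} (hv : Um ε v) {k l : J} (hk : Ch ε o v k) (hl : Ch ε o v l)
    {h : P R ({k, l} : Set J)} (hh : act h (bv R o) = v) :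
    FF ε o v (P.res (s1 k l) h) = FF ε o v (P.res (s2 k l) h) := by
  have hm := ch_kk (ε := ε) hJ o v
  obtain ⟨a, ha⟩ := exists_chart3 hε hJ hv hk hl hm
  have hr := act_rep hε hJ hv hm
  have hkl : ({k, l} : Set J) ⊆ {k, l, kk ε o v} := by
    rintro _ (rfl | rfl) <;> simp
  unfold FF
  rw [dif_eq hε hJ hk.1 hm.1 (a := a) (by simp) (by simp) (by rw [act_res, hh, ha])
      (by rw [ha, hr]),
    dif_eq hε hJ hl.1 hm.1 (a := a) (by simp) (by simp) (by rw [act_res, hh, ha]) (by rw [ha, hr])]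
  have := th_res_eq hε hJ hk.1 hl.1 (s := (P.res hkl a)⁻¹ * h)
    (act_inv_mul (by rw [act_res, ha, hh]))
  simp only [map_mul, map_inv, P.res_res] at this
  rw [this]

omit hε hJ [CharP R 2] in
/-- the cocycle in the chart `k` -/
noncomputable def CC (ε : R →+* ZMod 2) (o : J) {k : J} (v : J → R) (y : P R ({k} : Set J)) :
    P R ({o} : Set J) := FF ε o (act y v) (y * rep o k v) * (FF ε o v (rep o k v))⁻¹

theorem CC_eq {v : J → R} (hv : Um ε v) {k : J} {y g : P R ({k} : Set J)} (hk : Ch ε o v k)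
    (hk' : Ch ε o (act y v) k) (hg : act g (bv R o) = v) :
    CC ε o v y = FF ε o (act y v) (y * g) * (FF ε o v g)⁻¹ := by
  have hr := act_rep hε hJ hv hk
  have hs : act ((rep o k v)⁻¹ * g) (bv R o) = bv R o := act_inv_mul (by rw [hr, hg])
  have e1 : g = rep o k v * ((rep o k v)⁻¹ * g) := by group
  have e2 : y * g = (y * rep o k v) * ((rep o k v)⁻¹ * g) := by group
  have h1 := FF_mul hε hJ hv hk hr hs
  rw [← e1] at h1
  rw [CC, e2, FF_mul hε hJ (hv.act y) hk' (by rw [act_mul, hr]) hs, h1]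
  group

theorem CC_mul {v : J → R} (hv : Um ε v) {k : J} {y y' : P R ({k} : Set J)} (hk : Ch ε o v k)
    (hk' : Ch ε o (act y v) k) (hk'' : Ch ε o (act y' (act y v)) k) :
    CC ε o v (y' * y) = CC ε o (act y v) y' * CC ε o v y := by
  have hr := act_rep hε hJ hv hk
  rw [CC_eq hε hJ (hv.act y) hk' hk'' (g := y * rep o k v) (by rw [act_mul, hr]), CC, CC, act_mul,
    mul_assoc y']
  group

omit hε hJ [CharP R 2] in
theorem CC_one (v : J → R) (k : J) : CC ε o v (1 : P R ({k} : Set J)) = 1 := by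
  simp [CC]

theorem CC_res {v : J → R} (hv : Um ε v) {k l : J} {y : P R ({k, l} : Set J)} (hk : Ch ε o v k)
    (hl : Ch ε o v l) (hk' : Ch ε o (act y v) k) (hl' : Ch ε o (act y v) l) :
    CC ε o v (P.res (s1 k l) y) = CC ε o v (P.res (s2 k l) y) := by
  obtain ⟨a, ha⟩ := exists_chart3 hε hJ hv hk hl hl
  have hkl : ({k, l} : Set J) ⊆ {k, l, l} := by simp
  have hb : act (P.res hkl a) (bv R o) = v := by rw [act_res, ha]
  generalize P.res hkl a = b at hb
  rw [CC_eq hε hJ hv hk (by rwa [act_res]) (g := P.res (s1 k l) b) (by rw [act_res, hb]),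
    CC_eq hε hJ hv hl (by rwa [act_res]) (g := P.res (s2 k l) b) (by rw [act_res, hb]),
    ← map_mul, ← map_mul, act_res, act_res, FF_res hε hJ hv hk hl hb,
    FF_res hε hJ (hv.act y) hk' hl' (by rw [act_mul, hb])]

omit hε hJ [CharP R 2] in
/-- the set acted upon -/
abbrev Om (ε : R →+* ZMod 2) (o : J) : Type := {v : J → R // Um ε v} × P R ({o} : Set J)

omit hε hJ [CharP R 2] in
/-- a chart for a generator at `v` -/
noncomputable def kx (ε : R →+* ZMod 2) (o : J) (p : J × J × R) (v : J → R) : J :=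
  open Classical in
  if h : ∃ k, k ≠ p.2.1 ∧ Ch ε o v k ∧ Ch ε o (act (x ∅ p.1 p.2.1 p.2.2) v) k then h.choose else o

omit hε hJ [CharP R 2] in
/-- the action of a generator -/
noncomputable def TT (ε : R →+* ZMod 2) (o : J) (p : J × J × R) (ω : Om ε o) : Om ε o :=
  (⟨act (x ∅ p.1 p.2.1 p.2.2) ω.1.1, ω.1.2.act _⟩,
    CC ε o ω.1.1 (x {kx ε o p ω.1.1} p.1 p.2.1 p.2.2) * ω.2)

omit hε hJ [CharP R 2] in
theorem act_x_eq {K : Set J} {i j : J} (h : Ok K i j) (r : R) (v : J → R) :
    act (x K i j r) v = act (x ∅ i j r) v := by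
  rw [← P.res_x (Set.empty_subset K) h, act_res]

theorem TT_eq {p : J × J × R} (hp : p.1 ≠ p.2.1) (ω : Om ε o) {k : J} (hk : k ≠ p.2.1)
    (h1 : Ch ε o ω.1.1 k) (h2 : Ch ε o (act (x ∅ p.1 p.2.1 p.2.2) ω.1.1) k) :
    (TT ε o p ω).2 = CC ε o ω.1.1 (x {k} p.1 p.2.1 p.2.2) * ω.2 := by
  have h : ∃ k, k ≠ p.2.1 ∧ Ch ε o ω.1.1 k ∧ Ch ε o (act (x ∅ p.1 p.2.1 p.2.2) ω.1.1) k :=
    ⟨k, hk, h1, h2⟩
  have hl : kx ε o p ω.1.1 ≠ p.2.1 ∧ Ch ε o ω.1.1 (kx ε o p ω.1.1) ∧
      Ch ε o (act (x ∅ p.1 p.2.1 p.2.2) ω.1.1) (kx ε o p ω.1.1) := by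
    rw [kx, dif_pos h]; exact h.choose_spec
  unfold TT
  generalize kx ε o p ω.1.1 = l at hl
  have hok : Ok ({k, l} : Set J) p.1 p.2.1 := ⟨hp, by simp [hk.symm, hl.1.symm]⟩
  have := CC_res hε hJ ω.1.2 (y := x {k, l} p.1 p.2.1 p.2.2) h1 hl.2.1
    (by rwa [act_x_eq hok]) (by rw [act_x_eq hok]; exact hl.2.2)
  rw [P.res_x _ hok, P.res_x _ hok] at this
  rw [this]

omit hε hJ [CharP R 2] in
/-- the product of a list of generators -/
noncomputable def xL (K : Set J) (L : List (J × J × R)) : P R K :=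
  (L.map fun p => x K p.1 p.2.1 p.2.2).prod

theorem TL_eq (ω : Om ε o) (S : Finset J) {k : J} (hkS : k ∉ S)
    (hk : ∀ w : J → R, (∀ i, i ∉ S → w i = ω.1.1 i) → Ch ε o w k) (L : List (J × J × R))
    (hL : ∀ p ∈ L, p.1 ≠ p.2.1 ∧ p.1 ∈ S ∧ p.2.1 ∈ S) :
    (L.foldr (TT ε o) ω).1.1 = act (xL {k} L) ω.1.1 ∧
      (L.foldr (TT ε o) ω).2 = CC ε o ω.1.1 (xL {k} L) * ω.2 ∧
      ∀ i, i ∉ S → act (xL {k} L) ω.1.1 i = ω.1.1 i := by
  induction L with
  | nil => simp [xL, CC_one]
  | cons p L ih =>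
    obtain ⟨h1, h2, h3⟩ := ih fun q hq => hL q (List.mem_cons_of_mem _ hq)
    obtain ⟨hp, hp1, hp2⟩ := hL p List.mem_cons_self
    have hkp : k ≠ p.2.1 := fun e => hkS (e ▸ hp2)
    have hok : Ok ({k} : Set J) p.1 p.2.1 := ⟨hp, hkp.symm⟩
    have e : xL {k} (p :: L) = x {k} p.1 p.2.1 p.2.2 * xL {k} L := by simp [xL]
    have h4 : ∀ i, i ∉ S → act (x {k} p.1 p.2.1 p.2.2) (act (xL {k} L) ω.1.1) i = ω.1.1 i :=
      fun i hi => by rw [act_x hok _ _ (ne_of_mem_of_not_mem hp1 hi).symm, h3 i hi]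
    rw [List.foldr_cons, e, act_mul]
    refine ⟨?_, ?_, h4⟩
    · rw [act_x_eq hok, ← h1]; rfl
    · rw [TT_eq hε hJ hp _ hkp (by rw [h1]; exact hk _ h3)
        (by rw [h1, ← act_x_eq hok]; exact hk _ h4), h1, h2,
        CC_mul hε hJ ω.1.2 (hk _ fun _ _ => rfl) (hk _ h3) (hk _ h4), mul_assoc]

theorem TL_congr (S : Finset J) (hS : S.card ≤ 4) {L L' : List (J × J × R)}
    (hL : ∀ p ∈ L, p.1 ≠ p.2.1 ∧ p.1 ∈ S ∧ p.2.1 ∈ S)
    (hL' : ∀ p ∈ L', p.1 ≠ p.2.1 ∧ p.1 ∈ S ∧ p.2.1 ∈ S)
    (h : ∀ k, k ∉ S → xL ({k} : Set J) L = xL {k} L') (ω : Om ε o) :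
    L.foldr (TT ε o) ω = L'.foldr (TT ε o) ω := by
  obtain ⟨k, hkS, hk⟩ := exists_good (ε := ε) hJ o ω.1.1 S hS
  obtain ⟨h1, h2, -⟩ := TL_eq hε hJ ω S hkS hk L hL
  obtain ⟨h1', h2', -⟩ := TL_eq hε hJ ω S hkS hk L' hL'
  exact Prod.ext (Subtype.ext (by rw [h1, h1', h k hkS])) (by rw [h2, h2', h k hkS])

theorem TT_add {i j : J} (h : i ≠ j) (r s : R) (ω : Om ε o) :
    TT ε o (i, j, r + s) ω = TT ε o (i, j, r) (TT ε o (i, j, s) ω) :=
  TL_congr hε hJ {i, j} (Finset.card_le_two.trans (by omega)) (L := [(i, j, r + s)])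
    (L' := [(i, j, r), (i, j, s)]) (by simp [h]) (by simp [h]) (fun k _ => by simp [xL, x_add]) ω

theorem TT_zero {i j : J} (h : i ≠ j) (ω : Om ε o) : TT ε o (i, j, 0) ω = ω :=
  TL_congr hε hJ {i, j} (Finset.card_le_two.trans (by omega)) (L := [(i, j, 0)])
    (L' := []) (by simp [h]) (by simp) (fun k _ => by simp [xL]) ω

/-- the generators as permutations -/
noncomputable def TP (o i j : J) (r : R) : Equiv.Perm (Om ε o) :=
  if h : i ≠ j then
    ⟨TT ε o (i, j, r), TT ε o (i, j, -r),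
      fun ω => by rw [← TT_add hε hJ h, neg_add_cancel, TT_zero hε hJ h],
      fun ω => by rw [← TT_add hε hJ h, add_neg_cancel, TT_zero hε hJ h]⟩
  else 1

theorem TP_apply {i j : J} (h : i ≠ j) (r : R) (ω : Om ε o) :
    TP hε hJ o i j r ω = TT ε o (i, j, r) ω := by
  rw [TP, dif_pos h]; rfl

theorem isSt_TP : IsSt (∅ : Set J) (TP hε hJ o) where
  add i j r s h := Equiv.ext fun ω => by
    rw [Equiv.Perm.mul_apply, TP_apply _ _ h.1, TP_apply _ _ h.1, TP_apply _ _ h.1, TT_add hε hJ h.1]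
  comm i j k l r s h h' h1 h2 := Equiv.ext fun ω => by
    rw [Equiv.Perm.mul_apply, Equiv.Perm.mul_apply, TP_apply _ _ h.1, TP_apply _ _ h.1,
      TP_apply _ _ h'.1, TP_apply _ _ h'.1]
    exact TL_congr hε hJ {i, j, k, l} Finset.card_le_four (L := [(i, j, r), (k, l, s)])
      (L' := [(k, l, s), (i, j, r)]) (by simp [h.1, h'.1]) (by simp [h.1, h'.1])
      (fun m _ => by simpa [xL] using (x_comm h1 h2 r s).eq) ω
  mul i j k r s h h' h1 := by
    rw [commutatorElement_def, mul_inv_eq_iff_eq_mul, mul_inv_eq_iff_eq_mul]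
    refine Equiv.ext fun ω => ?_
    simp only [Equiv.Perm.mul_apply, TP_apply _ _ h.1, TP_apply _ _ h'.1, TP_apply _ _ h1]
    refine TL_congr hε hJ {i, j, k} (Finset.card_le_three.trans (by omega))
      (L := [(i, j, r), (j, k, s)]) (L' := [(i, k, r * s), (j, k, s), (i, j, r)])
      (by simp [h.1, h'.1]) (by simp [h.1, h'.1, h1]) (fun m hm => ?_) ω
    simp only [Finset.mem_insert, Finset.mem_singleton, not_or] at hm
    have := x_conj_left (K := {m}) ⟨h.1, Ne.symm hm.2.1⟩ ⟨h'.1, Ne.symm hm.2.2⟩ h1 r s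
    simpa [xL, mul_assoc] using mul_inv_eq_iff_eq_mul.1 this

theorem res_injective (o : J) :
    Function.Injective (P.res (R := R) (Set.empty_subset ({o} : Set J))) := by
  let Φ := P.lift _ (isSt_TP hε hJ (o := o))
  have hb : Um ε (bv R o) := ⟨o, by simp⟩
  have hch : ∀ k, k ≠ o → Ch ε o (bv R o) k := fun k hk => ⟨hk, Or.inl (by simp [hk])⟩
  obtain ⟨k₀, -, hk₀, -⟩ := third1 hJ o o o
  let c := FF ε o (bv R o) (1 : P R ({k₀} : Set J))
  have key : ∀ (p : P R ({o} : Set J)),
      Φ (P.res (Set.empty_subset _) p) (⟨_, hb⟩, 1) = (⟨_, hb⟩, c * p * c⁻¹) := by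
    intro p
    induction p using P.induction_on with
    | h1 => simp
    | hx i j r g hij ih =>
      rw [map_mul, map_mul, Equiv.Perm.mul_apply, ih, P.res_x _ hij, P.lift_x _ _ (ok_empty.2 hij.1),
        TP_apply _ _ hij.1]
      obtain ⟨k, -, hko, hkj⟩ := third1 hJ o o j
      have hjo : j ≠ o := hij.2
      have hfix : act (x ∅ i j r) (bv R o) = bv R o := by
        rw [act, mat_x (ok_empty.2 hij.1), Matrix.add_mulVec, Matrix.single_mulVec, Matrix.one_mulVec]
        simp [hjo]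
      have hok : Ok ({k} : Set J) i j := ⟨hij.1, hkj.symm⟩
      refine Prod.ext (Subtype.ext hfix) ?_
      rw [TT_eq hε hJ (p := (i, j, r)) hij.1 _ hkj (hch k hko) (by rw [hfix]; exact hch k hko)]
      have hfix' : act (x {k} i j r) (bv R o) = bv R o := by rw [act_x_eq hok, hfix]
      have hc : FF ε o (bv R o) (1 : P R ({k} : Set J)) = c := by
        simpa using FF_res hε hJ hb (hch k hko) (hch k₀ hk₀) (h := 1) (act_one _)
      have hok2 : Ok (insert o {k} : Set J) i j := ⟨hij.1, by simp [hjo, hkj.symm]⟩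
      have hth := th_res o k (x (insert o {k}) i j r)
      rw [P.res_x _ hok2, P.res_x _ hok2] at hth
      rw [CC_eq hε hJ hb (hch k hko) (by rw [hfix']; exact hch k hko) (act_one _), hfix', mul_one,
        ← one_mul (x {k} i j r), FF_mul hε hJ hb (hch k hko) (act_one _) hfix', hc, hth]
      group
  rw [injective_iff_map_eq_one]
  intro p hp
  have := key p
  rw [hp, map_one, Equiv.Perm.one_apply] at this
  have h2 : 1 = c * p * c⁻¹ := congrArg Prod.snd this
  simpa [mul_inv_eq_one] using h2.symm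

theorem mapI_subtype_injective (o : J) :
    Function.Injective (St.mapI R (Function.Embedding.subtype fun a : J => a ≠ o)) := by
  let inc : St {a : J // a ≠ o} R →* P R ({o} : Set J) :=
    P.map Subtype.val Subtype.val_injective (fun j _ => j.2) (RingHom.id R)
  let ret : P R ({o} : Set J) →* St {a : J // a ≠ o} R :=
    P.lift (fun i j r => if h : i ≠ o ∧ j ≠ o then x ∅ ⟨i, h.1⟩ ⟨j, h.2⟩ r else 1)
      ⟨fun i j r s _ => by split_ifs <;> simp [x_add],
        fun i j k l r s _ _ h1 h2 => by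
          split_ifs
          · exact x_comm (by simpa using h1) (by simpa using h2) r s
          all_goals simp,
        fun i j k r s h h' h1 => by
          have hj : j ≠ o := h.2
          have hk : k ≠ o := h'.2
          by_cases hi : i = o
          · simp [hi]
          · rw [dif_pos ⟨hi, hj⟩, dif_pos ⟨hj, hk⟩, dif_pos ⟨hi, hk⟩,
              x_mul (by simpa using h.1) (by simpa using h'.1) (by simpa using h1)]⟩
  have h1 : ret.comp inc = MonoidHom.id _ := P.hom_ext fun i j r hij => by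
    have hok : Ok ({o} : Set J) i.1 j.1 := ⟨Subtype.val_injective.ne hij.1, j.2⟩
    rw [MonoidHom.comp_apply, P.map_x _ _ _ _ hij, P.lift_x _ _ hok, dif_pos ⟨i.2, j.2⟩]
    rfl
  have h2 : St.mapI R (Function.Embedding.subtype fun a : J => a ≠ o) =
      (P.res (Set.empty_subset _)).comp inc := P.hom_ext fun i j r hij => by
    have hok : Ok ({o} : Set J) i.1 j.1 := ⟨Subtype.val_injective.ne hij.1, j.2⟩
    rw [MonoidHom.comp_apply, P.map_x _ _ _ _ hij, P.res_x _ hok, St.mapI_x]
    rfl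
  rw [h2]
  exact (res_injective hε hJ o).comp
    (Function.LeftInverse.injective (g := ret) fun g => DFunLike.congr_fun h1 g)

end charts

theorem St.mapI_mapI {I I' I'' : Type} (e : I ↪ I') (e' : I' ↪ I'') (g : St I R) :
    St.mapI R e' (St.mapI R e g) = St.mapI R (e.trans e') g := by
  have : (St.mapI R e').comp (St.mapI R e) = St.mapI R (e.trans e') :=
    P.hom_ext fun i j r _ => by simp [St.mapI_x]
  exact DFunLike.congr_fun this g

variable [CharP R 2] {ε : R →+* ZMod 2}

theorem mapI_injective (hε : Aug ε) {I I' : Type} [Fintype I] [DecidableEq I] [Fintype I']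
    [DecidableEq I'] (hI : 8 ≤ Fintype.card I) (e : I ↪ I') :
    Function.Injective (St.mapI R e) := by
  induction hn : Fintype.card I' generalizing I' with
  | zero =>
    have := Fintype.card_le_of_embedding e
    omega
  | succ n ih =>
    by_cases hs : Function.Surjective e
    · let f := Equiv.ofBijective e ⟨e.injective, hs⟩
      refine Function.LeftInverse.injective (g := St.mapI R f.symm.toEmbedding) fun g => ?_
      have : (St.mapI R f.symm.toEmbedding).comp (St.mapI R e) = MonoidHom.id _ :=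
        P.hom_ext fun i j r _ => by
          rw [MonoidHom.comp_apply, St.mapI_x, St.mapI_x]
          simp [f]
      exact DFunLike.congr_fun this g
    · obtain ⟨o, ho⟩ : ∃ o, ∀ a, e a ≠ o := by
        simpa [Function.Surjective] using hs
      let e' : I ↪ {a : I' // a ≠ o} := ⟨fun a => ⟨e a, ho a⟩, fun a b h => e.injective (by simpa using h)⟩
      have hc : Fintype.card {a : I' // a ≠ o} = n := by
        rw [Fintype.card_subtype_compl, Fintype.card_subtype_eq]; omega
      have hle := Fintype.card_le_of_embedding e'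
      have h1 := (mapI_subtype_injective hε (J := I') (by omega) o).comp (ih e' hc)
      have h2 : St.mapI R e = fun g => St.mapI R (Function.Embedding.subtype fun a : I' => a ≠ o)
          (St.mapI R e' g) := funext fun g => by rw [St.mapI_mapI]; rfl
      rw [h2]
      exact h1

end Crest.Agent.R176
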