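import Crest.Agent.R176.StFP
import Crest.Agent.R176.StStab
import Crest.Agent.R176.StPsi

/-! Row 176, group half: an element of `K₂` has the same order as its image under the homomorphism
of an automaton without short cycles, which factors through a finite truncation. -/

set_option autoImplicit false

namespace Crest.Agent.R176

section locAux

variable {Y : Type} [Fintype Y] [DecidableEq Y]

/-- a `0/1` matrix times a ring element -/
def locT {R : Type} [Ring R] [Algebra (ZMod 2) R] (A : Matrix Y Y (ZMod 2)) (r : R) :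
    Matrix Y Y R := Matrix.of fun p q => A p q • r

section

variable {R : Type} [Ring R] [Algebra (ZMod 2) R]

omit [Fintype Y] [DecidableEq Y] in
theorem locT_apply (A : Matrix Y Y (ZMod 2)) (r : R) (p q : Y) : locT A r p q = A p q • r := rfl

omit [DecidableEq Y] in
theorem locT_mul (A B : Matrix Y Y (ZMod 2)) (r s : R) :
    locT A r * locT B s = locT (A * B) (r * s) := by
  ext p q
  simp only [Matrix.mul_apply, locT_apply, Finset.sum_smul, smul_mul_smul_comm]

omit [Fintype Y] in
theorem locT_one : locT (1 : Matrix Y Y (ZMod 2)) (1 : R) = 1 := by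
  ext p q
  simp only [locT_apply, Matrix.one_apply]
  split_ifs <;> simp

omit [Fintype Y] [DecidableEq Y] in
theorem locT_add (A B : Matrix Y Y (ZMod 2)) (r : R) : locT (A + B) r = locT A r + locT B r := by
  ext p q
  simp only [locT_apply, Matrix.add_apply, add_smul]

end

variable {X Sig : Type} (S : Sys X Sig) (hs : S.Static)

/-- the representation attached to an automaton -/
noncomputable def locRho (C : Sig → Matrix Y Y (ZMod 2)) : S.Alg →ₐ[ZMod 2] Matrix Y Y S.Alg :=
  S.lift (fun a => locT (C (S.st a)) (S.ι a))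
    ⟨fun a b a' b' h => by
      rw [locT_mul, locT_mul, (hs a b a' b' h).1, (hs a b a' b' h).2, S.resp_ι.step a b a' b' h],
    fun a b h => by
      rw [locT_mul, S.resp_ι.kill a b h]
      ext p q
      simp [locT_apply]⟩

theorem locRho_ι (C : Sig → Matrix Y Y (ZMod 2)) (a : X) :
    locRho S hs C (S.ι a) = locT (C (S.st a)) (S.ι a) := S.lift_ι _ _ a

theorem locRho_mono (C : Sig → Matrix Y Y (ZMod 2)) (w : List X) :
    locRho S hs C (S.mono w) = locT ((w.map S.st).map C).prod (S.mono w) := by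
  induction w with
  | nil => simp [locT_one]
  | cons a w ih => rw [Sys.mono_cons, map_mul, ih, locRho_ι, locT_mul]; rfl

/-- the same as a non-unital homomorphism -/
noncomputable def locR (C : Sig → Matrix Y Y (ZMod 2)) : S.Alg →ₙ+* Matrix Y Y S.Alg :=
  (locRho S hs C).toRingHom.toNonUnitalRingHom

theorem locR_apply (C : Sig → Matrix Y Y (ZMod 2)) (r : S.Alg) :
    locR S hs C r = locRho S hs C r := rfl

variable {I : Type} [Fintype I] [DecidableEq I]

theorem loc_conj (C C' : Sig → Matrix Y Y (ZMod 2)) {E : Matrix Y Y (ZMod 2)} {A B : Set Y}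
    (hd : Disjoint A B) (hE : ∀ p q, E p q ≠ 0 → p ∈ A ∧ q ∈ B)
    (h : ∀ σ, C' σ * (1 + E) = (1 + E) * C σ) (z : St I S.Alg) :
    orderOf (Psi I (locR S hs C') z) = orderOf (Psi I (locR S hs C) z) := by
  obtain ⟨c, hc⟩ := Psi_conj (I := I) (locR S hs C) (locR S hs C') (E := locT E 1) hd
    (fun p q hpq => hE p q fun h0 => hpq (by rw [locT_apply, h0, zero_smul])) (fun r => by
      rw [locR_apply, locR_apply, ← locT_one, ← locT_add]
      have hr : r ∈ Submodule.span (ZMod 2) (Set.range S.mono) := by rw [S.span_mono]; trivial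
      induction hr using Submodule.span_induction with
      | mem r hr =>
        obtain ⟨w, rfl⟩ := hr
        induction w with
        | nil => simp
        | cons a w ih =>
          rw [Sys.mono_cons, map_mul, map_mul, mul_assoc, ih, ← mul_assoc, ← mul_assoc, locRho_ι,
            locRho_ι, locT_mul, locT_mul, h, mul_one, one_mul]
      | zero => simp
      | add x y _ _ hx hy => rw [map_add, map_add, add_mul, mul_add, hx, hy]
      | smul c x _ hx => rw [map_smul, map_smul, smul_mul_assoc, mul_smul_comm, hx])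
  rw [hc]
  exact (MulAut.conj c).orderOf_eq _

theorem loc_delete (C C' : Sig → Matrix Y Y (ZMod 2)) (m : ℕ) (Up Dn : ℕ → Set Y)
    (hUp : Monotone Up) (hDn : Monotone Dn) (hd : Disjoint (Up m) (Dn m))
    (h0 : ∀ σ s s', C σ s s' ≠ C' σ s s' → s ∈ Up 0 ∧ s' ∈ Dn 0)
    (h1 : ∀ σ s s' k, C' σ s s' ≠ 0 →
      (s' ∈ Up k → s ∈ Up (k + 1)) ∧ (s ∈ Dn k → s' ∈ Dn (k + 1)))
    {l : List (I × I × Option X)} (hl : l.length ≤ m) {z : St I S.Alg}
    (hzl : z = (l.map fun p => x ∅ p.1 p.2.1 (S.gen p.2.2)).prod) (hz : mat ∅ z = 1) :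
    Psi I (locR S hs C) z = Psi I (locR S hs C') z := by
  subst hzl
  refine Psi_delete _ _ S.gen m Up Dn hUp hDn hd ?_ ?_ l hl hz
  · rintro (_ | a) s s' h
    · exact absurd (by simp [locR_apply, Sys.gen]) h
    · refine h0 (S.st a) s s' fun e => h ?_
      simp only [locR_apply, Sys.gen, Option.elim_some, locRho_ι, Matrix.sub_apply, locT_apply, e,
        sub_self]
  · rintro (_ | a) s s' k h
    · have e : s = s' := by
        by_contra hne
        exact h (by simp [locR_apply, Sys.gen, Matrix.one_apply_ne hne])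
      subst e
      exact ⟨fun h' => hUp (Nat.le_succ k) h', fun h' => hDn (Nat.le_succ k) h'⟩
    · refine h1 (S.st a) s s' k fun e => h ?_
      simp only [locR_apply, Sys.gen, Option.elim_some, locRho_ι, locT_apply, e, zero_smul]

theorem loc_isolated (hε : Aug S.epsR) (hI : 8 ≤ Fintype.card I) (y₀ : Y)
    (C : Sig → Matrix Y Y (ZMod 2)) (hC : ∀ σ p q, C σ p q = if p = y₀ ∧ q = y₀ then 1 else 0)
    {z : St I S.Alg} (hz : St.mapR I S.epsR z = 1) :
    orderOf (Psi I (locR S hs C) z) = orderOf z := by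
  rw [Psi_isolated S.epsR y₀ (locR S hs C) ?_ hz]
  · exact orderOf_injective _ (mapI_injective hε hI _) z
  · have h : locRho S hs C = (Matrix.diagonalAlgHom (ZMod 2)).comp (AlgHom.pi
        fun p : Y => if p = y₀ then AlgHom.id (ZMod 2) S.Alg
          else (Algebra.ofId (ZMod 2) S.Alg).comp S.eps) := by
      refine S.algHom_ext fun a => ?_
      ext p q
      rw [locRho_ι, locT_apply, hC]
      change _ = Matrix.diagonal (fun p : Y => (if p = y₀ then AlgHom.id (ZMod 2) S.Alg
          else (Algebra.ofId (ZMod 2) S.Alg).comp S.eps) (S.ι a)) p q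
      rw [Matrix.diagonal_apply]
      by_cases h1 : p = q
      · subst h1
        by_cases h2 : p = y₀ <;> simp [h2, Sys.eps]
      · rw [if_neg h1, if_neg fun h => h1 (h.1.trans h.2.symm), zero_smul]
    intro r p q
    rw [locR_apply, h]
    change Matrix.diagonal (fun p : Y => (if p = y₀ then AlgHom.id (ZMod 2) S.Alg
          else (Algebra.ofId (ZMod 2) S.Alg).comp S.eps) r) p q = _
    rw [Matrix.diagonal_apply]
    split_ifs <;> rfl

end locAux

section locWords

variable {Sig : Type} {N : ℕ}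

/-- words of length at most `N` -/
abbrev LocY (Sig : Type) (N : ℕ) : Type := {u : List Sig // u.length ≤ N}

open Classical in
/-- the matrix of a partial function on words -/
noncomputable def locF (N : ℕ) (Q : List Sig → Prop) (f : List Sig → List Sig) :
    Matrix (LocY Sig N) (LocY Sig N) (ZMod 2) :=
  Matrix.of fun u v => if Q u.1 ∧ v.1 = f u.1 then 1 else 0

theorem locF_ne_zero {Q : List Sig → Prop} {f : List Sig → List Sig} {u v : LocY Sig N} :
    locF N Q f u v ≠ 0 ↔ Q u.1 ∧ v.1 = f u.1 := by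
  simp [locF]

theorem locF_pos {Q : List Sig → Prop} {f : List Sig → List Sig} {u v : LocY Sig N}
    (h : Q u.1 ∧ v.1 = f u.1) : locF N Q f u v = 1 := if_pos h

theorem locF_neg {Q : List Sig → Prop} {f : List Sig → List Sig} {u v : LocY Sig N}
    (h : ¬ (Q u.1 ∧ v.1 = f u.1)) : locF N Q f u v = 0 := if_neg h

theorem locF_eq {Q Q' : List Sig → Prop} {f f' : List Sig → List Sig} {u v u' v' : LocY Sig N}
    (h : Q u.1 ∧ v.1 = f u.1 ↔ Q' u'.1 ∧ v'.1 = f' u'.1) :
    locF N Q f u v = locF N Q' f' u' v' := by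
  by_cases h1 : Q u.1 ∧ v.1 = f u.1
  · rw [locF_pos h1, locF_pos (h.1 h1)]
  · rw [locF_neg h1, locF_neg fun h2 => h1 (h.2 h2)]

theorem locF_congr {Q Q' : List Sig → Prop} {f f' : List Sig → List Sig}
    (h : ∀ u, Q u ↔ Q' u) (h' : ∀ u, Q u → f u = f' u) : locF N Q f = locF N Q' f' := by
  ext u v
  exact locF_eq ⟨fun e => ⟨(h _).1 e.1, e.2.trans (h' _ e.1)⟩,
    fun e => ⟨(h _).2 e.1, e.2.trans (h' _ ((h _).2 e.1)).symm⟩⟩

theorem locF_mul [Fintype (LocY Sig N)] {Q Q' : List Sig → Prop} {f f' : List Sig → List Sig}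
    (h : ∀ u, Q u → (f u).length ≤ N) :
    locF N Q f * locF N Q' f' = locF N (fun u => Q u ∧ Q' (f u)) fun u => f' (f u) := by
  ext u w
  rw [Matrix.mul_apply]
  by_cases hu : Q u.1
  · rw [Finset.sum_eq_single ⟨f u.1, h _ hu⟩]
    · rw [locF_pos ⟨hu, rfl⟩, one_mul]
      exact locF_eq (by simp [hu])
    · intro v _ hv
      have : locF N Q f u v = 0 := by
        by_contra h0
        exact hv (Subtype.ext (locF_ne_zero.1 h0).2)
      rw [this, zero_mul]
    · simp
  · simp [locF, hu]

/-- the de Bruijn automaton on words of length `k` without the edges in `F` -/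
noncomputable def locTF (N k : ℕ) (F : Set (List Sig)) (σ : Sig) :
    Matrix (LocY Sig N) (LocY Sig N) (ZMod 2) :=
  locF N (fun u => u.length = k ∧ u ++ [σ] ∉ F) fun u => (u ++ [σ]).tail

theorem locTF_prod [Fintype (LocY Sig N)] [DecidableEq (LocY Sig N)] (F : Set (List Sig))
    (l : List Sig) (u s : LocY Sig N) (h : (l.map (locTF N N F)).prod u s ≠ 0)
    (hs : s.1.length = N) : u.1.length = N ∧ s.1 = (u.1 ++ l).drop l.length := by
  induction l generalizing u with
  | nil =>
    have e : u = s := by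
      by_contra hne
      exact h (by simp [Matrix.one_apply_ne hne])
    subst e
    exact ⟨hs, by simp⟩
  | cons a l ih =>
    rw [List.map_cons, List.prod_cons, Matrix.mul_apply] at h
    obtain ⟨t, -, ht⟩ := Finset.exists_ne_zero_of_sum_ne_zero h
    obtain ⟨⟨h1, -⟩, h2⟩ := locF_ne_zero.1 (left_ne_zero_of_mul ht)
    refine ⟨h1, ?_⟩
    rw [(ih t (right_ne_zero_of_mul ht)).2, h2, ← List.tail_append_of_ne_nil (by simp),
      List.drop_tail, List.length_cons, List.append_assoc, List.singleton_append]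

theorem locTF_prod_eq_zero [Fintype (LocY Sig N)] [DecidableEq (LocY Sig N)] (F : Set (List Sig))
    (W : List Sig) (hW : W.length = N + 1) (hF : W ∈ F) : (W.map (locTF N N F)).prod = 0 := by
  obtain rfl | ⟨l, σ, rfl⟩ := W.eq_nil_or_concat
  · simp at hW
  ext u v
  by_contra h
  rw [List.concat_eq_append, List.map_append, List.prod_append, List.map_singleton,
    List.prod_singleton, Matrix.mul_apply] at h
  obtain ⟨s, -, ht⟩ := Finset.exists_ne_zero_of_sum_ne_zero h
  obtain ⟨⟨h1, h2⟩, -⟩ := locF_ne_zero.1 (right_ne_zero_of_mul ht)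
  obtain ⟨h3, h4⟩ := locTF_prod F l u s (left_ne_zero_of_mul ht) h1
  have h5 : l.length = u.1.length := by
    simp only [List.length_concat] at hW
    omega
  rw [h5, List.drop_left] at h4
  rw [h4] at h2
  exact h2 (by simpa using hF)

variable {X : Type} (S : Sys X Sig) (hs : S.Static) {I : Type} [Fintype I] [DecidableEq I]
  [Fintype (LocY Sig N)] [DecidableEq (LocY Sig N)]

theorem st_loc_step {k : ℕ} (hk : k < N) {l : List (I × I × Option X)} {z : St I S.Alg}
    (hzl : z = (l.map fun p => x ∅ p.1 p.2.1 (S.gen p.2.2)).prod) (hz : mat ∅ z = 1) :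
    orderOf (Psi I (locR S hs (locTF N (k + 1) ∅)) z) =
      orderOf (Psi I (locR S hs (locTF N k ∅)) z) := by
  let D : Sig → Matrix (LocY Sig N) (LocY Sig N) (ZMod 2) := fun σ =>
    locF N (fun u => u.length = k) fun u => u ++ [σ]
  let E : Matrix (LocY Sig N) (LocY Sig N) (ZMod 2) := locF N (fun u => u.length = k + 1) List.tail
  have hDE : ∀ σ, D σ * E = locTF N k ∅ σ := fun σ => by
    rw [locF_mul fun u hu => by simp; omega]
    exact locF_congr (fun u => by simp) fun _ _ => rfl
  have hED : ∀ σ, E * D σ = locTF N (k + 1) ∅ σ := fun σ => by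
    rw [locF_mul fun u hu => by simp; omega]
    refine locF_congr (fun u => by simp; omega) fun u hu => ?_
    rw [List.tail_append_of_ne_nil]
    rintro rfl
    simp at hu
  have hdis : Disjoint {u : LocY Sig N | u.1.length = k} {u : LocY Sig N | u.1.length = k + 1} :=
    Set.disjoint_left.2 fun u h h' => by
      simp only [Set.mem_ofPred_eq] at h h'
      omega
  have hD : ∀ σ s s', D σ s s' ≠ 0 → s.1.length = k ∧ s'.1.length = k + 1 := fun σ s s' h => by
    obtain ⟨h1, h2⟩ := locF_ne_zero.1 h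
    exact ⟨h1, by simp [h2, h1]⟩
  have hT : ∀ j σ (s s' : LocY Sig N), locTF N j ∅ σ s s' ≠ 0 →
      s.1.length = j ∧ s'.1.length = j := fun j σ s s' h => by
    obtain ⟨⟨h1, -⟩, h2⟩ := locF_ne_zero.1 h
    exact ⟨h1, by simp [h2, h1]⟩
  have e1 := loc_delete S hs (fun σ => locTF N k ∅ σ + D σ) (locTF N k ∅) l.length
    (fun _ => {u | u.1.length = k}) (fun _ => {u | u.1.length = k + 1}) monotone_const
    monotone_const hdis (fun σ s s' h => hD σ s s' (by simpa using h))
    (fun σ s s' _ h => by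
      have := hT k σ s s' h
      simp only [Set.mem_ofPred_eq]
      omega) le_rfl hzl hz
  have e2 := loc_delete S hs (fun σ => D σ + locTF N (k + 1) ∅ σ) (locTF N (k + 1) ∅) l.length
    (fun _ => {u | u.1.length = k}) (fun _ => {u | u.1.length = k + 1}) monotone_const
    monotone_const hdis (fun σ s s' h => hD σ s s' (by simpa using h))
    (fun σ s s' _ h => by
      have := hT (k + 1) σ s s' h
      simp only [Set.mem_ofPred_eq]
      omega) le_rfl hzl hz
  rw [← e1, ← e2]
  refine loc_conj S hs _ _ (E := E) hdis.symm (fun p q h => ?_) (fun σ => ?_) z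
  · obtain ⟨h1, h2⟩ := locF_ne_zero.1 h
    exact ⟨h1, by simp [h2, h1]⟩
  · rw [← hDE, ← hED]
    noncomm_ring

theorem loc_remove {l : List (I × I × Option X)} {z : St I S.Alg}
    (hzl : z = (l.map fun p => x ∅ p.1 p.2.1 (S.gen p.2.2)).prod) (hz : mat ∅ z = 1)
    (F : Set (List Sig)) (W : List Sig)
    (hW : ¬ ∃ p, 1 ≤ p ∧ p ≤ 2 * l.length + 1 ∧ ∀ i, i + p < N + 1 → W[i + p]? = W[i]?) :
    Psi I (locR S hs (locTF N N F)) z = Psi I (locR S hs (locTF N N (insert W F))) z := by
  refine loc_delete S hs _ _ l.length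
    (fun t => {s | ∃ j ≤ t, ∀ i, i + j < N → W[i]? = s.1[i + j]?})
    (fun t => {s | ∃ j ≤ t, ∀ i, i + j < N → s.1[i]? = W[i + j + 1]?})
    (fun _ _ h _ ⟨j, hj, e⟩ => ⟨j, hj.trans h, e⟩) (fun _ _ h _ ⟨j, hj, e⟩ => ⟨j, hj.trans h, e⟩)
    (Set.disjoint_left.2 ?_) ?_ ?_ le_rfl hzl hz
  · rintro s ⟨j, hj, e⟩ ⟨j', hj', e'⟩
    refine hW ⟨j + j' + 1, by omega, by omega, fun i hi => ?_⟩
    rw [e i (by omega), e' (i + j) (by omega)]
    congr 1
    omega
  · intro σ s s' h
    have h1 : s.1.length = N ∧ s.1 ++ [σ] = W ∧ s'.1 = (s.1 ++ [σ]).tail := by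
      by_contra hcon
      apply h
      refine locF_eq ?_
      rw [Set.mem_insert_iff]
      tauto
    obtain ⟨h1, rfl, h3⟩ := h1
    refine ⟨⟨0, le_rfl, fun i hi => ?_⟩, ⟨0, le_rfl, fun i _ => ?_⟩⟩
    · rw [List.getElem?_append_left (by omega), add_zero]
    · rw [h3, List.getElem?_tail]
  · intro σ s s' k h
    obtain ⟨⟨h1, -⟩, h2⟩ := locF_ne_zero.1 h
    have h3 : ∀ i, i + 1 < N → s'.1[i]? = s.1[i + 1]? := fun i hi => by
      rw [h2, List.getElem?_tail, List.getElem?_append_left (by omega)]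
    constructor
    · rintro ⟨j, hj, e⟩
      refine ⟨j + 1, by omega, fun i hi => ?_⟩
      rw [e i (by omega), h3 _ (by omega), add_assoc]
    · rintro ⟨j, hj, e⟩
      refine ⟨j + 1, by omega, fun i hi => ?_⟩
      rw [h3 _ (by omega), e (i + 1) (by omega)]
      congr 1
      omega

end locWords

/-- Localisation.
For a finite `Y` and `C : Sig → Matrix Y Y (ZMod 2)` let `ρ C := S.lift (fun a => of fun p q =>
C (st a) p q • ι a)` (it respects the rules by `Static`), so `ρ C (mono w) p q =
(w.map (C ∘ st)).prod p q • mono w`.  Write `z` as a product of `m` generators (`St_exists_list`),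
`P = 2m+1`, `N` from `AP P`.  `Y := {u : List Sig // u.length ≤ N}`, 0/1 matrices
`T k σ u v = [|u| = k ∧ v = (u ++ [σ]).tail]`, `D k σ u v = [|u| = k ∧ v = u ++ [σ]]`,
`E k u v = [|u| = k+1 ∧ v = u.tail]`; for `k < N`: `D k σ * E k = T k σ`, `E k * D k σ = T (k+1) σ`,
`E k * E k = 0`, hence `(D + T (k+1)) (1 + E) = (1 + E) (T k + D)` in characteristic 2.
`orderOf (Psi (ρ (T 0)) z) = orderOf z` by `Psi_isolated` (`y₀ = []`) and `mapI_injective`;
`Psi (ρ (T k + D k)) z = Psi (ρ (T k)) z` and `Psi (ρ (D k + T (k+1))) z = Psi (ρ (T (k+1))) z` by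
`Psi_delete` with the constant sets `Up = {|u| = k}`, `Dn = {|u| = k+1}` (note `ρ C 1 = 1`);
`Psi_conj` links the two.  So `orderOf (Psi (ρ (T N)) z) = orderOf z`.  For a set `Z` of words let
`TZ σ u v = T N σ u v * [u ++ [σ] ∈ Z]`.  A word `W = p ++ [σ]` (`|p| = N`) without a period in
`[1,P]` can be removed from `Z` by `Psi_delete` with `Sh j s s' := ∀ i, i + j < N → s'[i]? = s[i+j]?`,
`Up t = {s | ∃ j ≤ t, Sh j s p}`, `Dn t = {s | ∃ j ≤ t, Sh j W.tail s}` (a common element of `Up m`
and `Dn m` gives the period `j + j' + 1 ≤ 2m+1` of `W`); induct on the finite set of such words.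
For `Z` = words with a period in `[1,P]`, `ρ TZ` kills every `mono w` with `|w| ≥ N+1`
(the `(N+1)`-st edge of a path carries the word `st w₁ … st w_{N+1}`; use `AP`), so it kills
`S.deep (N+1)`, factors through `π` (`RingHom.liftOfSurjective`), and `Psi_mapR`,
`orderOf_map_dvd` finish with `d = N + 1`. -/
theorem localise {X Sig : Type} [Finite X] [Finite Sig] (S : Sys X Sig) (hs : S.Static)
    (hap : S.AP) (hε : Aug S.epsR) {I : Type} [Fintype I] [DecidableEq I]
    (hI : 8 ≤ Fintype.card I) {z : St I S.Alg} (hz : mat ∅ z = 1) (hz' : St.mapR I S.epsR z = 1) :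
    ∃ d : ℕ, ∀ (Rb : Type) [Ring Rb] (π : S.Alg →+* Rb), Function.Surjective π →
      (∀ r, π r = 0 → r ∈ S.deep d) → orderOf z ∣ orderOf (St.mapR I π z) := by
  classical
  obtain ⟨l, hzl⟩ := St_exists_list S (by omega) z
  obtain ⟨N, hN⟩ := hap (2 * l.length + 1)
  have : Finite (LocY Sig N) := (List.finite_length_le Sig N).to_subtype
  have := Fintype.ofFinite (LocY Sig N)
  have h1 : ∀ k ≤ N, orderOf (Psi I (locR S hs (locTF N k ∅)) z) = orderOf z := by
    intro k hk
    induction k with
    | zero =>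
      refine loc_isolated S hs hε hI ⟨[], Nat.zero_le _⟩ _ (fun σ p q => ?_) hz'
      split_ifs with h0
      · exact locF_pos (by simp [h0.1, h0.2])
      · refine locF_neg ?_
        rintro ⟨⟨h, -⟩, h'⟩
        have h2 := List.length_eq_zero_iff.1 h
        exact h0 ⟨Subtype.ext h2, Subtype.ext (by simp [h', h2])⟩
    | succ k ih => rw [st_loc_step S hs hk hzl hz, ih (by omega)]
  have h2 : ∀ F : Set (List Sig), F.Finite → (∀ W ∈ F, ¬ ∃ p, 1 ≤ p ∧ p ≤ 2 * l.length + 1 ∧
      ∀ i, i + p < N + 1 → W[i + p]? = W[i]?) →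
      orderOf (Psi I (locR S hs (locTF N N F)) z) = orderOf z := by
    intro F hF
    induction F, hF using Set.Finite.induction_on with
    | empty => exact fun _ => h1 N le_rfl
    | @insert W F _ _ ih =>
      intro h
      rw [← loc_remove S hs hzl hz F W (h W (Set.mem_insert _ _))]
      exact ih fun W' hW' => h W' (Set.mem_insert_of_mem _ hW')
  obtain ⟨F, hF⟩ : ∃ F : Set (List Sig), F = {W | W.length = N + 1 ∧
      ¬ ∃ p, 1 ≤ p ∧ p ≤ 2 * l.length + 1 ∧ ∀ i, i + p < N + 1 → W[i + p]? = W[i]?} := ⟨_, rfl⟩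
  have h3 := h2 F (hF ▸ (List.finite_length_eq Sig (N + 1)).subset fun W hW => hW.1)
    fun W hW => (by rw [hF] at hW; exact hW.2)
  have h4 : ∀ w : List X, w.length = N + 1 → locRho S hs (locTF N N F) (S.mono w) = 0 := by
    intro w hw
    by_cases h : w.map S.st ∈ F
    · rw [locRho_mono, locTF_prod_eq_zero F _ (by simpa using hw) h]
      ext p q
      simp [locT_apply]
    · rw [hF, Set.mem_ofPred_eq, not_and, not_not] at h
      obtain ⟨p, hp1, hp2, hp⟩ := h (by simpa using hw)
      rw [hN w p (by omega) hp1 hp2 fun i hi => ?_, map_zero]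
      have h5 := hp i (by omega)
      rw [List.getElem?_map, List.getElem?_map, List.getElem?_eq_getElem hi,
        List.getElem?_eq_getElem (by omega)] at h5
      exact Option.some.inj h5
  have h5 : ∀ r ∈ S.deep (N + 1), locRho S hs (locTF N N F) r = 0 := by
    intro r hr
    refine (Submodule.span_le.2 ?_ :
      S.deep (N + 1) ≤ LinearMap.ker (locRho S hs (locTF N N F)).toLinearMap) hr
    rintro _ ⟨w, hw, rfl⟩
    change locRho S hs (locTF N N F) (S.mono w) = 0
    rw [← List.take_append_drop (N + 1) w, S.mono_append, map_mul, h4 _ (by simp; omega),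
      zero_mul]
  refine ⟨N + 1, fun Rb _ π hπ hker => ?_⟩
  let φ : Rb →+* Matrix (LocY Sig N) (LocY Sig N) S.Alg :=
    π.liftOfSurjective hπ ⟨(locRho S hs (locTF N N F)).toRingHom, fun r hr => h5 r (hker r hr)⟩
  rw [← h3, ← Psi_mapR π φ.toNonUnitalRingHom (locR S hs (locTF N N F))
    (fun r => (RingHom.liftOfSurjective_comp_apply π hπ
      ⟨(locRho S hs (locTF N N F)).toRingHom, fun r hr => h5 r (hker r hr)⟩ r).symm) z]
  exact orderOf_map_dvd _ _

end Crest.Agent.R176
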