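import Crest.Agent.R176.FPIndex
import Crest.Agent.R176.StLoc
import Crest.Agent.R176.StFin

/-! Row 176, group half: assembly. -/

set_option autoImplicit false

namespace Crest.Agent.R176

variable {X Sig : Type} (S : Sys X Sig)

theorem Sys.exists_trunc' [Finite X] (hnil : S.NIL) {d : ℕ} (hd : 1 ≤ d) :
    ∃ (Rb : Type) (_ : Ring Rb) (_ : Finite Rb) (_ : CharP Rb 2) (π : S.Alg →+* Rb)
      (ε : Rb →+* ZMod 2), Function.Surjective π ∧ (∀ r, π r = 0 ↔ r ∈ S.deep d) ∧
      ε.comp π = S.epsR ∧ Aug ε ∧ ∀ (Y : Type) [Fintype Y] [DecidableEq Y] (A : Matrix Y Y Rb),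
        (∀ i j, ε (A i j) = 0) → IsNilpotent A := by
  obtain ⟨Rb, _, _, π, hπ, hker⟩ := S.exists_trunc d
  let ε : Rb →+* ZMod 2 := π.liftOfSurjective hπ
    ⟨S.epsR, fun r hr => S.eps_eq_zero_of_mem_deep hd ((hker r).1 hr)⟩
  have hε : ∀ r, ε (π r) = S.eps r := fun r => RingHom.liftOfRightInverse_comp_apply _ _ _ _ r
  have : Nontrivial Rb := ε.domain_nontrivial
  have : CharP Rb 2 := CharTwo.of_one_ne_zero_of_two_eq_zero one_ne_zero (by
    rw [← one_add_one_eq_two, ← map_one π, ← map_add, CharTwo.add_self_eq_zero, map_zero])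
  refine ⟨Rb, inferInstance, inferInstance, inferInstance, π, ε, hπ, hker, RingHom.ext hε,
    ⟨fun r hr => ?_⟩, fun Y _ _ A hA => ?_⟩
  · obtain ⟨r, rfl⟩ := hπ r
    exact ((S.aug_of_nil hnil).unit r (by rwa [hε] at hr)).map π
  · choose B hB using fun i j => hπ (A i j)
    have h1 := hnil Y (Matrix.of B) fun i j => by rw [← hε, Matrix.of_apply, hB, hA]
    have h2 : A = π.mapMatrix (Matrix.of B) := by ext i j; simp [hB]
    exact h2 ▸ h1.map _

theorem group_of_sys [Finite X] [Finite Sig] (hs : S.Static) (hnz : S.NZ) (hap : S.AP)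
    (hnil : S.NIL) : ∃ (G : Type) (_ : Group G),
      Infinite G ∧ Group.IsFinitelyPresented G ∧ Group.ResiduallyFinite G ∧ IsPGroup 2 G := by
  have hε := S.aug_of_nil hnil
  have h8 : 8 ≤ Fintype.card (Fin 8) := by simp
  have h3 : 3 ≤ Fintype.card (Fin 8) := by simp
  have hfin : Finite (St (Fin 8) (ZMod 2)) :=
    St_finite (ε := RingHom.id _) ⟨fun r hr => Ne.isUnit hr⟩ h3
  let G : Subgroup (St (Fin 8) S.Alg) := (St.mapR (Fin 8) S.epsR).ker
  have hidx : G.FiniteIndex := Subgroup.finiteIndex_ker _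
  have hfp := St_fp S (I := Fin 8) (by simp)
  -- an element of `K₂ ∩ G` has the order dividing the order of its image in a finite 2-group
  have key : ∀ z : St (Fin 8) S.Alg, z ∈ G → mat ∅ z = 1 →
      ∃ (Rb : Type) (_ : Ring Rb) (π : S.Alg →+* Rb), Finite (St (Fin 8) Rb) ∧
        orderOf z ∣ orderOf (St.mapR (Fin 8) π z) ∧ ∃ k, St.mapR (Fin 8) π z ^ 2 ^ k = 1 := by
    intro z hz hz'
    obtain ⟨d, hd⟩ := localise S hs hap hε h8 hz' hz
    obtain ⟨Rb, _, _, _, π, ε, hπ, hker, hcomp, haug, hn⟩ := S.exists_trunc' hnil (d := d + 1) (by omega)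
    refine ⟨Rb, inferInstance, π, St_finite haug h3, hd Rb π hπ fun r hr => ?_, ?_⟩
    · refine Submodule.span_mono ?_ ((hker r).1 hr)
      rintro _ ⟨w, hw, rfl⟩
      exact ⟨w, by omega, rfl⟩
    · obtain ⟨k, hk⟩ := ker_isPGroup haug h3 (hn _) ⟨St.mapR (Fin 8) π z, by
        rw [MonoidHom.mem_ker, St.mapR_mapR, hcomp]; exact hz⟩
      exact ⟨k, congrArg Subtype.val hk⟩
  refine ⟨G, inferInstance, ?_, fp_of_finiteIndex G, ?_, ?_⟩
  · have := S.infinite_of_NZ hnz
    have hinf : Infinite (St (Fin 8) S.Alg) := by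
      refine Infinite.of_injective (fun r => x ∅ 0 1 r) fun r s h => ?_
      have h1 := congrArg (fun g => mat ∅ g 0 1) h
      have h01 : Ok (∅ : Set (Fin 8)) 0 1 := ok_empty.2 (by decide)
      simpa [mat_x h01] using h1
    by_contra hG
    rw [not_infinite_iff_finite] at hG
    have h1 := G.card_mul_index
    rw [Nat.card_eq_zero_of_infinite (α := St (Fin 8) S.Alg)] at h1
    exact mul_ne_zero Nat.card_pos.ne' hidx.index_ne_zero h1
  · refine Group.residuallyFinite_of_forall_exists_finite_monoidHom.{0} fun g hg => ?_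
    by_cases hm : mat ∅ g.1 = 1
    · obtain ⟨Rb, _, π, hf, hdvd, -⟩ := key g.1 g.2 hm
      refine ⟨St (Fin 8) Rb, inferInstance, hf, (St.mapR (Fin 8) π).comp G.subtype, fun h => hg ?_⟩
      have h1 : St.mapR (Fin 8) π g.1 = 1 := h
      rw [h1, orderOf_one, Nat.dvd_one, orderOf_eq_one_iff] at hdvd
      exact Subtype.ext hdvd
    · obtain ⟨i, j, hij⟩ : ∃ i j, mat ∅ g.1 i j - (1 : Matrix (Fin 8) (Fin 8) S.Alg) i j ≠ 0 := by
        by_contra h
        push Not at h
        exact hm (Matrix.ext fun i j => sub_eq_zero.1 (h i j))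
      obtain ⟨d, hd⟩ := S.exists_not_mem_deep hij
      obtain ⟨Rb, _, _, _, π, ε, hπ, hker, hcomp, haug, hn⟩ :=
        S.exists_trunc' hnil (d := d + 1) (by omega)
      refine ⟨St (Fin 8) Rb, inferInstance, St_finite haug h3, (St.mapR (Fin 8) π).comp G.subtype,
        fun h => hd ?_⟩
      have h1 : St.mapR (Fin 8) π g.1 = 1 := h
      have h2 := mat_mapR π g.1
      rw [h1, map_one] at h2
      have h3 : π (mat ∅ g.1 i j - (1 : Matrix (Fin 8) (Fin 8) S.Alg) i j) = 0 := by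
        rw [map_sub, ← Matrix.map_apply (f := π), ← h2, sub_eq_zero]
        simp [Matrix.one_apply, apply_ite π]
      refine Submodule.span_mono ?_ ((hker _).1 h3)
      rintro _ ⟨w, hw, rfl⟩
      exact ⟨w, by omega, rfl⟩
  · intro g
    obtain ⟨k, hk⟩ := exists_mat_pow_eq_one (ε := S.epsR) (hnil (Fin 8)) g.2
    obtain ⟨Rb, _, π, -, hdvd, k', hk'⟩ := key (g.1 ^ 2 ^ k) (pow_mem g.2 _) hk
    refine ⟨k + k', Subtype.ext ?_⟩
    have := orderOf_dvd_iff_pow_eq_one.1 (hdvd.trans (orderOf_dvd_of_pow_eq_one hk'))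
    rw [← pow_mul, ← pow_add] at this
    exact this

end Crest.Agent.R176
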