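import Crest.Agent.R176.StS1Aux

/-! Row 176, group half: stabiliser of a basis vector, orbits, centrality of `K₂`. -/

set_option autoImplicit false

namespace Crest.Agent.R176

open scoped commutatorElement
open Matrix

variable {I : Type} [Fintype I] [DecidableEq I] {R : Type} [Ring R] [CharP R 2]
  {ε : R →+* ZMod 2}

/-- Every vector with a unit coordinate outside `K` is in the orbit of `e_o`.
Proof: if `v k` is a unit, `l ≠ k`, `l ∉ K`, then `x l k ((1 - v l) (v k)⁻¹)` makes the `l`-th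
coordinate `1`; in at most two steps `v o = 1`; then `v = blk (column o) e_o`. -/
theorem orbit (hε : Aug ε) {K : Set I} {o : I} (ho : o ∉ K)
    (h3 : ∀ a b : I, ∃ c, c ∉ K ∧ c ≠ a ∧ c ≠ b) {v : I → R} {k : I} (hk : k ∉ K)
    (hv : ε (v k) ≠ 0) : ∃ g : P R K, mat K g *ᵥ Pi.single o 1 = v := by
  have step : ∀ (v : I → R) (k l : I), k ∉ K → l ≠ k → ε (v k) ≠ 0 →
      ∃ g : P R K, (mat K g *ᵥ v) l = 1 := fun v k l hk hlk hv => by
    obtain ⟨a, ha⟩ := hε.unit _ hv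
    refine ⟨x K l k ((1 - v l) * ↑a⁻¹), ?_⟩
    rw [s1_act_x_self ⟨hlk, hk⟩, ← ha, Units.inv_mul_cancel_right, add_sub_cancel]
  have key : ∃ g : P R K, (mat K g *ᵥ v) o = 1 := by
    by_cases hko : o = k
    · obtain ⟨l, hl, hlo, -⟩ := h3 o o
      obtain ⟨g, hg⟩ := step v k l hk (hko ▸ hlo) hv
      obtain ⟨g', hg'⟩ := step (mat K g *ᵥ v) l o hl hlo.symm (by rw [hg, map_one]; exact one_ne_zero)
      exact ⟨g' * g, by rw [s1_act_mul, hg']⟩
    · exact step v k o hk hko hv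
  obtain ⟨g, hg⟩ := key
  obtain ⟨y, -, hy⟩ := s1_exists_vec (K := K) ho (a := 1) hg
  refine ⟨g⁻¹ * y, ?_⟩
  rw [Units.val_one] at hy
  rw [s1_act_mul, hy, ← s1_act_mul, inv_mul_cancel, map_one, Matrix.one_mulVec]

/-- (S1) The stabiliser of `e_o` in `P K` is generated by the `x i j r` with `j ∉ K ∪ {o}`.
Proof.  `H := U R K univ {o}ᶜ`, `Ω := P R K ⧸ H` with the left action, `ω₀ := 1`.
Call `ω` `k`-standard if `x i j r • ω = ω` for all `i` and all `j ≠ k`.  For units `s` put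
`w l k s := x k l s⁻¹ * x l k s * x k l s⁻¹` (`l ≠ k`, both `∉ K`; an involution).  Conjugation
formulas (`x_conj_left/right`, char 2), `m ∉ {l,k}`: `w` sends `x k m r ↦ x l m (s r)`,
`x l m r ↦ x k m (s⁻¹ r)`, `x m l r ↦ x m k (r s)`, `x m k r ↦ x m l (r s⁻¹)`.
(a) `ω` `k`-standard ⇒ `w l k s • ω` `l`-standard (for `x l k r` write it as `⁅x l m r, x m k 1⁆`).
(b0) `ω` `m`-standard, `l,k,m` distinct ⇒ `w l k s • w k m u • ω = w l m (s u) • ω`
  (since `w l k s * w k m u * (w l k s)⁻¹ = w l m (s u)` and `w l k s` fixes `ω`).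
Put `c k u := w k o u • ω₀` (`k ≠ o`), `c o u := w o l₀ u • c l₀ 1`.  Then `c k u` is `k`-standard
and (b) `w l k s • c k u = c l (s u)` for all `l ≠ k` (use a third index and (b0)).
`τ k v := blk (column k with entries v i * (v k)⁻¹, i ≠ k) • c k (v k)` for `v k` a unit, `k ∉ K`.
Case A: `k ≠ i` ⇒ `x i j r • τ k v = τ k (x i j r • v)` (`j = k`: `blk_add`; `j ≠ k`: conjugate the
column block using `x_mem_normalizer`, `U_inj`, and `x i j r` fixes `c k _`).
Independence `τ k v = τ l v`: by case A reduce to `v = e_k a + e_l b`; there it is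
`x l k s • c k a = x k l s⁻¹ • c l b` with `s = b a⁻¹`, i.e. (b).
Case B (`i` the only unit coordinate outside `K`): pick `l ∉ K ∪ {i,j}`, `y = x l i 1`,
`x i j r = y * x l j r * x i j r * y`, and apply case A four times (charts `i, l, i, i`).
So `g • τ v = τ (g • v)` for all `g`; with `ω₁ = τ e_o = g₁ • ω₀`, `g₁ = w o l₀ 1 * w l₀ o 1` fixing
`e_o`: `Stab e_o` fixes `ω₁`, so lies in `g₁ H g₁⁻¹`; applied to `g₁` this gives `g₁ ∈ H`. -/
theorem stab_mem (hε : Aug ε) {K : Set I} {o : I} (ho : o ∉ K)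
    (h3 : ∀ a b : I, ∃ c, c ∉ K ∧ c ≠ a ∧ c ≠ b) {g : P R K}
    (hg : mat K g *ᵥ Pi.single o 1 = Pi.single o 1) : g ∈ U R K Set.univ {o}ᶜ := by
  set H := U R K Set.univ {o}ᶜ with hH
  let ω₀ : P R K ⧸ H := ((1 : P R K) : P R K ⧸ H)
  have hst : ∀ g : P R K, g • ω₀ = ω₀ ↔ g ∈ H := fun g => by
    rw [← MulAction.mem_stabilizer_iff, MulAction.stabilizer_quotient]
  have h0 : S1Std R K o ω₀ := fun i j r hj =>
    (hst _).2 (x_mem_U (Set.mem_univ i) (Set.mem_compl_singleton_iff.2 hj) r)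
  obtain ⟨l₀, hl₀, hl₀o, -⟩ := h3 o o
  obtain ⟨c, hc, hw, hco⟩ := s1_exists_c ho hl₀ hl₀o h3 h0
  have r1 : S1Rel K c o (Pi.single o 1) (c o 1) :=
    ⟨1, 1, one_mem _, by rw [map_one, Matrix.one_mulVec, Units.val_one], (one_smul _ _).symm⟩
  have fix : ∀ g : P R K, mat K g *ᵥ Pi.single o 1 = Pi.single o 1 → g • c o 1 = c o 1 := by
    intro g hg
    obtain ⟨k, hk, h⟩ := (s1_equiv hε h3 hc hw g _ _).1 ⟨o, ho, r1⟩
    rw [hg] at h
    exact h.indep hc hw hk ho r1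
  have h1 := fix (s1w K o l₀ (1 : Rˣ) * s1w K l₀ o (1 : Rˣ)) (by
    rw [s1_act_mul, s1_act_w hl₀ ho hl₀o, s1_act_w ho hl₀ hl₀o.symm]
    simp)
  rw [← mul_smul] at hco
  have h2 : c o 1 = ω₀ := by
    conv_rhs at h1 => rw [hco]
    exact smul_left_cancel _ h1
  have h3 := fix g hg
  rw [h2] at h3
  exact (hst g).1 h3

theorem stab_res (hε : Aug ε) {K : Set I} {o : I} (ho : o ∉ K)
    (h3 : ∀ a b : I, ∃ c, c ∉ K ∧ c ≠ a ∧ c ≠ b) {g : P R K}
    (hg : mat K g *ᵥ Pi.single o 1 = Pi.single o 1) :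
    ∃ q : P R (insert o K), P.res (Set.subset_insert o K) q = g := by
  have : U R K Set.univ {o}ᶜ ≤ (P.res (R := R) (Set.subset_insert o K)).range :=
    U_le fun a _ b hb r hab => ⟨x _ a b r, P.res_x _ ⟨hab.1, by
      rintro (h | h)
      · exact hb h
      · exact hab.2 h⟩ r⟩
  exact this (stab_mem hε ho h3 hg)

omit [DecidableEq I] in
theorem exists_third (hI : 3 ≤ Fintype.card I) (a b : I) :
    ∃ c, c ∉ (∅ : Set I) ∧ c ≠ a ∧ c ≠ b := by
  classical
  by_contra h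
  push Not at h
  have : (Finset.univ : Finset I) ⊆ {a, b} := fun c _ => by
    by_cases hc : c = a
    · simp [hc]
    · simp [h c (by simp) hc]
  have h1 := Finset.card_le_card this
  have h2 : ({a, b} : Finset I).card ≤ 2 := Finset.card_le_two
  rw [Finset.card_univ] at h1
  omega

/-- `K₂` is central -/
theorem central (hε : Aug ε) (hI : 3 ≤ Fintype.card I) {z : St I R} (hz : mat ∅ z = 1) :
    z ∈ Subgroup.center (St I R) := by
  have key : ∀ i j r, Ok (∅ : Set I) i j → x ∅ i j r ∈ Subgroup.centralizer {z} := by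
    intro i j r hij
    have hd : Disjoint ({i} : Set I) {i}ᶜ := disjoint_compl_right
    have h1 : z ∈ U R ∅ Set.univ {i}ᶜ :=
      stab_mem hε (by simp) (exists_third hI) (by rw [hz, Matrix.one_mulVec])
    have h2 : U R ∅ Set.univ {i}ᶜ ≤ Subgroup.normalizer (U R ∅ {i} {i}ᶜ : Set (St I R)) :=
      U_le fun a _ b hb s _ => x_mem_normalizer hd (fun h => absurd h hb) (fun _ => hb) s
    have h3 : x ∅ i j r ∈ U R ∅ {i} {i}ᶜ := x_mem_U (Set.mem_singleton i) (Set.mem_compl_singleton_iff.2 hij.1.symm) r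
    have h4 := U_inj hd (conj_mem_U (h2 h1) h3) h3
      (by rw [map_mul, map_mul, hz, one_mul, ← mul_one (mat ∅ z⁻¹), ← hz, mat_inv_mul, mul_one])
    rw [Subgroup.mem_centralizer_singleton_iff, ← mul_inv_eq_iff_eq_mul.1 h4]
  rw [Subgroup.mem_center_iff]
  intro g
  exact Subgroup.mem_centralizer_singleton_iff.1 (P.mem_of_x _ key g)

end Crest.Agent.R176
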