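import Crest.Agent.R176.StDef

/-! Row 176, group half: Weyl elements, standard points and charts (auxiliary to `StS1`). -/

set_option autoImplicit false
set_option linter.unusedSectionVars false

namespace Crest.Agent.R176

open scoped commutatorElement
open Matrix

section weyl

variable {I : Type} {R : Type} [Ring R] [CharP R 2] {K : Set I}

/-- Weyl elements -/
def s1w (K : Set I) (l k : I) (s : Rˣ) : P R K :=
  x K k l (↑s⁻¹ : R) * x K l k (s : R) * x K k l (↑s⁻¹ : R)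

theorem s1w_inv (l k : I) (s : Rˣ) : (s1w K l k s)⁻¹ = s1w K l k s := by
  simp only [s1w, _root_.mul_inv_rev, x_inv, mul_assoc]

theorem s1w_conj (l k : I) (s : Rˣ) (g : P R K) : MulAut.conj (s1w K l k s) g =
    MulAut.conj (x K k l (↑s⁻¹ : R)) (MulAut.conj (x K l k (s : R))
      (MulAut.conj (x K k l (↑s⁻¹ : R)) g)) := by
  simp only [s1w, map_mul, MulAut.mul_apply]

theorem s1w_conj_conj (l k : I) (s : Rˣ) (g : P R K) :
    MulAut.conj (s1w K l k s) (MulAut.conj (s1w K l k s) g) = g := by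
  rw [← MulAut.mul_apply, ← map_mul]
  conv_lhs => enter [1, 2, 2]; rw [← s1w_inv]
  simp

omit [CharP R 2] in
theorem s1_conj_comm {g h : P R K} (hc : Commute g h) : MulAut.conj g h = h := by
  rw [MulAut.conj_apply, hc.eq, mul_inv_cancel_right]

theorem s1_sandwich {g h : P R K} (hc : Commute g h) (hg : g * g = 1) : g * h * g = h := by
  rw [hc.eq, mul_assoc, hg, mul_one]

variable {l k m : I}

theorem s1w_km (hl : l ∉ K) (hk : k ∉ K) (hlk : l ≠ k) (hml : m ≠ l) (hmk : m ≠ k) (s : Rˣ)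
    (r : R) : MulAut.conj (s1w K l k s) (x K k m r) = x K l m (s * r) := by
  by_cases hm : m ∈ K
  · rw [x_triv fun h => h.2 hm, x_triv fun h => h.2 hm, map_one]
  have h1 : ∀ t : R, MulAut.conj (x K k l (↑s⁻¹ : R)) (x K k m t) = x K k m t := fun t =>
    s1_conj_comm (x_comm hlk hmk.symm _ _)
  rw [s1w_conj, h1, MulAut.conj_apply (x K l k _), x_conj_left ⟨hlk, hk⟩ ⟨hmk.symm, hm⟩ hml.symm,
    map_mul, h1, MulAut.conj_apply, x_conj_left ⟨hlk.symm, hl⟩ ⟨hml.symm, hm⟩ hmk.symm,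
    Units.inv_mul_cancel_left]
  exact s1_sandwich (x_comm hml hmk.symm _ _) (x_mul_self _ _ _)

theorem s1w_lm (hl : l ∉ K) (hk : k ∉ K) (hlk : l ≠ k) (hml : m ≠ l) (hmk : m ≠ k) (s : Rˣ)
    (r : R) : MulAut.conj (s1w K l k s) (x K l m r) = x K k m (↑s⁻¹ * r) := by
  conv_rhs => rw [← s1w_conj_conj l k s (x K k m _), s1w_km hl hk hlk hml hmk,
    Units.mul_inv_cancel_left]

theorem s1w_ml (hl : l ∉ K) (hk : k ∉ K) (hlk : l ≠ k) (hml : m ≠ l) (hmk : m ≠ k) (s : Rˣ)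
    (r : R) : MulAut.conj (s1w K l k s) (x K m l r) = x K m k (r * s) := by
  have h1 : ∀ t : R, MulAut.conj (x K k l (↑s⁻¹ : R)) (x K m l t) = x K m l t := fun t =>
    s1_conj_comm (x_comm hml.symm hlk.symm _ _)
  rw [s1w_conj, h1, MulAut.conj_apply (x K l k _), x_conj_right ⟨hml, hl⟩ ⟨hlk, hk⟩ hmk,
    map_mul, h1, MulAut.conj_apply, x_conj_right ⟨hmk, hk⟩ ⟨hlk.symm, hl⟩ hml,
    CharTwo.neg_eq, CharTwo.neg_eq, Units.mul_inv_cancel_right]
  exact s1_sandwich (x_comm hml.symm hmk _ _) (x_mul_self _ _ _)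

theorem s1w_mk (hl : l ∉ K) (hk : k ∉ K) (hlk : l ≠ k) (hml : m ≠ l) (hmk : m ≠ k) (s : Rˣ)
    (r : R) : MulAut.conj (s1w K l k s) (x K m k r) = x K m l (r * ↑s⁻¹) := by
  conv_rhs => rw [← s1w_conj_conj l k s (x K m l _), s1w_ml hl hk hlk hml hmk,
    Units.inv_mul_cancel_right]

theorem s1w_mn {n : I} (hml : m ≠ l) (hmk : m ≠ k) (hnl : n ≠ l) (hnk : n ≠ k) (s : Rˣ)
    (r : R) : MulAut.conj (s1w K l k s) (x K m n r) = x K m n r := by
  rw [s1w_conj, s1_conj_comm (x_comm hml.symm hnk.symm _ _),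
    s1_conj_comm (x_comm hmk.symm hnl.symm _ _), s1_conj_comm (x_comm hml.symm hnk.symm _ _)]

theorem s1w_w (hl : l ∉ K) (hk : k ∉ K) (hlk : l ≠ k) (hml : m ≠ l) (hmk : m ≠ k) (s u : Rˣ) :
    MulAut.conj (s1w K l k s) (s1w K k m u) = s1w K l m (s * u) := by
  conv_lhs => enter [2]; rw [s1w]
  rw [map_mul, map_mul, s1w_mk hl hk hlk hml hmk, s1w_km hl hk hlk hml hmk, s1w,
    _root_.mul_inv_rev, Units.val_mul, Units.val_mul]

variable {Ω : Type} [MulAction (P R K) Ω]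

/-- standard points -/
def S1Std (R : Type) [Ring R] (K : Set I) {Ω : Type} [MulAction (P R K) Ω] (k : I) (ω : Ω) : Prop :=
  ∀ i j (r : R), j ≠ k → x K i j r • ω = ω

theorem S1Std.w {ω : Ω} (h : S1Std R K k ω) (hl : l ∉ K) (hk : k ∉ K) (hlk : l ≠ k)
    (h3 : ∀ a b : I, ∃ c, c ∉ K ∧ c ≠ a ∧ c ≠ b) (s : Rˣ) : S1Std R K l (s1w K l k s • ω) := by
  let T : Subgroup (P R K) :=
    (MulAction.stabilizer (P R K) ω).comap (MulAut.conj (s1w K l k s)).toMonoidHom
  have hT : ∀ g, g ∈ T ↔ MulAut.conj (s1w K l k s) g • ω = ω := fun g => Iff.rfl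
  have key : ∀ i j (r : R), j ≠ l → x K i j r ∈ T := by
    have k1 : ∀ i (r : R), i ≠ l → i ≠ k → x K i k r ∈ T := fun i r hil hik => by
      rw [hT, s1w_mk hl hk hlk hil hik]
      exact h _ _ _ hlk
    have k2 : ∀ i j (r : R), j ≠ l → j ≠ k → x K i j r ∈ T := fun i j r hjl hjk => by
      rw [hT]
      by_cases hik : i = k
      · rw [hik, s1w_km hl hk hlk hjl hjk]
        exact h _ _ _ hjk
      · by_cases hil : i = l
        · rw [hil, s1w_lm hl hk hlk hjl hjk]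
          exact h _ _ _ hjk
        · rw [s1w_mn hil hik hjl hjk]
          exact h _ _ _ hjk
    intro i j r hjl
    by_cases hjk : j = k
    · subst hjk
      by_cases hij : i = j
      · rw [x_triv fun h => h.1 hij]
        exact one_mem T
      · by_cases hil : i = l
        · subst hil
          obtain ⟨m, hm, hmi, hmj⟩ := h3 i j
          have := x_mul (K := K) (i := i) (j := m) (k := j) ⟨hmi.symm, hm⟩ ⟨hmj, hk⟩ hij r 1
          rw [mul_one] at this
          rw [← this, commutatorElement_def]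
          have a1 := k2 i m r hmi hmj
          have a2 := k1 m 1 hmi hmj
          exact mul_mem (mul_mem (mul_mem a1 a2) (inv_mem a1)) (inv_mem a2)
        · exact k1 i r hil hij
    · exact k2 i j r hjl hjk
  intro i j r hj
  have := (hT _).1 (key i j r hj)
  rw [MulAut.conj_apply, s1w_inv, mul_smul, mul_smul, ← eq_inv_smul_iff, s1w_inv] at this
  exact this

theorem S1Std.ww {ω : Ω} (h : S1Std R K m ω) (hl : l ∉ K) (hk : k ∉ K) (hlk : l ≠ k)
    (hml : m ≠ l) (hmk : m ≠ k) (s u : Rˣ) :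
    s1w K l k s • s1w K k m u • ω = s1w K l m (s * u) • ω := by
  have h1 : s1w K l k s • ω = ω := by
    rw [s1w, mul_smul, mul_smul, h _ _ _ hml.symm, h _ _ _ hmk.symm, h _ _ _ hml.symm]
  rw [← s1w_w hl hk hlk hml hmk, MulAut.conj_apply, s1w_inv, mul_smul, mul_smul, h1]

theorem s1_exists_c {o l₀ : I} (ho : o ∉ K) (hl₀ : l₀ ∉ K) (hl₀o : l₀ ≠ o)
    (h3 : ∀ a b : I, ∃ c, c ∉ K ∧ c ≠ a ∧ c ≠ b) {ω₀ : Ω} (h : S1Std R K o ω₀) :
    ∃ c : I → Rˣ → Ω, (∀ k u, k ∉ K → S1Std R K k (c k u)) ∧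
      (∀ l k s u, l ∉ K → k ∉ K → l ≠ k → s1w K l k s • c k u = c l (s * u)) ∧
      c o 1 = s1w K o l₀ (1 : Rˣ) • s1w K l₀ o (1 : Rˣ) • ω₀ := by
  classical
  let c : I → Rˣ → Ω := fun k u =>
    if k = o then s1w K o l₀ u • s1w K l₀ o (1 : Rˣ) • ω₀ else s1w K k o u • ω₀
  have c1 : ∀ k u, k ≠ o → c k u = s1w K k o u • ω₀ := fun k u hk => if_neg hk
  have c2 : ∀ u, c o u = s1w K o l₀ u • c l₀ 1 := fun u => by
    rw [c1 l₀ 1 hl₀o]
    exact if_pos rfl
  have s1 : ∀ k u, k ∉ K → k ≠ o → S1Std R K k (c k u) := fun k u hk hko => by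
    rw [c1 k u hko]
    exact h.w hk ho hko h3 u
  have b1 : ∀ l k s u, l ∉ K → k ∉ K → l ≠ k → l ≠ o → k ≠ o →
      s1w K l k s • c k u = c l (s * u) := fun l k s u hl hk hlk hlo hko => by
    rw [c1 k u hko, c1 l _ hlo]
    exact h.ww hl hk hlk hlo.symm hko.symm s u
  have b2 : ∀ k s u, k ∉ K → k ≠ o → k ≠ l₀ → s1w K o k s • c k u = c o (s * u) :=
    fun k s u hk hko hkl => by
      have e := b1 k l₀ u 1 hk hl₀ hkl hko hl₀o
      rw [mul_one] at e
      rw [← e, c2]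
      exact (s1 l₀ 1 hl₀ hl₀o).ww ho hk hko.symm hl₀o hkl.symm s u
  have b3 : ∀ k s u, k ∉ K → k ≠ o → s1w K o k s • c k u = c o (s * u) := fun k s u hk hko => by
    by_cases hkl : k = l₀
    · obtain ⟨n, hn, hno, hnk⟩ := h3 o k
      have e := b1 k n u 1 hk hn hnk.symm hko hno
      rw [mul_one] at e
      have e' := b2 n (s * u) 1 hn hno (hkl ▸ hnk)
      rw [mul_one] at e'
      rw [← e, ← e']
      exact (s1 n 1 hn hno).ww ho hk hko.symm hno hnk s u
    · exact b2 k s u hk hko hkl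
  refine ⟨c, fun k u hk => ?_, fun l k s u hl hk hlk => ?_, by rw [c2, c1 l₀ 1 hl₀o]⟩
  · by_cases hko : k = o
    · rw [hko, c2]
      exact (s1 l₀ 1 hl₀ hl₀o).w ho hl₀ hl₀o.symm h3 u
    · exact s1 k u hk hko
  · by_cases hlo : l = o
    · subst hlo
      exact b3 k s u hk hlk.symm
    · by_cases hko : k = o
      · subst hko
        obtain ⟨n, hn, hnk, hnl⟩ := h3 k l
        have e := b3 n u 1 hn hnk
        rw [mul_one] at e
        have e' := b1 l n (s * u) 1 hl hn hnl.symm hlo hnk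
        rw [mul_one] at e'
        rw [← e, ← e']
        exact (s1 n 1 hn hnk).ww hl hk hlk hnl hnk s u
      · exact b1 l k s u hl hk hlk hlo hko

end weyl

section chart

variable {I : Type} [Fintype I] [DecidableEq I] {R : Type} [Ring R] [CharP R 2] {K : Set I}

theorem s1_act_mul (g h : P R K) (v : I → R) :
    mat K (g * h) *ᵥ v = mat K g *ᵥ (mat K h *ᵥ v) := by
  rw [map_mul, Matrix.mulVec_mulVec]

theorem s1_act_x {i j : I} (h : Ok K i j) (r : R) (v : I → R) :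
    mat K (x K i j r) *ᵥ v = v + Pi.single i (r * v j) := by
  rw [mat_x h, Matrix.add_mulVec, Matrix.one_mulVec, Matrix.single_mulVec]
  rfl

theorem s1_act_x_ne {i j m : I} (hm : m ≠ i) (r : R) (v : I → R) :
    (mat K (x K i j r) *ᵥ v) m = v m := by
  by_cases h : Ok K i j
  · rw [s1_act_x h, Pi.add_apply, Pi.single_eq_of_ne hm, add_zero]
  · rw [x_triv h, map_one, Matrix.one_mulVec]

theorem s1_act_x_self {i j : I} (h : Ok K i j) (r : R) (v : I → R) :
    (mat K (x K i j r) *ᵥ v) i = v i + r * v j := by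
  rw [s1_act_x h, Pi.add_apply, Pi.single_eq_same]

theorem s1_act_x_single {i j k : I} (hjk : j ≠ k) (r a : R) :
    mat K (x K i j r) *ᵥ Pi.single k a = Pi.single k a := by
  by_cases h : Ok K i j
  · rw [s1_act_x h, Pi.single_eq_of_ne hjk, mul_zero, Pi.single_zero, add_zero]
  · rw [x_triv h, map_one, Matrix.one_mulVec]

theorem s1_act_w {l k : I} (hl : l ∉ K) (hk : k ∉ K) (hlk : l ≠ k) (s : Rˣ) (a : R) :
    mat K (s1w K l k s) *ᵥ Pi.single k a = Pi.single l (s * a) := by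
  rw [s1w, s1_act_mul, s1_act_mul, s1_act_x_single hlk, s1_act_x ⟨hlk, hk⟩,
    s1_act_x ⟨hlk.symm, hl⟩, Pi.single_eq_same, Pi.add_apply, Pi.single_eq_of_ne hlk,
    Pi.single_eq_same, zero_add, Units.inv_mul_cancel_left, add_right_comm, ← Pi.single_add,
    CharTwo.add_self_eq_zero, Pi.single_zero, zero_add]

/-- an element of a column subgroup with prescribed entries -/
theorem s1_exists_col {k : I} (hk : k ∉ K) (A : Set I) (hA : k ∉ A) (f : I → R)
    (hf : ∀ i, i ∉ A → f i = 0) :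
    ∃ y ∈ U R K A {k}, ∀ v : I → R, mat K y *ᵥ v = v + fun i => f i * v k := by
  let M : Matrix I I R := Matrix.of fun i j => if j = k then f i else 0
  have hM : Supp M A {k} := fun a b hab => by
    by_cases hb : b = k
    · refine ⟨?_, hb⟩
      by_contra ha
      exact hab (by simp [M, hf a ha])
    · exact absurd (by simp [M, hb]) hab
  refine ⟨blk K M, blk_mem_U hM, fun v => ?_⟩
  rw [mat_blk (Set.disjoint_singleton_right.2 hA) (Set.disjoint_singleton_left.2 hk) hM,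
    Matrix.add_mulVec, Matrix.one_mulVec]
  congr 1
  ext i
  simp [M, Matrix.mulVec, dotProduct]

theorem s1_col_apply {k : I} {y : P R K} (hy : y ∈ U R K {k}ᶜ {k}) (a : R) :
    (mat K y *ᵥ Pi.single k a) k = a := by
  obtain ⟨M, hM, rfl⟩ := exists_blk_of_mem_U disjoint_compl_left hy
  rw [mat_blk (disjoint_compl_left.mono_right Set.sdiff_subset) Set.disjoint_sdiff_left hM,
    Matrix.add_mulVec, Matrix.one_mulVec, Pi.add_apply, Pi.single_eq_same, Matrix.mulVec_single]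
  have : M k k = 0 := by
    by_contra h
    exact (hM k k h).1 rfl
  simp [this]

theorem s1_col_inj {k : I} {y y' : P R K} (hy : y ∈ U R K {k}ᶜ {k}) (hy' : y' ∈ U R K {k}ᶜ {k})
    (a : Rˣ) (h : mat K y *ᵥ Pi.single k (a : R) = mat K y' *ᵥ Pi.single k (a : R)) : y = y' := by
  obtain ⟨M, hM, rfl⟩ := exists_blk_of_mem_U disjoint_compl_left hy
  obtain ⟨N, hN, rfl⟩ := exists_blk_of_mem_U disjoint_compl_left hy'
  rw [mat_blk (disjoint_compl_left.mono_right Set.sdiff_subset) Set.disjoint_sdiff_left hM,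
    mat_blk (disjoint_compl_left.mono_right Set.sdiff_subset) Set.disjoint_sdiff_left hN,
    Matrix.add_mulVec, Matrix.add_mulVec, add_right_inj, Matrix.mulVec_single,
    Matrix.mulVec_single] at h
  congr 1
  ext i j
  by_cases hj : j = k
  · subst hj
    have := congrFun h i
    simpa using this
  · have h1 : M i j = 0 := by
      by_contra h
      exact hj (hM i j h).2.1
    have h2 : N i j = 0 := by
      by_contra h
      exact hj (hN i j h).2.1
    rw [h1, h2]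

variable {Ω : Type} [MulAction (P R K) Ω]

/-- the elements preserving a relation between vectors and points -/
def s1pres (K : Set I) {Ω : Type} [MulAction (P R K) Ω] (Q : (I → R) → Ω → Prop) :
    Subgroup (P R K) where
  carrier := {g | ∀ v ω, Q v ω ↔ Q (mat K g *ᵥ v) (g • ω)}
  one_mem' v ω := by rw [map_one, Matrix.one_mulVec, one_smul]
  mul_mem' := by
    intro g h hg hh v ω
    rw [s1_act_mul, mul_smul, ← hg, ← hh]
  inv_mem' := by
    intro g hg v ω
    rw [hg (mat K g⁻¹ *ᵥ v) (g⁻¹ • ω), ← s1_act_mul, mul_inv_cancel, map_one, Matrix.one_mulVec,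
      smul_inv_smul]

theorem s1pres_x {Q : (I → R) → Ω → Prop} {i j : I} {r : R}
    (h : ∀ v ω, Q v ω → Q (mat K (x K i j r) *ᵥ v) (x K i j r • ω)) : x K i j r ∈ s1pres K Q := by
  intro v ω
  refine ⟨h v ω, fun h' => ?_⟩
  have := h _ _ h'
  rwa [← s1_act_mul, ← mul_smul, x_mul_self, map_one, Matrix.one_mulVec, one_smul] at this

/-- the chart `k` -/
def S1Rel (K : Set I) {Ω : Type} [MulAction (P R K) Ω] (c : I → Rˣ → Ω) (k : I) (v : I → R)
    (ω : Ω) : Prop :=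
  ∃ a : Rˣ, ∃ y ∈ U R K {k}ᶜ {k}, mat K y *ᵥ Pi.single k (a : R) = v ∧ ω = y • c k a

variable {c : I → Rˣ → Ω}

theorem S1Rel.isUnit {k : I} {v : I → R} {ω : Ω} (h : S1Rel K c k v ω) : IsUnit (v k) := by
  obtain ⟨a, y, hy, rfl, -⟩ := h
  rw [s1_col_apply hy]
  exact a.isUnit

theorem S1Rel.unique {k : I} {v : I → R} {ω ω' : Ω} (h : S1Rel K c k v ω)
    (h' : S1Rel K c k v ω') : ω = ω' := by
  obtain ⟨a, y, hy, rfl, rfl⟩ := h
  obtain ⟨a', y', hy', h1, rfl⟩ := h'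
  have h2 : a' = a := Units.ext (by rw [← s1_col_apply hy' (a' : R), h1, s1_col_apply hy])
  subst h2
  rw [s1_col_inj hy' hy a' h1]

theorem s1_exists_vec {k : I} (hk : k ∉ K) {v : I → R} {a : Rˣ} (ha : v k = a) :
    ∃ y ∈ U R K {k}ᶜ {k}, mat K y *ᵥ Pi.single k (a : R) = v := by
  obtain ⟨y, hy, h⟩ := s1_exists_col (K := K) hk {k}ᶜ (fun h => h rfl)
    (fun i => if i = k then 0 else v i * ↑a⁻¹) fun i hi => if_pos (by simpa using hi)
  refine ⟨y, hy, ?_⟩
  rw [h]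
  ext i
  by_cases hi : i = k
  · subst hi
    simp [ha]
  · simp [hi]

theorem s1_exists_rel (c : I → Rˣ → Ω) {k : I} (hk : k ∉ K) {v : I → R} (hv : IsUnit (v k)) :
    ∃ ω, S1Rel K c k v ω := by
  obtain ⟨a, ha⟩ := hv
  obtain ⟨y, hy, h⟩ := s1_exists_vec hk ha.symm
  exact ⟨_, a, y, hy, h, rfl⟩

theorem S1Rel.caseA {k i j : I} (hc : ∀ u, S1Std R K k (c k u)) (hik : i ≠ k) (r : R)
    {v : I → R} {ω : Ω} (h : S1Rel K c k v ω) :
    S1Rel K c k (mat K (x K i j r) *ᵥ v) (x K i j r • ω) := by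
  obtain ⟨a, y, hy, rfl, rfl⟩ := h
  by_cases hjk : j = k
  · subst hjk
    have hx : x K i j r ∈ U R K {j}ᶜ {j} :=
      x_mem_U (Set.mem_compl_singleton_iff.2 hik) (Set.mem_singleton j) r
    exact ⟨a, x K i j r * y, mul_mem hx hy, s1_act_mul _ _ _, (mul_smul _ _ _).symm⟩
  · refine ⟨a, x K i j r * y * (x K i j r)⁻¹,
      conj_x_mem_U disjoint_compl_left (fun _ => Set.mem_compl_singleton_iff.2 hik)
        (fun h => absurd (Set.mem_singleton_iff.1 h) hik) r hy, ?_, ?_⟩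
    · rw [x_inv, s1_act_mul, s1_act_x_single hjk, s1_act_mul]
    · rw [x_inv, mul_smul, hc a _ _ _ hjk, mul_smul]

theorem S1Rel.indep {k l : I} (hc : ∀ k u, k ∉ K → S1Std R K k (c k u))
    (hw : ∀ l k s u, l ∉ K → k ∉ K → l ≠ k → s1w K l k s • c k u = c l (s * u))
    (hk : k ∉ K) (hl : l ∉ K) {v : I → R} {ω ω' : Ω} (h : S1Rel K c k v ω)
    (h' : S1Rel K c l v ω') : ω = ω' := by
  by_cases hlk : l = k
  · subst hlk
    exact h.unique h'
  obtain ⟨a, ha⟩ := h.isUnit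
  obtain ⟨b, hb⟩ := h'.isUnit
  obtain ⟨z, hz, hzv⟩ := s1_exists_col (K := K) hk {k, l}ᶜ (fun h => h (Or.inl rfl))
    (fun i => if i = k ∨ i = l then 0 else v i * ↑a⁻¹) fun i hi => if_pos (not_not.1 hi)
  have hzv' : mat K z *ᵥ v = Pi.single k (a : R) + Pi.single l (b : R) := by
    rw [hzv]
    ext i
    by_cases hik : i = k
    · subst hik
      simp [ha, Ne.symm hlk]
    · by_cases hil : i = l
      · subst hil
        simp [hb, hlk]
      · simp [hik, hil, ← ha, CharTwo.add_self_eq_zero]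
  have z1 : z ∈ s1pres K (S1Rel K c k) :=
    U_le (A := {k, l}ᶜ) (B := {k}) (H := s1pres K (S1Rel K c k))
      (fun i hi j _ r _ => s1pres_x fun v ω h =>
      h.caseA (fun u => hc k u hk) (fun e => hi (Or.inl e)) r) hz
  have z2 : z ∈ s1pres K (S1Rel K c l) :=
    U_le (A := {k, l}ᶜ) (B := {k}) (H := s1pres K (S1Rel K c l))
      (fun i hi j _ r _ => s1pres_x fun v ω h =>
      h.caseA (fun u => hc l u hl) (fun e => hi (Or.inr e)) r) hz
  have h1 := (z1 v ω).1 h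
  have h2 := (z2 v ω').1 h'
  rw [hzv'] at h1 h2
  have r1 : S1Rel K c k (Pi.single k (a : R) + Pi.single l (b : R))
      (x K l k (↑(b * a⁻¹) : R) • c k a) :=
    ⟨a, _, x_mem_U (Set.mem_compl_singleton_iff.2 hlk) (Set.mem_singleton k) _, by
      rw [s1_act_x ⟨hlk, hk⟩, Pi.single_eq_same, Units.val_mul, Units.inv_mul_cancel_right], rfl⟩
  have r2 : S1Rel K c l (Pi.single k (a : R) + Pi.single l (b : R))
      (x K k l (↑(b * a⁻¹)⁻¹ : R) • c l b) :=
    ⟨b, _, x_mem_U (Set.mem_compl_singleton_iff.2 (Ne.symm hlk)) (Set.mem_singleton l) _, by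
      rw [s1_act_x ⟨Ne.symm hlk, hl⟩, Pi.single_eq_same, _root_.mul_inv_rev, inv_inv,
        Units.val_mul, Units.inv_mul_cancel_right, add_comm], rfl⟩
  have e := hw l k (b * a⁻¹) a hl hk hlk
  rw [inv_mul_cancel_right, s1w, mul_smul, mul_smul, hc k a hk _ _ _ hlk, ← eq_inv_smul_iff,
    x_inv] at e
  have e2 : z • ω = z • ω' := by rw [h1.unique r1, h2.unique r2, e]
  exact smul_left_cancel z e2

theorem s1_equiv {ε : R →+* ZMod 2} (hε : Aug ε) (h3 : ∀ a b : I, ∃ c, c ∉ K ∧ c ≠ a ∧ c ≠ b)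
    (hc : ∀ k u, k ∉ K → S1Std R K k (c k u))
    (hw : ∀ l k s u, l ∉ K → k ∉ K → l ≠ k → s1w K l k s • c k u = c l (s * u)) (g : P R K) :
    g ∈ s1pres K fun v ω => ∃ k, k ∉ K ∧ S1Rel K c k v ω := by
  have A : ∀ i j (r : R) v ω k, k ∉ K → i ≠ k → ε (v k) ≠ 0 → (∃ k, k ∉ K ∧ S1Rel K c k v ω) →
      ∃ k, k ∉ K ∧ S1Rel K c k (mat K (x K i j r) *ᵥ v) (x K i j r • ω) := by
    rintro i j r v ω k hk hik hv ⟨k', hk', h⟩
    obtain ⟨ω', h'⟩ := s1_exists_rel c hk (hε.unit _ hv)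
    rw [h.indep hc hw hk' hk h']
    exact ⟨k, hk, h'.caseA (fun u => hc k u hk) hik r⟩
  refine P.mem_of_x _ (fun i j r hij => s1pres_x fun v ω h => ?_) g
  by_cases hB : ∃ k, k ∉ K ∧ i ≠ k ∧ ε (v k) ≠ 0
  · obtain ⟨k, hk, hik, hv⟩ := hB
    exact A i j r v ω k hk hik hv h
  have hB' : ∀ k, k ∉ K → i ≠ k → ε (v k) = 0 := fun k hk hik => by
    by_contra h
    exact hB ⟨k, hk, hik, h⟩
  have hi : i ∉ K ∧ ε (v i) ≠ 0 := by
    obtain ⟨k, hk, h⟩ := h
    have h1 := (hε.isUnit_iff _).1 h.isUnit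
    have h2 : i = k := by
      by_contra h2
      exact h1 (hB' k hk h2)
    rw [h2]
    exact ⟨hk, h1⟩
  obtain ⟨l, hl, hli, hlj⟩ := h3 i j
  have e : x K i j r = x K l i (1 : R) * (x K l j r * (x K i j r * x K l i (1 : R))) := by
    have := x_conj_left (K := K) (i := l) (j := i) (k := j) ⟨hli, hi.1⟩ hij hlj (1 : R) r
    rw [one_mul, x_inv] at this
    rw [← mul_assoc (x K l j r), ← this]
    simp only [← mul_assoc, x_mul_self, one_mul]
    rw [mul_assoc, x_mul_self, mul_one]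
  have h1 := A l i 1 v ω i hi.1 hli hi.2 h
  have h2 := A i j r _ _ l hl hli.symm (by
    rw [s1_act_x_self ⟨hli, hi.1⟩, one_mul, map_add, hB' l hl hli.symm, zero_add]
    exact hi.2) h1
  have u2 : ε ((mat K (x K i j r) *ᵥ (mat K (x K l i (1 : R)) *ᵥ v)) i) ≠ 0 := by
    rw [s1_act_x_self hij, s1_act_x_ne hli.symm, s1_act_x_ne hlj.symm, map_add, map_mul,
      hB' j hij.2 hij.1, mul_zero, add_zero]
    exact hi.2
  have h4 := A l j r _ _ i hi.1 hli u2 h2
  have h5 := A l i 1 _ _ i hi.1 hli (by rwa [s1_act_x_ne hli.symm]) h4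
  rw [← s1_act_mul, ← s1_act_mul, ← s1_act_mul, ← mul_smul, ← mul_smul, ← mul_smul] at h5
  simp only [mul_assoc] at h5
  rwa [← e] at h5

end chart

end Crest.Agent.R176
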