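import Mathlib

/-! Row 176: window-2 rewriting systems and their algebras (interface between the machine half
and the group half). -/

set_option autoImplicit false

namespace Crest.Agent.R176

/-- A length preserving window-2 rewriting system with kill rules; `st` is the static skeleton. -/
structure Sys (X Sig : Type) where
  rule : X → X → Option (X × X) → Prop
  st : X → Sig

namespace Sys

variable {X Sig : Type} (S : Sys X Sig)

/-- `ι : X → R` respects the rules. -/
structure Resp {R : Type*} [Ring R] (ι : X → R) : Prop where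
  step : ∀ a b a' b', S.rule a b (some (a', b')) → ι a * ι b = ι a' * ι b'
  kill : ∀ a b, S.rule a b none → ι a * ι b = 0

/-- the rules preserve the static labels -/
def Static : Prop :=
  ∀ a b a' b', S.rule a b (some (a', b')) → S.st a' = S.st a ∧ S.st b' = S.st b

/-- defining relations -/
inductive Rel : FreeAlgebra (ZMod 2) X → FreeAlgebra (ZMod 2) X → Prop
  | step {a b a' b' : X} : S.rule a b (some (a', b')) →
      Rel (FreeAlgebra.ι _ a * FreeAlgebra.ι _ b) (FreeAlgebra.ι _ a' * FreeAlgebra.ι _ b')
  | kill {a b : X} : S.rule a b none → Rel (FreeAlgebra.ι _ a * FreeAlgebra.ι _ b) 0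

/-- the algebra of the system -/
abbrev Alg : Type := RingQuot S.Rel

/-- the generators -/
noncomputable def ι (a : X) : S.Alg := RingQuot.mkAlgHom (ZMod 2) S.Rel (FreeAlgebra.ι _ a)

/-- the monomial of a word -/
noncomputable def mono (w : List X) : S.Alg := (w.map S.ι).prod

theorem resp_ι : S.Resp S.ι where
  step a b a' b' h := by
    simp only [ι, ← map_mul]
    exact RingQuot.mkAlgHom_rel _ (Rel.step h)
  kill a b h := by
    simp only [ι, ← map_mul]
    rw [RingQuot.mkAlgHom_rel _ (Rel.kill h), map_zero]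

/-- universal property -/
noncomputable def lift {A : Type*} [Ring A] [Algebra (ZMod 2) A] (f : X → A) (hf : S.Resp f) :
    S.Alg →ₐ[ZMod 2] A :=
  RingQuot.liftAlgHom (ZMod 2) ⟨FreeAlgebra.lift _ f, by
    intro x y h
    cases h with
    | step h => simpa using hf.step _ _ _ _ h
    | kill h => simpa using hf.kill _ _ h⟩

@[simp] theorem lift_ι {A : Type*} [Ring A] [Algebra (ZMod 2) A] (f : X → A) (hf : S.Resp f)
    (a : X) : S.lift f hf (S.ι a) = f a := by
  simp [lift, ι, RingQuot.liftAlgHom_mkAlgHom_apply]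

theorem algHom_ext {A : Type*} [Ring A] [Algebra (ZMod 2) A] {f g : S.Alg →ₐ[ZMod 2] A}
    (h : ∀ a, f (S.ι a) = g (S.ι a)) : f = g := by
  apply RingQuot.ringQuot_ext'
  ext a
  exact h a

@[simp] theorem mono_nil : S.mono [] = 1 := rfl

@[simp] theorem mono_cons (a : X) (w : List X) : S.mono (a :: w) = S.ι a * S.mono w := by
  simp [mono]

theorem mono_append (u v : List X) : S.mono (u ++ v) = S.mono u * S.mono v := by
  simp [mono]

/-- the grading by word length -/
noncomputable def grade (d : ℕ) : Submodule (ZMod 2) S.Alg :=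
  (Submodule.span (ZMod 2) (Set.range S.ι)) ^ d

/-- the augmentation -/
noncomputable def eps : S.Alg →ₐ[ZMod 2] ZMod 2 :=
  S.lift (fun _ => 0) ⟨fun _ _ _ _ _ => rfl, fun _ _ _ => mul_zero _⟩

/-- (NZ) there are nonzero monomials of every length -/
def NZ : Prop := ∀ n : ℕ, ∃ w : List X, w.length = n ∧ S.mono w ≠ 0

/-- (AP) long words with a periodic skeleton vanish -/
def AP : Prop := ∀ P : ℕ, ∃ N : ℕ, ∀ (w : List X) (p : ℕ), N ≤ w.length → 1 ≤ p → p ≤ P →
  (∀ i, (h : i + p < w.length) → S.st w[i + p] = S.st (w[i]'(by omega))) → S.mono w = 0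

/-- (NIL) matrices over the augmentation ideal are nilpotent -/
def NIL : Prop := ∀ (Y : Type) [Fintype Y] [DecidableEq Y] (A : Matrix Y Y S.Alg),
  (∀ i j, S.eps (A i j) = 0) → IsNilpotent A

/-- (KILL) the weighted form of nilpotency for matrices linear in the generators -/
def KILL [Fintype X] : Prop :=
  ∀ (K : Type) [CommRing K] [CharP K 2] (Y : Type) [Fintype Y] [DecidableEq Y]
    (B : X → Matrix Y Y K), ∃ N : ℕ, ∀ n, N ≤ n → ∀ f : Matrix Y Y K →+ ZMod 2,
      ∑ w : Fin n → X, f ((List.ofFn fun i => B (w i)).prod) • S.mono (List.ofFn w) = 0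

end Sys

end Crest.Agent.R176
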